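import Vale.Agent.P100.Cal.Jet
import Vale.Agent.P100.Sys.Ineq

/-!
P100, calibrated identity: scaling of the quartic, and absorption of the cutoff term by a coercive
quartic with bounded coefficients.
-/

namespace Vale.Agent.P100.Cal

open Vale.Agent.P100.Sys (ip fr qf ip_self_nonneg)

variable {n : ℕ}

theorem T₁_pos (α s : ℝ) : 0 < T₁ α s := Real.exp_pos _

theorem T₂_pos (β s : ℝ) : 0 < T₂ β s := Real.exp_pos _

theorem ip_smul_smul (r r' : ℝ) (a b : Fin n → ℝ) :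
    ip (fun i => r * a i) (fun i => r' * b i) = r * r' * ip a b := by
  simp only [ip, Finset.mul_sum]
  exact Finset.sum_congr rfl fun i _ => by ring

/-- The hypothesis at unit scale gives it at every scale. -/
theorem Absorbs.scale {α β m S : ℝ} {K : Coef} {V ω : ℝ → ℝ} (h : Absorbs n α β m S K V ω) {s : ℝ}
    (hs : s ≤ S) {ξ : ℝ} (hξ : 0 < ξ) (H : Fin n → Fin n → ℝ) (a b d : Fin n → ℝ)
    (hsym : ∀ i j, H i j = H j i) (htr : ∑ i, H i i = ip a a + ξ * T₁ α s) :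
    ξ ^ 2 * V s ≤
      jetX α β m K s ξ H a b + ∑ i, d i * flux K s ξ H a b i + ω s * ip d d ^ 2 := by
  have hξ0 := hξ.ne'
  set r := Real.sqrt ξ with hr
  have hr0 : 0 < r := Real.sqrt_pos.2 hξ
  have hr2 : r ^ 2 = ξ := Real.sq_sqrt hξ.le
  obtain ⟨H', rfl⟩ : ∃ H', H = fun i j => ξ * H' i j :=
    ⟨fun i j => H i j / ξ, by funext i j; field_simp⟩
  obtain ⟨a', rfl⟩ : ∃ a', a = fun i => r * a' i :=
    ⟨fun i => a i / r, by funext i; field_simp⟩
  obtain ⟨b', rfl⟩ : ∃ b', b = fun i => r * b' i :=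
    ⟨fun i => b i / r, by funext i; field_simp⟩
  obtain ⟨d', rfl⟩ : ∃ d', d = fun i => r * d' i :=
    ⟨fun i => d i / r, by funext i; field_simp⟩
  have hrr : r * r = ξ := by rw [← pow_two, hr2]
  have key := h s hs H' a' b' d' (fun i j => mul_left_cancel₀ hξ0 (hsym i j)) (by
    rw [ip_smul_smul, hrr, ← Finset.mul_sum] at htr
    exact mul_left_cancel₀ hξ0 (htr.trans (by ring)))
  have e1 : jetX α β m K s ξ (fun i j => ξ * H' i j) (fun i => r * a' i) (fun i => r * b' i) =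
      ξ ^ 2 * jetX α β m K s 1 H' a' b' := by
    have f1 : fr (fun i j => ξ * H' i j) = ξ ^ 2 * fr H' := by
      simp only [fr, Finset.mul_sum]
      exact Finset.sum_congr rfl fun i _ => Finset.sum_congr rfl fun j _ => by ring
    have f2 : qf (fun i j => ξ * H' i j) (fun i => r * a' i) = ξ * r ^ 2 * qf H' a' := by
      simp only [qf, Finset.mul_sum]
      exact Finset.sum_congr rfl fun i _ => Finset.sum_congr rfl fun j _ => by ring
    have f3 : bil (fun i j => ξ * H' i j) (fun i => r * a' i) (fun i => r * b' i) =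
        ξ * r ^ 2 * bil H' a' b' := by
      simp only [bil, Finset.mul_sum]
      exact Finset.sum_congr rfl fun i _ => Finset.sum_congr rfl fun j _ => by ring
    simp only [jetX, f1, f2, f3, ip_smul_smul, hrr, hr2]
    ring
  have e2 : ∑ i, r * d' i *
        flux K s ξ (fun i j => ξ * H' i j) (fun i => r * a' i) (fun i => r * b' i) i =
      ξ ^ 2 * ∑ i, d' i * flux K s 1 H' a' b' i := by
    have f4 : ∀ i, ∑ j, ξ * H' i j * (r * a' j) = ξ * r * ∑ j, H' i j * a' j := fun i => by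
      rw [Finset.mul_sum]; exact Finset.sum_congr rfl fun j _ => by ring
    rw [Finset.mul_sum]
    refine Finset.sum_congr rfl fun i _ => ?_
    simp only [flux, ip_smul_smul, hrr, f4]
    rw [show ξ ^ 2 = r * r * ξ by rw [hrr]; ring]
    ring
  rw [e1, e2, ip_smul_smul, hrr]
  have := mul_le_mul_of_nonneg_left key (sq_nonneg ξ)
  linarith

theorem pair_bound {δ : ℝ} (hδ : 0 < δ) {t u v : ℝ} (h : t ^ 2 ≤ u * v) (hu : 0 ≤ u) (hv : 0 ≤ v) :
    -(δ * u + v / (4 * δ)) ≤ t := by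
  have h1 : 0 ≤ δ * u + v / (4 * δ) := by positivity
  have h2 : t ^ 2 ≤ (δ * u + v / (4 * δ)) ^ 2 := by
    refine h.trans ?_
    have e : (δ * u + v / (4 * δ)) ^ 2 - u * v = (δ * u - v / (4 * δ)) ^ 2 := by
      field_simp; ring
    linarith [sq_nonneg (δ * u - v / (4 * δ))]
  have := abs_le_of_sq_le_sq' h2 h1
  linarith [this.1]

theorem ip_sq_le (a b : Fin n → ℝ) : ip a b ^ 2 ≤ ip a a * ip b b := by
  simpa [ip, pow_two] using Finset.sum_mul_sq_le_sq_mul_sq Finset.univ a b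

/-- The cutoff term is absorbed by the bulk. -/
theorem flux_bound {α β C δ : ℝ} (hδ : 0 < δ) (hC : 1 ≤ C) {K : Coef} {s : ℝ}
    (hc₁ : |K.c₁ s| ≤ C) (hc₂ : |K.c₂ s| ≤ C) (hl₁ : |K.l₁ s| ≤ C * (T₁ α s + T₂ β s))
    (hl₂ : |K.l₂ s| ≤ C * (T₁ α s + T₂ β s)) (H : Fin n → Fin n → ℝ) (a b d : Fin n → ℝ) :
    -(10 * δ * bulk α β s H a b + 3 * C ^ 4 / (64 * δ ^ 3) * ip d d ^ 2) ≤
      ∑ i, d i * flux K s 1 H a b i := by
  set T := T₁ α s + T₂ β s with hT
  have hT0 : 0 < T := add_pos (T₁_pos _ _) (T₂_pos _ _)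
  set X := ip a a with hX
  set Y := ip b b with hY
  set D := ip d d with hD
  have hX0 : 0 ≤ X := ip_self_nonneg a
  have hY0 : 0 ≤ Y := ip_self_nonneg b
  have hD0 : 0 ≤ D := ip_self_nonneg d
  have hF0 : 0 ≤ fr H := Finset.sum_nonneg fun i _ => Finset.sum_nonneg fun j _ => sq_nonneg _
  have e : ∑ i, d i * flux K s 1 H a b i = ip d (fun i => ∑ j, H i j * a j) +
      (K.c₁ s * X + K.l₁ s) * ip d a + (K.c₂ s * X + K.l₂ s) * ip d b := by
    have h : ∀ i, d i * flux K s 1 H a b i = d i * (∑ j, H i j * a j) +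
        (K.c₁ s * X + K.l₁ s) * (d i * a i) + (K.c₂ s * X + K.l₂ s) * (d i * b i) := fun i => by
      simp only [flux, ← hX, one_mul]; ring
    simp only [h, Finset.sum_add_distrib, ← Finset.mul_sum]
    rfl
  have hHa : ip (fun i => ∑ j, H i j * a j) (fun i => ∑ j, H i j * a j) ≤ fr H * X := by
    simp only [fr, hX, ip, Finset.sum_mul]
    refine Finset.sum_le_sum fun i _ => ?_
    have := Finset.sum_mul_sq_le_sq_mul_sq Finset.univ (H i) a
    simpa [ip, pow_two, Finset.sum_mul] using this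
  have t1 : -(δ * fr H + δ * X ^ 2 + D ^ 2 / (64 * δ ^ 3)) ≤
      ip d (fun i => ∑ j, H i j * a j) := by
    have h := pair_bound hδ (u := fr H) (v := X * D)
      ((ip_sq_le d _).trans ((mul_le_mul_of_nonneg_left hHa hD0).trans_eq (by ring)))
      hF0 (mul_nonneg hX0 hD0)
    have h2 : X * D / (4 * δ) ≤ δ * X ^ 2 + D ^ 2 / (64 * δ ^ 3) := by
      have e : δ * X ^ 2 + D ^ 2 / (64 * δ ^ 3) - X * D / (4 * δ) =
          δ * (X - D / (8 * δ ^ 2)) ^ 2 := by field_simp; ring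
      linarith [mul_nonneg hδ.le (sq_nonneg (X - D / (8 * δ ^ 2)))]
    linarith
  have hcoef : ∀ c l : ℝ, |c| ≤ C → |l| ≤ C * T → (c * X + l) ^ 2 ≤ C ^ 2 * (X + T) ^ 2 := by
    intro c l h1 h2
    have : |c * X + l| ≤ C * (X + T) := by
      refine (abs_add_le _ _).trans ?_
      rw [abs_mul, abs_of_nonneg hX0, mul_add]
      exact add_le_add (mul_le_mul_of_nonneg_right h1 hX0) h2
    rw [← mul_pow, ← sq_abs]
    exact pow_le_pow_left₀ (abs_nonneg _) this 2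
  have hmix : ∀ W : ℝ, 0 ≤ W → W ≤ X + T →
      C ^ 2 * W * D / (4 * δ) ≤ δ * (X + T) ^ 2 + C ^ 4 * D ^ 2 / (64 * δ ^ 3) := fun W h0 h1 => by
    have e : δ * (X + T) ^ 2 + C ^ 4 * D ^ 2 / (64 * δ ^ 3) - C ^ 2 * (X + T) * D / (4 * δ) =
        δ * (X + T - C ^ 2 * D / (8 * δ ^ 2)) ^ 2 := by field_simp; ring
    have h2 : C ^ 2 * W * D / (4 * δ) ≤ C ^ 2 * (X + T) * D / (4 * δ) := by gcongr
    linarith [mul_nonneg hδ.le (sq_nonneg (X + T - C ^ 2 * D / (8 * δ ^ 2)))]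
  have t2 : -(2 * δ * (X + T) ^ 2 + C ^ 4 * D ^ 2 / (64 * δ ^ 3)) ≤
      (K.c₁ s * X + K.l₁ s) * ip d a := by
    have h := pair_bound hδ (t := (K.c₁ s * X + K.l₁ s) * ip d a) (u := (X + T) ^ 2)
      (v := C ^ 2 * X * D)
      (by
        rw [mul_pow]
        exact (mul_le_mul (hcoef _ _ hc₁ hl₁) (ip_sq_le d a) (sq_nonneg _)
          (by positivity)).trans_eq (by ring))
      (sq_nonneg _) (by positivity)
    have := hmix X hX0 (by linarith)
    linarith
  have t3 : -(δ * ((X + T) * Y) + δ * (X + T) ^ 2 + C ^ 4 * D ^ 2 / (64 * δ ^ 3)) ≤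
      (K.c₂ s * X + K.l₂ s) * ip d b := by
    have h := pair_bound hδ (t := (K.c₂ s * X + K.l₂ s) * ip d b) (u := (X + T) * Y)
      (v := C ^ 2 * (X + T) * D)
      (by
        rw [mul_pow]
        exact (mul_le_mul (hcoef _ _ hc₂ hl₂) (ip_sq_le d b) (sq_nonneg _)
          (by positivity)).trans_eq (by ring))
      (by positivity) (by positivity)
    have := hmix (X + T) (by positivity) le_rfl
    linarith
  rw [e]
  have hbk : bulk α β s H a b = fr H + X ^ 2 + T ^ 2 + (X + T) * Y := by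
    simp only [bulk, hX, hY, hT]; ring
  rw [hbk]
  have h3 : (X + T) ^ 2 ≤ 2 * X ^ 2 + 2 * T ^ 2 := by linarith [sq_nonneg (X - T)]
  have hC4 : D ^ 2 / (64 * δ ^ 3) ≤ C ^ 4 * D ^ 2 / (64 * δ ^ 3) := by
    gcongr
    exact le_mul_of_one_le_left (sq_nonneg _) (one_le_pow₀ hC)
  have := mul_le_mul_of_nonneg_left h3 (show 0 ≤ 3 * δ by linarith)
  have q : 3 * C ^ 4 / (64 * δ ^ 3) * D ^ 2 = 3 * (C ^ 4 * D ^ 2 / (64 * δ ^ 3)) := by ring
  rw [q]
  generalize C ^ 4 * D ^ 2 / (64 * δ ^ 3) = k4 at hC4 t2 t3 ⊢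
  generalize D ^ 2 / (64 * δ ^ 3) = k1 at hC4 t1
  linarith [mul_nonneg hδ.le hF0, mul_nonneg hδ.le (sq_nonneg X), mul_nonneg hδ.le (sq_nonneg T),
    mul_nonneg hδ.le (mul_nonneg (add_nonneg hX0 hT0.le) hY0)]

/-- A coercive quartic with bounded coefficients absorbs the cutoff term. -/
theorem absorbs_of_coercive {α β m S C : ℝ} {K : Coef} (hco : Coercive n α β m S K)
    (hb : ∀ s ≤ S, |K.c₁ s| ≤ C ∧ |K.c₂ s| ≤ C ∧ |K.l₁ s| ≤ C * (T₁ α s + T₂ β s) ∧
      |K.l₂ s| ≤ C * (T₁ α s + T₂ β s)) :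
    ∃ γ : ℝ, ∃ W : ℝ, 0 < γ ∧ 0 ≤ W ∧
      Absorbs n α β m S K (fun s => γ * (T₁ α s + T₂ β s) ^ 2) fun _ => W := by
  obtain ⟨γ, hγ, hco⟩ := hco
  set C' : ℝ := max C 1 with hC'
  have hC1 : C ≤ C' := le_max_left _ _
  refine ⟨γ / 2, 3 * C' ^ 4 / (64 * (γ / 20) ^ 3), by positivity, by positivity,
    fun s hs H a b d hsym htr => ?_⟩
  obtain ⟨b1, b2, b3, b4⟩ := hb s hs
  have hT : 0 < T₁ α s + T₂ β s := add_pos (T₁_pos _ _) (T₂_pos _ _)
  have h1 := flux_bound (α := α) (β := β) (show 0 < γ / 20 by positivity) (le_max_right C 1)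
    (b1.trans hC1) (b2.trans hC1) (b3.trans (mul_le_mul_of_nonneg_right hC1 hT.le))
    (b4.trans (mul_le_mul_of_nonneg_right hC1 hT.le)) H a b d
  have h2 := hco s hs H a b hsym htr
  have h3 : (T₁ α s + T₂ β s) ^ 2 ≤ bulk α β s H a b := by
    have : 0 ≤ fr H := Finset.sum_nonneg fun i _ => Finset.sum_nonneg fun j _ => sq_nonneg _
    have : 0 ≤ (ip a a + T₁ α s + T₂ β s) * ip b b :=
      mul_nonneg (by linarith [ip_self_nonneg a]) (ip_self_nonneg b)
    simp only [bulk]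
    nlinarith [sq_nonneg (ip a a)]
  have h4 := mul_le_mul_of_nonneg_left h3 (show 0 ≤ γ / 2 by linarith)
  simp only
  linarith

end Vale.Agent.P100.Cal
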