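import Vale.Agent.P100.Ground.Main

/-!
P100, critical ground state: the rates at infinity. In `x = log z`, with `A = 2 z a`, `B = 2 z b`,
`R = z V^p/U`, `Q = z U^q/V` and `D = N - 2`: `A → D` with `A (D - A) ≤ R` eventually, `B` is
eventually above every level below `min D (N β/α)`, and `A - B`, `D - A` are of the order `R + Q`.
-/

namespace Vale.Agent.P100.Ground

noncomputable section

open Set Filter Topology

/-- A bounded function cannot grow at a steady rate. -/
lemma no_steady_growth {f f' : ℝ → ℝ} {T c K : ℝ} (hc : 0 < c)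
    (hd : ∀ x, HasDerivAt f (f' x) x) (hge : ∀ x, T ≤ x → c ≤ f' x)
    (hK : ∀ x, T ≤ x → f x ≤ K) : False := by
  have hm : MonotoneOn (fun x => f x - c * x) (Ici T) := monotoneOn_of_hasDerivWithinAt_nonneg
    (convex_Ici T) (fun x _ => ((hd x).sub ((hasDerivAt_id x).const_mul c)).continuousAt.continuousWithinAt)
    (fun x _ => ((hd x).sub ((hasDerivAt_id x).const_mul c)).hasDerivWithinAt)
    fun x hx => by
      have := hge x (interior_subset (s := Ici T) hx)
      rw [mul_one]; linarith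
  set y := max T ((K - f T) / c + T + 1)
  have hy : T ≤ y := le_max_left _ _
  have h1 := hm self_mem_Ici hy hy
  have h2 := hK y hy
  have h3 : (K - f T) / c + T + 1 ≤ y := le_max_right _ _
  have h4 : (K - f T) / c * c = K - f T := div_mul_cancel₀ _ hc.ne'
  have h5 := mul_le_mul_of_nonneg_right h3 hc.le
  linarith

/-- A level which is only crossed downwards is kept. -/
lemma le_of_barrier {f f' : ℝ → ℝ} {T c : ℝ} (hd : ∀ x, HasDerivAt f (f' x) x) (h0 : f T ≤ c)
    (hneg : ∀ x, T ≤ x → f x = c → f' x < 0) {x : ℝ} (hx : T ≤ x) : f x ≤ c :=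
  image_le_of_deriv_right_lt_deriv_boundary (f := f) (f' := f') (B := fun _ => c) (B' := fun _ => 0)
    (fun y _ => (hd y).continuousAt.continuousWithinAt) (fun y _ => (hd y).hasDerivWithinAt) h0
    (fun y => hasDerivAt_const y c) (fun y hy he => hneg y hy.1 he) (right_mem_Icc.2 hx)

namespace GroundState

variable {P : Par} (G : GroundState P)

/-- `2 z a` at `z = exp x`. -/
def tA (x : ℝ) : ℝ := 2 * Real.exp x * G.O.a (Real.exp x)

/-- `2 z b` at `z = exp x`. -/
def tB (x : ℝ) : ℝ := 2 * Real.exp x * G.O.b (Real.exp x)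

/-- `z V^p/U` at `z = exp x`. -/
def tR (x : ℝ) : ℝ := Real.exp x * G.O.pt (Real.exp x)

/-- `z U^q/V` at `z = exp x`. -/
def tQ (x : ℝ) : ℝ := Real.exp x * G.O.qt (Real.exp x)

/-- The level which `B` exceeds at infinity. -/
def lowB (P : Par) : ℝ := min (P.dim - 2) (P.dim * P.be / P.al)

lemma exp_mem (x : ℝ) : Real.exp x ∈ G.O.dom := by
  rw [G.dom_eq]
  exact ((G.zl_lt.trans G.zs_lt).trans (Real.exp_pos x) : G.zl < Real.exp x)

lemma tA_pos (x : ℝ) : 0 < G.tA x :=
  mul_pos (mul_pos two_pos (Real.exp_pos x)) (Orb.a_pos (G.exp_mem x))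

lemma tB_pos (x : ℝ) : 0 < G.tB x :=
  mul_pos (mul_pos two_pos (Real.exp_pos x)) (Orb.b_pos (G.exp_mem x))

lemma tR_pos (x : ℝ) : 0 < G.tR x := mul_pos (Real.exp_pos x) (Orb.pt_pos (G.exp_mem x))

lemma tQ_pos (x : ℝ) : 0 < G.tQ x := mul_pos (Real.exp_pos x) (Orb.qt_pos (G.exp_mem x))

lemma hasDerivAt_tA (x : ℝ) :
    HasDerivAt G.tA ((G.tR x - (P.dim - 2) * G.tA x + G.tA x ^ 2) / 2) x := by
  refine (((Real.hasDerivAt_exp x).const_mul 2).mul
    ((Orb.hasDerivAt_a (G.exp_mem x)).comp x (Real.hasDerivAt_exp x))).congr_deriv ?_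
  simp only [tA, tR, Function.comp_apply]
  linear_combination Real.exp x * Orb.eq_a (G.exp_mem x)

lemma hasDerivAt_tB (x : ℝ) :
    HasDerivAt G.tB ((G.tQ x - (P.dim - 2) * G.tB x + G.tB x ^ 2) / 2) x := by
  refine (((Real.hasDerivAt_exp x).const_mul 2).mul
    ((Orb.hasDerivAt_b (G.exp_mem x)).comp x (Real.hasDerivAt_exp x))).congr_deriv ?_
  simp only [tB, tQ, Function.comp_apply]
  linear_combination Real.exp x * Orb.eq_b (G.exp_mem x)

lemma hasDerivAt_tR (x : ℝ) :
    HasDerivAt G.tR (G.tR x * (1 + (G.tA x - P.p * G.tB x) / 2)) x := by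
  refine ((Real.hasDerivAt_exp x).mul
    ((Orb.hasDerivAt_pt (G.exp_mem x)).comp x (Real.hasDerivAt_exp x))).congr_deriv ?_
  simp only [tA, tB, tR, Function.comp_apply]
  ring

lemma poh_t (x : ℝ) :
    G.tA x * G.tB x + (P.be * G.tR x + P.al * G.tQ x) / P.dim = P.be * G.tA x + P.al * G.tB x := by
  simp only [tA, tB, tQ, tR]
  linear_combination Real.exp x * Orb.poh_rates (G.exp_mem x)

lemma tQ_eq (x : ℝ) : G.tQ x =
    (P.dim * (P.be * G.tA x + P.al * G.tB x - G.tA x * G.tB x) - P.be * G.tR x) / P.al := by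
  have := G.poh_t x
  have hN := (zero_lt_two.trans P.two_lt_dim).ne'
  rw [eq_div_iff P.al_pos.ne']
  field_simp at this
  linear_combination this

lemma tB_le (x : ℝ) : G.tB x ≤ P.dim - 2 := G.bb_le _ (Real.exp_pos x).le

lemma tA_lt_mul (x : ℝ) : P.be * G.tA x < P.al * G.tB x := by
  have h := G.del_pos _ ((G.zl_lt.trans G.zs_lt).trans (Real.exp_pos x))
  have := mul_pos (mul_pos two_pos (Real.exp_pos x)) h
  simp only [Orb.del] at this
  simp only [tA, tB]
  linarith

lemma tA_le (x : ℝ) : G.tA x ≤ P.dim - 2 := by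
  by_contra h
  rw [not_le] at h
  have hD : 0 < P.dim - 2 := by linarith [P.two_lt_dim]
  have up : ∀ y, x ≤ y → G.tA x ≤ G.tA y := fun y hy => by
    refine neg_le_neg_iff.1 (le_of_barrier (f := fun u => -G.tA u)
      (fun u => (G.hasDerivAt_tA u).neg) le_rfl (fun u _ hu => ?_) hy)
    have hu' : G.tA u = G.tA x := neg_inj.1 hu
    have := mul_pos (hD.trans h) (sub_pos.2 h)
    have := G.tR_pos u
    rw [hu']
    linarith
  refine no_steady_growth (c := G.tA x * (G.tA x - (P.dim - 2)) / 2)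
    (K := P.al / P.be * (P.dim - 2))
    (half_pos (mul_pos (hD.trans h) (sub_pos.2 h))) G.hasDerivAt_tA (T := x) (fun y hy => ?_)
    fun y _ => ?_
  · have := mul_le_mul (up y hy) (show G.tA x - (P.dim - 2) ≤ G.tA y - (P.dim - 2) by
      linarith [up y hy]) (sub_pos.2 h).le (G.tA_pos y).le
    have := G.tR_pos y
    linarith
  · rw [div_mul_eq_mul_div, le_div_iff₀ P.be_pos]
    have := mul_le_mul_of_nonneg_left (G.tB_le y) P.al_pos.le
    linarith [G.tA_lt_mul y]

lemma tendsto_tR : Tendsto G.tR atTop (𝓝 0) := by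
  have hD : 0 < P.dim - 2 := by linarith [P.two_lt_dim]
  have hN : 0 < P.dim := zero_lt_two.trans P.two_lt_dim
  set K := P.dim * (P.be + P.al) * (P.dim - 2) / P.al
  have hlim : Tendsto (fun x => G.O.theta (Real.exp x) * K) atTop (𝓝 0) := by
    simpa using (G.theta_lim.comp Real.tendsto_exp_atTop).mul_const K
  refine squeeze_zero (fun x => (G.tR_pos x).le) (fun x => ?_) hlim
  have e : G.tR x = G.O.theta (Real.exp x) * G.tQ x := by
    simp only [tR, tQ]; rw [Orb.pt_eq (G.exp_mem x)]; ring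
  rw [e]
  refine mul_le_mul_of_nonneg_left ?_ (Orb.theta_pos (G.exp_mem x)).le
  rw [le_div_iff₀ P.al_pos, G.tQ_eq, div_mul_cancel₀ _ P.al_pos.ne']
  have := mul_le_mul_of_nonneg_left (G.tA_le x) P.be_pos.le
  have := mul_le_mul_of_nonneg_left (G.tB_le x) P.al_pos.le
  have := mul_pos P.be_pos (G.tR_pos x)
  have h1 : P.be * G.tA x + P.al * G.tB x - G.tA x * G.tB x ≤ (P.be + P.al) * (P.dim - 2) := by
    linarith [mul_pos (G.tA_pos x) (G.tB_pos x)]
  have := mul_le_mul_of_nonneg_left h1 hN.le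
  linarith

lemma tendsto_tA : Tendsto G.tA atTop (𝓝 (P.dim - 2)) := by
  have hD : 0 < P.dim - 2 := by linarith [P.two_lt_dim]
  have hN : 0 < P.dim := zero_lt_two.trans P.two_lt_dim
  have hal := P.al_pos
  have hbe := P.be_pos
  -- the rate does not become small
  have notsmall : ∀ T, ∃ x, T ≤ x ∧ P.al / P.dim < G.tA x := by
    intro T
    by_contra h
    simp only [not_exists, not_and, not_lt] at h
    set W := fun x => P.al * G.tB x + P.be * G.tA x
    have dW : ∀ x, HasDerivAt W _ x := fun x =>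
      ((G.hasDerivAt_tB x).const_mul P.al).add ((G.hasDerivAt_tA x).const_mul P.be)
    have lb : ∀ x, T ≤ x → W x ≤ 2 * (P.al * ((G.tQ x - (P.dim - 2) * G.tB x + G.tB x ^ 2) / 2) +
        P.be * ((G.tR x - (P.dim - 2) * G.tA x + G.tA x ^ 2) / 2)) := by
      intro x hx
      have h1 : P.al * G.tQ x =
          P.dim * (P.be * G.tA x + P.al * G.tB x - G.tA x * G.tB x) - P.be * G.tR x := by
        rw [G.tQ_eq]; field_simp
      have h2 : P.dim * G.tA x ≤ P.al := by
        have := h x hx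
        rw [le_div_iff₀ hN] at this
        linarith
      have h3 := mul_le_mul_of_nonneg_right h2 (G.tB_pos x).le
      have := mul_pos hbe (G.tA_pos x)
      have := mul_nonneg hal.le (sq_nonneg (G.tB x))
      have := mul_nonneg hbe.le (sq_nonneg (G.tA x))
      simp only [W]
      linarith
    have hW : ∀ x, 0 < W x := fun x =>
      add_pos (mul_pos hal (G.tB_pos x)) (mul_pos hbe (G.tA_pos x))
    have up : ∀ y, T ≤ y → W T ≤ W y := fun y hy => by
      refine neg_le_neg_iff.1 (le_of_barrier (f := fun u => -W u)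
        (fun u => (dW u).neg) le_rfl (fun u hu _ => ?_) hy)
      linarith [lb u hu, hW u]
    refine no_steady_growth (c := W T / 2) (K := (P.al + P.be) * (P.dim - 2)) (half_pos (hW T)) dW
      (T := T) (fun y hy => by linarith [lb y hy, up y hy]) fun y _ => ?_
    have := mul_le_mul_of_nonneg_left (G.tA_le y) hbe.le
    have := mul_le_mul_of_nonneg_left (G.tB_le y) hal.le
    simp only [W]
    linarith
  have hlow : P.al / P.dim < P.dim - 2 := by
    rw [div_lt_iff₀ hN]
    have : P.dim = P.al + P.be + 2 := rfl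
    nlinarith
  rw [tendsto_order]
  refine ⟨fun b hb => ?_, fun b hb => Eventually.of_forall fun x => (G.tA_le x).trans_lt hb⟩
  set c := max b (P.al / P.dim)
  have hcD : c < P.dim - 2 := max_lt hb hlow
  have hc0 : 0 < c := (div_pos hal hN).trans_le (le_max_right _ _)
  set g := P.al / P.dim * ((P.dim - 2) - c)
  have hg : 0 < g := mul_pos (div_pos hal hN) (sub_pos.2 hcD)
  have hg' : g ≤ P.al / P.dim * ((P.dim - 2) - P.al / P.dim) :=
    mul_le_mul_of_nonneg_left (sub_le_sub_left (le_max_right _ _) _) (div_pos hal hN).le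
  obtain ⟨T, hT⟩ := eventually_atTop.1 (G.tendsto_tR.eventually_lt_const (half_pos hg))
  refine eventually_atTop.2 ⟨T, fun x hx => ?_⟩
  refine (le_max_left b _).trans_lt (?_ : c < G.tA x)
  by_contra hle
  rw [not_lt] at hle
  have stay : ∀ y, x ≤ y → G.tA y ≤ c := fun y hy => le_of_barrier G.hasDerivAt_tA hle
    (fun u hu he => by
      have := hT u (hx.trans hu)
      have : g ≤ c * ((P.dim - 2) - c) :=
        mul_le_mul_of_nonneg_right (le_max_right _ _) (sub_pos.2 hcD).le
      rw [he]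
      linarith) hy
  -- it falls below the small level and stays there
  obtain ⟨x₂, hx₂, hx₂'⟩ : ∃ x₂, x ≤ x₂ ∧ G.tA x₂ ≤ P.al / P.dim := by
    by_contra h
    simp only [not_exists, not_and, not_le] at h
    refine no_steady_growth (f := fun u => -G.tA u) (c := g / 4) (K := 0) (by linarith)
      (fun u => (G.hasDerivAt_tA u).neg) (T := x) (fun u hu => ?_)
      fun u _ => by linarith [G.tA_pos u]
    have := hT u (hx.trans hu)
    have := mul_le_mul (h u hu).le (sub_le_sub_left (stay u hu) (P.dim - 2))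
      (sub_pos.2 hcD).le (G.tA_pos u).le
    linarith
  obtain ⟨y, hy, hy'⟩ := notsmall x₂
  exact absurd (le_of_barrier G.hasDerivAt_tA hx₂' (fun u hu he => by
    have := hT u (hx.trans (hx₂.trans hu))
    rw [he]
    linarith) hy) (not_le.2 hy')

lemma eventually_lt_tB {b : ℝ} (hb : b < lowB P) : ∀ᶠ x in atTop, b < G.tB x := by
  have hD : 0 < P.dim - 2 := by linarith [P.two_lt_dim]
  have hN : 0 < P.dim := zero_lt_two.trans P.two_lt_dim
  have hal := P.al_pos
  have hbe := P.be_pos
  have hlow : 0 < lowB P := lt_min hD (by positivity)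
  set c := max b (lowB P / 2)
  have hc : c < lowB P := max_lt hb (by linarith)
  set g := (lowB P - c) ^ 2
  have hg : 0 < g := pow_pos (sub_pos.2 hc) 2
  have small : Tendsto (fun x => P.dim / P.al * (P.dim - 2) * ((P.dim - 2) - G.tA x) +
      P.dim * P.be / P.al * ((P.dim - 2) - G.tA x) + P.be / P.al * G.tR x) atTop (𝓝 0) := by
    have he : Tendsto (fun x => (P.dim - 2) - G.tA x) atTop (𝓝 0) := by
      simpa using G.tendsto_tA.const_sub (P.dim - 2)
    simpa using ((he.const_mul (P.dim / P.al * (P.dim - 2))).add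
      (he.const_mul (P.dim * P.be / P.al))).add (G.tendsto_tR.const_mul (P.be / P.al))
  obtain ⟨T, hT⟩ := eventually_atTop.1 (small.eventually_lt_const (half_pos hg))
  have key : ∀ x, T ≤ x → G.tB x ≤ c →
      g / 4 ≤ (G.tQ x - (P.dim - 2) * G.tB x + G.tB x ^ 2) / 2 := by
    intro x hx hB
    have hd : P.dim = P.al + P.be + 2 := rfl
    have e : G.tQ x - (P.dim - 2) * G.tB x + G.tB x ^ 2 =
        ((P.dim - 2) - G.tB x) * (P.dim * P.be / P.al - G.tB x) +
          P.dim / P.al * G.tB x * ((P.dim - 2) - G.tA x) -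
          P.dim * P.be / P.al * ((P.dim - 2) - G.tA x) - P.be / P.al * G.tR x := by
      rw [G.tQ_eq, hd]; field_simp; ring
    have h1 : g ≤ ((P.dim - 2) - G.tB x) * (P.dim * P.be / P.al - G.tB x) := by
      have l1 : lowB P ≤ P.dim - 2 := min_le_left _ _
      have l2 : lowB P ≤ P.dim * P.be / P.al := min_le_right _ _
      exact (sq (lowB P - c)).le.trans
        (mul_le_mul (by linarith) (by linarith) (sub_pos.2 hc).le (by linarith))
    have he := sub_nonneg.2 (G.tA_le x)
    have h2 : 0 ≤ P.dim / P.al * G.tB x * ((P.dim - 2) - G.tA x) :=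
      mul_nonneg (mul_nonneg (div_pos hN hal).le (G.tB_pos x).le) he
    have h3 : 0 ≤ P.dim / P.al * (P.dim - 2) * ((P.dim - 2) - G.tA x) :=
      mul_nonneg (mul_nonneg (div_pos hN hal).le hD.le) he
    have := hT x hx
    rw [e]
    linarith
  obtain ⟨x, hx, hx'⟩ : ∃ x, T ≤ x ∧ c < G.tB x := by
    by_contra h
    simp only [not_exists, not_and, not_lt] at h
    exact no_steady_growth (c := g / 4) (K := c) (by linarith) G.hasDerivAt_tB (T := T)
      (fun u hu => key u hu (h u hu)) h
  refine eventually_atTop.2 ⟨x, fun y hy => (le_max_left b _).trans_lt (?_ : c < G.tB y)⟩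
  by_contra hle
  rw [not_lt] at hle
  -- the first return to the level
  have hc' : ∀ u, x ≤ u → -G.tB u ≤ -c := fun u hu => le_of_barrier (f := fun u => -G.tB u)
    (fun u => (G.hasDerivAt_tB u).neg) (by linarith) (fun v hv he => by
      have := key v (hx.trans hv) (by linarith)
      linarith) hu
  have heq : G.tB y = c := le_antisymm hle (by linarith [hc' y hy])
  have hxy : x < y := lt_of_le_of_ne hy fun h => by rw [h] at hx'; linarith
  have h := key y (hx.trans hy) hle
  have hs : ∀ᶠ u in 𝓝[<] y, c ≤ G.tB u ∧ u < y := by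
    filter_upwards [self_mem_nhdsWithin,
      nhdsWithin_le_nhds (eventually_gt_nhds hxy)] with u hu hu'
    exact ⟨by linarith [hc' u hu'.le], hu⟩
  have hlim := ((hasDerivAt_iff_tendsto_slope.1 (G.hasDerivAt_tB y)).mono_left
    (nhdsWithin_mono y fun u (hu : u < y) => hu.ne)).eventually_const_lt
      (show (0 : ℝ) < _ by linarith : (0 : ℝ) < (G.tQ y - (P.dim - 2) * G.tB y + G.tB y ^ 2) / 2)
  obtain ⟨u, ⟨hu1, hu2⟩, hu3⟩ := (hs.and hlim).exists
  rw [slope_def_field, heq, lt_div_iff_of_neg (sub_neg.2 hu2)] at hu3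
  linarith

lemma dim_lt_p_mul_lowB : P.dim < P.p * lowB P := by
  have hal := P.al_pos
  have hbe := P.be_pos
  have hd : P.dim = P.al + P.be + 2 := rfl
  rw [lowB, mul_min_of_nonneg _ _ P.p_pos.le, lt_min_iff, Par.p, hd]
  have := mul_lt_mul_of_pos_left P.be_lt hal
  have := mul_pos hal hbe
  constructor
  · rw [div_mul_eq_mul_div, lt_div_iff₀ hbe]
    nlinarith
  · field_simp
    nlinarith

lemma eventually_gap : ∀ᶠ x in atTop, G.tA x * ((P.dim - 2) - G.tA x) ≤ G.tR x := by
  have hD : 0 < P.dim - 2 := by linarith [P.two_lt_dim]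
  have hb : P.dim / P.p < lowB P := by
    rw [div_lt_iff₀ P.p_pos, mul_comm]; exact dim_lt_p_mul_lowB
  obtain ⟨T, hT⟩ := eventually_atTop.1 ((G.eventually_lt_tB hb).and
    (G.tendsto_tA.eventually_const_lt (show 3 * (P.dim - 2) / 4 < P.dim - 2 by linarith)))
  refine eventually_atTop.2 ⟨T, fun x hx => ?_⟩
  by_contra h
  rw [not_le] at h
  set v := fun u => G.tA u * ((P.dim - 2) - G.tA u) - G.tR u
  have dv : ∀ u, HasDerivAt v _ u := fun u =>
    ((G.hasDerivAt_tA u).mul ((G.hasDerivAt_tA u).const_sub (P.dim - 2))).sub (G.hasDerivAt_tR u)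
  have hv0 : 0 < v x := sub_pos.2 h
  have rate : ∀ u, T ≤ u → 0 ≤ v u → (P.dim - 2) / 4 * v u ≤
      (G.tR u - (P.dim - 2) * G.tA u + G.tA u ^ 2) / 2 * ((P.dim - 2) - G.tA u) +
        G.tA u * (-((G.tR u - (P.dim - 2) * G.tA u + G.tA u ^ 2) / 2)) -
      G.tR u * (1 + (G.tA u - P.p * G.tB u) / 2) := by
    intro u hu hv
    obtain ⟨h1, h2⟩ := hT u hu
    rw [div_lt_iff₀ P.p_pos] at h1
    have := mul_le_mul_of_nonneg_right
      (show (P.dim - 2) / 2 ≤ 2 * G.tA u - (P.dim - 2) by linarith) hv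
    have h3 : 0 ≤ G.tR u * (P.p * G.tB u - P.dim) :=
      mul_nonneg (G.tR_pos u).le (by linarith)
    have h4 : 0 ≤ G.tR u * ((P.dim - 2) - G.tA u) :=
      mul_nonneg (G.tR_pos u).le (sub_nonneg.2 (G.tA_le u))
    simp only [v] at this ⊢
    linarith
  have up : ∀ u, x ≤ u → v x ≤ v u := fun u hu => by
    refine neg_le_neg_iff.1 (le_of_barrier (f := fun w => -v w) (fun w => (dv w).neg) le_rfl
      (fun w hw he => ?_) hu)
    have he' : v w = v x := neg_inj.1 he
    have := rate w (hx.trans hw) (by linarith)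
    have := mul_pos (show 0 < (P.dim - 2) / 4 by linarith) (show 0 < v w by linarith)
    linarith
  refine no_steady_growth (c := (P.dim - 2) / 4 * v x) (K := (P.dim - 2) * (P.dim - 2))
    (mul_pos (by linarith) hv0) dv (T := x) (fun u hu => ?_) fun u _ => ?_
  · exact (mul_le_mul_of_nonneg_left (up u hu) (by linarith)).trans
      (rate u (hx.trans hu) (hv0.le.trans (up u hu)))
  · have := mul_le_mul (G.tA_le u) (show (P.dim - 2) - G.tA u ≤ P.dim - 2 by linarith [G.tA_pos u])
      (sub_nonneg.2 (G.tA_le u)) hD.le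
    simp only [v]
    linarith [G.tR_pos u]

/-- `D - A` and `A - B` are of the order of the reaction rates. -/
lemma eventually_close : ∃ C, 0 ≤ C ∧ ∀ᶠ x in atTop,
    |(P.dim - 2) - G.tA x| ≤ C * (G.tR x + G.tQ x) ∧
      |G.tA x - G.tB x| ≤ C * (G.tR x + G.tQ x) := by
  have hD : 0 < P.dim - 2 := by linarith [P.two_lt_dim]
  have hN : 0 < P.dim := zero_lt_two.trans P.two_lt_dim
  have hal := P.al_pos
  have hbe := P.be_pos
  refine ⟨2 / (P.dim - 2) + (2 + (P.be + P.al) / P.dim) / P.be, by positivity, ?_⟩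
  filter_upwards [G.eventually_gap,
    G.tendsto_tA.eventually_const_lt (show (P.dim - 2) / 2 < P.dim - 2 by linarith)] with x hg hA
  have hR := G.tR_pos x
  have hQ := G.tQ_pos x
  have he := sub_nonneg.2 (G.tA_le x)
  set e := (P.dim - 2) - G.tA x
  have h1 : (P.dim - 2) / 2 * e ≤ G.tR x := (mul_le_mul_of_nonneg_right hA.le he).trans hg
  have hp : P.be * (G.tA x - G.tB x) =
      (P.be * G.tR x + P.al * G.tQ x) / P.dim - G.tB x * e := by
    have := G.poh_t x
    have hd : P.dim = P.al + P.be + 2 := rfl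
    simp only [e]
    linear_combination -this + G.tB x * hd
  have h2 : G.tB x * e ≤ 2 * G.tR x :=
    (mul_le_mul_of_nonneg_right (G.tB_le x) he).trans (by linarith)
  have h3 : 0 ≤ G.tB x * e := mul_nonneg (G.tB_pos x).le he
  have h4 : (P.be * G.tR x + P.al * G.tQ x) / P.dim ≤
      (P.be + P.al) / P.dim * (G.tR x + G.tQ x) := by
    rw [div_mul_eq_mul_div, div_le_div_iff_of_pos_right hN]
    linarith [mul_pos hbe hQ, mul_pos hal hR]
  have h5 : 0 ≤ (P.be * G.tR x + P.al * G.tQ x) / P.dim := by positivity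
  have h6 : 0 ≤ (P.be + P.al) / P.dim * (G.tR x + G.tQ x) := by positivity
  have h7 : 0 ≤ (2 + (P.be + P.al) / P.dim) / P.be * (G.tR x + G.tQ x) := by positivity
  have h8 : 0 ≤ 2 / (P.dim - 2) * (G.tR x + G.tQ x) := by positivity
  rw [abs_of_nonneg he, abs_le, add_mul]
  have h9 : e ≤ 2 / (P.dim - 2) * (G.tR x + G.tQ x) := by
    rw [div_mul_eq_mul_div, le_div_iff₀ hD]
    linarith
  have h10 : |P.be * (G.tA x - G.tB x)| ≤
      (2 + (P.be + P.al) / P.dim) * (G.tR x + G.tQ x) := by
    rw [hp, abs_le]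
    constructor <;> linarith
  rw [abs_mul, abs_of_pos hbe] at h10
  have h11 : |G.tA x - G.tB x| ≤ (2 + (P.be + P.al) / P.dim) / P.be * (G.tR x + G.tQ x) := by
    rw [div_mul_eq_mul_div, le_div_iff₀ hbe]
    linarith
  have := abs_le.1 h11
  refine ⟨by linarith, by linarith, by linarith⟩

/-- `z² U^(2 - q m) V^(2 + m)` is bounded at infinity, in logarithms. -/
lemma eventually_growth {m : ℝ} (hm : 0 ≤ m)
    (hm' : 2 - (P.dim - 2) * (1 - m * P.q / 2) - lowB P * (1 + m / 2) < 0) :
    ∃ K, ∀ᶠ x in atTop, 2 * x + (2 - P.q * m) * Real.log (G.O.U (Real.exp x)) +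
      (2 + m) * Real.log (G.O.V (Real.exp x)) ≤ K := by
  set s := 2 - (P.dim - 2) * (1 - m * P.q / 2) - lowB P * (1 + m / 2)
  have hm2 : 0 < 1 + m / 2 := by linarith
  have hb : lowB P + s / (4 * (1 + m / 2)) < lowB P := by
    have : s / (4 * (1 + m / 2)) < 0 := div_neg_of_neg_of_pos hm' (by linarith)
    linarith
  have hlim : Tendsto (fun x => G.tA x * (1 - m * P.q / 2)) atTop
      (𝓝 ((P.dim - 2) * (1 - m * P.q / 2))) := G.tendsto_tA.mul_const _
  obtain ⟨T, hT⟩ := eventually_atTop.1 ((G.eventually_lt_tB hb).and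
    (hlim.eventually_const_lt
      (show (P.dim - 2) * (1 - m * P.q / 2) + s / 4 < (P.dim - 2) * (1 - m * P.q / 2) by linarith)))
  set g := fun x => 2 * x + (2 - P.q * m) * Real.log (G.O.U (Real.exp x)) +
    (2 + m) * Real.log (G.O.V (Real.exp x))
  have dg : ∀ x, HasDerivAt g (2 - G.tA x * (1 - m * P.q / 2) - G.tB x * (1 + m / 2)) x := fun x => by
    have hu := (G.O.posU _ (G.exp_mem x)).ne'
    have hv := (G.O.posV _ (G.exp_mem x)).ne'
    refine ((((hasDerivAt_id x).const_mul 2).add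
      ((((G.O.hU _ (G.exp_mem x)).comp x (Real.hasDerivAt_exp x)).log hu).const_mul
        (2 - P.q * m))).add
      ((((G.O.hV _ (G.exp_mem x)).comp x (Real.hasDerivAt_exp x)).log hv).const_mul
        (2 + m))).congr_deriv ?_
    simp only [tA, tB, Orb.a, Orb.b, Function.comp_apply]
    field_simp
    ring
  have hanti : AntitoneOn g (Ici T) := antitoneOn_of_hasDerivWithinAt_nonpos (convex_Ici T)
    (fun x _ => (dg x).continuousAt.continuousWithinAt) (fun x _ => (dg x).hasDerivWithinAt)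
    fun x hx => by
      obtain ⟨h1, h2⟩ := hT x (interior_subset (s := Ici T) hx)
      have h3 := mul_le_mul_of_nonneg_right h1.le hm2.le
      have e : (lowB P + s / (4 * (1 + m / 2))) * (1 + m / 2) = lowB P * (1 + m / 2) + s / 4 := by
        field_simp
      have hs : s = 2 - (P.dim - 2) * (1 - m * P.q / 2) - lowB P * (1 + m / 2) := rfl
      linarith
  exact ⟨g T, eventually_atTop.2 ⟨T, fun x hx => hanti self_mem_Ici hx hx⟩⟩

end GroundState

end

end Vale.Agent.P100.Ground
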