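import Vale.Agent.P100.Cal.FromGround
import Vale.Agent.P100.Cal.Tail
import Vale.Agent.P100.Ground.Bounds

/-!
P100, calibrated identity: along the ground state the coefficients of every gauge `F` whose excess
`(N-1) β - F den²` is of the order `(1 - ψ) + |D - A|` at infinity, and the weight of every exponent
`m` in the admissible range, satisfy the bounds which the absorption needs.
-/

open Filter Topology Set

namespace Vale.Agent.P100.Cal

open Orbit (dimN)

/-- A bound on a ray from a bound near infinity. -/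
theorem bound_of_eventually {f : ℝ → ℝ} {t₀ C : ℝ} (hc : ContinuousOn f (Ici t₀))
    (hev : ∀ᶠ t in atTop, f t ≤ C) : ∃ C', ∀ t ≥ t₀, f t ≤ C' := by
  obtain ⟨T, hT⟩ := eventually_atTop.1 hev
  obtain ⟨K, hK⟩ := (isCompact_Icc (a := t₀) (b := max t₀ T)).exists_bound_of_continuousOn
    (hc.mono Icc_subset_Ici_self)
  refine ⟨max C K, fun t ht => ?_⟩
  rcases le_total t (max t₀ T) with h | h
  · exact ((Real.le_norm_self _).trans (hK t ⟨ht, h⟩)).trans (le_max_right _ _)
  · exact (hT t ((le_max_right _ _).trans h)).trans (le_max_left _ _)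

variable {P : P100.Ground.Par} (G : P100.Ground.GroundState P)

theorem fa_eq {t : ℝ} (ht : G.zl < t) : (toGround G).fa t = G.O.a t := by
  show -deriv G.O.U t / G.O.U t = _
  rw [(G.O.hU t (G.mem ht)).deriv]
  rfl

theorem fb_eq {t : ℝ} (ht : G.zl < t) : (toGround G).fb t = G.O.b t := by
  show -deriv G.O.V t / G.O.V t = _
  rw [(G.O.hV t (G.mem ht)).deriv]
  rfl

theorem psi_eq {t : ℝ} (ht : G.zl < t) : (toGround G).psi t = G.O.psi t := by
  simp only [Ground.psi, P100.Ground.Orb.psi, fa_eq G ht, fb_eq G ht]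

/-- The state at `t > 0` in the rates of `log t`. -/
theorem orb_eq (Fg : ℝ → ℝ) (m : ℝ) {t : ℝ} (ht : 0 < t) :
    let o := (toGround G).orb Fg t
    let k := 1 / (t * (toGround G).xi t)
    o.ψ * G.tA (Real.log t) = G.tB (Real.log t) ∧ o.R = k * G.tA (Real.log t) ∧
      o.X = k * G.tA (Real.log t) ^ 2 ∧ (o.val P.al P.be m).P₁ = k * G.tR (Real.log t) ∧
      (o.val P.al P.be m).P₂ = k * G.tQ (Real.log t) := by
  intro o k
  have ht' : G.zl < t := (G.zl_lt.trans G.zs_lt).trans ht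
  have hx : (toGround G).xi t ≠ 0 := (Real.exp_pos _).ne'
  have ha := (P100.Ground.Orb.a_pos (O := G.O) (G.mem ht')).ne'
  have hψ : o.ψ * G.tA (Real.log t) = G.tB (Real.log t) := by
    show (toGround G).psi t * _ = _
    simp only [Ground.psi, P100.Ground.GroundState.tA, P100.Ground.GroundState.tB,
      Real.exp_log ht, fa_eq G ht', fb_eq G ht']
    field_simp
  have hR : o.R = k * G.tA (Real.log t) := by
    simp only [o, k, Ground.orb, P100.Ground.GroundState.tA, Real.exp_log ht, fa_eq G ht']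
    field_simp
  have hX : o.X = k * G.tA (Real.log t) ^ 2 := by
    simp only [o, k, Ground.orb, P100.Ground.GroundState.tA, Real.exp_log ht, fa_eq G ht']
    field_simp
    ring
  have hP : (o.val P.al P.be m).P₁ = k * G.tR (Real.log t) := by
    have h := (toGround G).U_eq (t := t) ht'
    have hu := (G.O.posU t (G.mem ht')).ne'
    have e : G.O.pt t = 2 * dimN P.al P.be * G.O.a t -
        4 * t * (toGround G).a₁ t * G.O.a t ^ 2 := by
      rw [← fa_eq G ht', P100.Ground.Orb.pt, div_eq_iff hu, mul_comm]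
      exact h
    simp only [o, k, Orbit.val, Ground.orb, P100.Ground.GroundState.tR, Real.exp_log ht, e,
      fa_eq G ht']
    field_simp
  refine ⟨hψ, hR, hX, hP, ?_⟩
  have hal := P.al_pos.ne'
  have hq := G.tQ_eq (Real.log t)
  rw [← hψ] at hq
  have hP' : dimN P.al P.be * o.R - o.a * o.X = k * G.tR (Real.log t) := hP
  rw [hR, hX] at hP'
  show o.ψ * dimN P.al P.be * o.R - o.X * (dimN P.al P.be * o.ψ - P.be * o.a) / P.al = _
  rw [hR, hX, hq, ← dimN_eq]
  field_simp
  linear_combination (-P.be) * hP'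

theorem continuousOn_vals (Fg : ℝ → ℝ) (hF : ContinuousOn Fg (Ioi G.zl)) (m : ℝ) :
    let d := toGround G
    ContinuousOn (fun t => ((d.orb Fg t).val P.al P.be m).c₁) (Ioi G.zl) ∧
      ContinuousOn (fun t => ((d.orb Fg t).val P.al P.be m).l₁) (Ioi G.zl) ∧
      ContinuousOn (fun t => ((d.orb Fg t).val P.al P.be m).l₂) (Ioi G.zl) ∧
      ContinuousOn (fun t => T₁ P.al (d.sOf t) + T₂ P.be (d.sOf t)) (Ioi G.zl) ∧
      ContinuousOn (d.wE m) (Ioi G.zl) := by
  intro d
  obtain ⟨hfa, hfb, hxi, hpsi, ha₁⟩ := d.contDiffOn_orb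
  have hψ := hpsi.continuousOn
  have hd : ContinuousOn (fun t => (d.orb Fg t).den P.al P.be) (Ioi G.zl) :=
    continuousOn_const.add (continuousOn_const.mul hψ)
  have hden : ∀ t ∈ Ioi G.zl, (d.orb Fg t).den P.al P.be ≠ 0 := fun t ht => (d.reg Fg ht).hden
  have hG : ContinuousOn (fun t => (d.orb Fg t).G P.al P.be) (Ioi G.zl) :=
    (hψ.mul (continuousOn_const.sub (continuousOn_const.mul hψ))).div hd hden
  have hX : ContinuousOn (fun t => (d.orb Fg t).X) (Ioi G.zl) :=
    ((continuousOn_const.mul continuousOn_id).mul (hfa.continuousOn.pow 2)).div hxi.continuousOn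
      fun t _ => (Real.exp_pos _).ne'
  have hR : ContinuousOn (fun t => (d.orb Fg t).R) (Ioi G.zl) :=
    (continuousOn_const.mul hfa.continuousOn).div hxi.continuousOn fun t _ => (Real.exp_pos _).ne'
  have hl₂ : ContinuousOn (fun t => (d.orb Fg t).l₂ P.al P.be) (Ioi G.zl) :=
    ((continuousOn_const.mul (hX.sub (continuousOn_const.mul hR))).div hd hden).sub (hF.mul hX)
  have hs : ContinuousOn d.sOf (Ioi G.zl) := fun t ht =>
    (d.hasDerivAt_sOf Fg ht).continuousAt.continuousWithinAt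
  refine ⟨((continuousOn_const.add (hψ.div_const 2)).add (hG.div_const 2)).sub (hF.mul hψ),
    ((hX.mul (ha₁.continuousOn.sub ((continuousOn_const.div hd hden).mul hψ))).sub hR).sub
      (hψ.mul hl₂), hl₂, ?_, fun t ht => (d.hasDerivAt_wE m Fg ht).continuousAt.continuousWithinAt⟩
  exact ((Real.continuous_exp.comp_continuousOn (continuousOn_const.mul hs))).add
    (Real.continuous_exp.comp_continuousOn (continuousOn_const.mul hs))

theorem wE_pos {α β : ℝ} (d : Ground α β) (m : ℝ) {t : ℝ} (ht : d.t₁ < t) : 0 < d.wE m t := by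
  have := d.fa_pos ht; have := d.fb_pos ht; have := (d.posV t ht).1
  have := d.hα; have := d.hβ
  unfold Ground.wE
  positivity

theorem eventually_growth {m : ℝ} (hm : 0 ≤ m)
    (hm' : 2 - (P.dim - 2) * (1 - m * P.q / 2) - P100.Ground.GroundState.lowB P * (1 + m / 2) < 0) :
    ∃ C, ∀ᶠ t in atTop, (toGround G).wE m t ^ (4 / (m + 4)) /
      ((T₁ P.al ((toGround G).sOf t) + T₂ P.be ((toGround G).sOf t)) ^ 2) ^ (m / (m + 4)) ≤ C := by
  obtain ⟨K, hK⟩ := G.eventually_growth hm hm'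
  have hD : 0 < P.dim - 2 := by linarith [P.two_lt_dim]
  refine ⟨Real.exp (2 / (m + 4) * (K + 2 * Real.log 2 + 2 * Real.log (P.be + P.al) -
    2 * Real.log ((P.dim - 2) / 2))), ?_⟩
  filter_upwards [eventually_gt_atTop 0, Real.tendsto_log_atTop.eventually (hK.and
    (G.tendsto_tA.eventually_const_lt (show (P.dim - 2) / 2 < P.dim - 2 by linarith)))]
    with t ht hh
  obtain ⟨hg, hA⟩ := hh
  have ht' : G.zl < t := (G.zl_lt.trans G.zs_lt).trans ht
  set d := toGround G
  have ht'' : d.t₁ < t := ht'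
  rw [Real.exp_log ht] at hg
  simp only [P100.Ground.GroundState.tA, Real.exp_log ht] at hA
  have hu := G.O.posU t (G.mem ht')
  have hv := G.O.posV t (G.mem ht')
  have ha := d.fa_pos ht''
  have hψ0 : 0 < d.psi t := div_pos (d.fb_pos ht'') ha
  have hψ1 : d.psi t < 1 := by
    rw [psi_eq G ht']; exact G.psi_lt_one (G.mem ht')
  have hden : 0 < P.be + P.al * d.psi t := add_pos P.be_pos (mul_pos P.al_pos hψ0)
  have hw : Real.log (d.wE m t) = (1 - m / P.al) * Real.log (G.O.U t) + Real.log (G.O.V t) +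
      Real.log (P.be + P.al * d.psi t) - Real.log (d.fa t) := by
    have e : d.wE m t = Real.exp ((1 - m / P.al) * Real.log (d.U t)) * d.V t *
        (P.be + P.al * d.psi t) / d.fa t := by
      simp only [Ground.wE, Ground.psi]
      have := ha.ne'
      field_simp
    rw [show G.O.U = d.U from rfl, show G.O.V = d.V from rfl]
    have := (d.posV t ht'').1
    rw [e, Real.log_div (by positivity) ha.ne', Real.log_mul (by positivity) hden.ne',
      Real.log_mul (Real.exp_pos _).ne' (d.posV t ht'').1.ne', Real.log_exp]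
  have hfa : Real.log ((P.dim - 2) / 2) - Real.log 2 - Real.log t ≤ Real.log (d.fa t) := by
    rw [← Real.log_div (by linarith) two_ne_zero, ← Real.log_div (by linarith) ht.ne']
    refine Real.log_le_log (by positivity) ?_
    rw [fa_eq G ht', div_le_iff₀ ht, div_le_iff₀ two_pos]
    linarith
  have hd : Real.log (P.be + P.al * d.psi t) ≤ Real.log (P.be + P.al) :=
    Real.log_le_log hden (by linarith [mul_le_mul_of_nonneg_left hψ1.le P.al_pos.le])
  set S := T₁ P.al (d.sOf t) + T₂ P.be (d.sOf t)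
  have hS : 0 < S := add_pos (T₁_pos _ _) (T₂_pos _ _)
  have hS2 : -P.be * d.sOf t ≤ Real.log S := by
    rw [← Real.log_exp (-P.be * d.sOf t)]
    exact Real.log_le_log (Real.exp_pos _) (le_add_of_nonneg_left (T₁_pos _ _).le)
  have e2 : -P.be * d.sOf t = P.be / P.al * Real.log (G.O.U t) - Real.log (G.O.V t) := by
    simp only [d, toGround, Ground.sOf]
    have := P.al_pos.ne'
    have := P.be_pos.ne'
    field_simp
    ring
  rw [div_le_iff₀ (Real.rpow_pos_of_pos (pow_pos hS 2) _), Real.rpow_def_of_pos (wE_pos d m ht''),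
    Real.rpow_def_of_pos (pow_pos hS 2), Real.log_pow, ← Real.exp_add, Real.exp_le_exp]
  have hmS := mul_le_mul_of_nonneg_left hS2 hm
  rw [e2] at hmS
  have e3 : (2 - P.q * m) * Real.log (G.O.U t) = 2 * ((1 - m / P.al) * Real.log (G.O.U t)) -
      m * (P.be / P.al * Real.log (G.O.U t)) := by
    have := P.al_pos.ne'
    simp only [P100.Ground.Par.q]; field_simp; ring
  have key : 2 * Real.log (d.wE m t) ≤ m * Real.log S +
      (K + 2 * Real.log 2 + 2 * Real.log (P.be + P.al) - 2 * Real.log ((P.dim - 2) / 2)) := by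
    rw [hw]; linarith
  have h4 : 0 < 2 / (m + 4) := by positivity
  have := mul_le_mul_of_nonneg_left key h4.le
  calc Real.log (d.wE m t) * (4 / (m + 4)) = 2 / (m + 4) * (2 * Real.log (d.wE m t)) := by ring
    _ ≤ 2 / (m + 4) * (m * Real.log S +
        (K + 2 * Real.log 2 + 2 * Real.log (P.be + P.al) - 2 * Real.log ((P.dim - 2) / 2))) := this
    _ = _ := by push_cast; ring

/-- The coefficient bounds and the growth bound. -/
theorem exists_bounds {m : ℝ} (hm : 0 ≤ m)
    (hm' : 2 - (P.dim - 2) * (1 - m * P.q / 2) - P100.Ground.GroundState.lowB P * (1 + m / 2) < 0)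
    {Fg : ℝ → ℝ} (hF : ContinuousOn Fg (Ioi G.zl)) {t₀ : ℝ} (ht₀ : G.zl < t₀) {CE : ℝ}
    (hE : ∀ᶠ t in atTop, |(P.dim - 1) * P.be - Fg t * (P.be + P.al * (toGround G).psi t) ^ 2| ≤
      CE * ((1 - (toGround G).psi t) + |(P.dim - 2) - 2 * t * (toGround G).fa t|)) :
    ∃ C, ∀ t ≥ t₀,
      let v := ((toGround G).orb Fg t).val P.al P.be m
      (|v.c₁| ≤ C ∧ |v.c₂| ≤ C ∧ |v.l₁| ≤ C * (v.P₁ + v.P₂) ∧ |v.l₂| ≤ C * (v.P₁ + v.P₂)) ∧
        (toGround G).wE m t ^ (4 / (m + 4)) ≤ C * ((v.P₁ + v.P₂) ^ 2) ^ (m / (m + 4)) := by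
  have hal := P.al_pos
  have hbe := P.be_pos
  have hD : 0 < P.dim - 2 := by linarith [P.two_lt_dim]
  have hN : 0 < P.dim := zero_lt_two.trans P.two_lt_dim
  set d := toGround G
  obtain ⟨kc₁, kl₁, kl₂, kS, kw⟩ := continuousOn_vals G Fg hF m
  obtain ⟨C1, hC1, hclose⟩ := G.eventually_close
  set CF := ((P.dim - 1) * P.be + |CE| * (1 + (P.dim - 2))) / P.be ^ 2
  set C2 := ((P.dim - 1) * P.al * (P.be + P.al) / P.dim +
    |CE| * ((P.dim - 2) * C1 + (P.dim - 2) ^ 2 * C1)) / P.be ^ 2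
  set C3 := (P.al + (P.be + P.al) / P.dim) / P.be + C2
  have ev : ∀ᶠ t in atTop, |((d.orb Fg t).val P.al P.be m).c₁| ≤
        3 / 2 + (P.dim + P.al) / (2 * P.be) + CF ∧ |Fg t| ≤ CF ∧
      |((d.orb Fg t).val P.al P.be m).l₁| / (T₁ P.al (d.sOf t) + T₂ P.be (d.sOf t)) ≤ C3 ∧
      |((d.orb Fg t).val P.al P.be m).l₂| / (T₁ P.al (d.sOf t) + T₂ P.be (d.sOf t)) ≤ C2 := by
    filter_upwards [eventually_gt_atTop 0, hE, Real.tendsto_log_atTop.eventually hclose]
      with t ht hEt hc
    obtain ⟨hc1, hc2⟩ := hc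
    have ht' : G.zl < t := (G.zl_lt.trans G.zs_lt).trans ht
    have hS : 0 < T₁ P.al (d.sOf t) + T₂ P.be (d.sOf t) := add_pos (T₁_pos _ _) (T₂_pos _ _)
    rw [div_le_iff₀ hS, div_le_iff₀ hS, ← d.P₁_eq m Fg ht', ← d.P₂_eq m Fg ht']
    obtain ⟨e1, e2, e3, e4, e5⟩ := orb_eq G Fg m ht
    have hFt : (d.orb Fg t).F = Fg t := rfl
    set o := d.orb Fg t
    set k := 1 / (t * d.xi t)
    have hk : 0 < k := one_div_pos.2 (mul_pos ht (Real.exp_pos _))
    set A := G.tA (Real.log t) with hAdef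
    set r := G.tR (Real.log t)
    set q := G.tQ (Real.log t)
    have hA0 : 0 < A := G.tA_pos _
    have hAD : A ≤ P.dim - 2 := G.tA_le _
    have hr : 0 < r := G.tR_pos _
    have hq : 0 < q := G.tQ_pos _
    have hψe : o.ψ = d.psi t := rfl
    rw [← hψe] at hEt
    have hAe : A = 2 * t * d.fa t := by
      simp only [hAdef, P100.Ground.GroundState.tA, Real.exp_log ht, d, fa_eq G ht']
    rw [← hAe] at hEt
    have hψ0 : 0 < o.ψ := hψe ▸ div_pos (d.fb_pos ht') (d.fa_pos ht')
    have hψ1 : o.ψ < 1 := by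
      rw [hψe, psi_eq G ht']; exact G.psi_lt_one (G.mem ht')
    have hden : P.be ≤ o.den P.al P.be := le_add_of_nonneg_right (mul_nonneg hal.le hψ0.le)
    have hden0 : 0 < o.den P.al P.be := hbe.trans_le hden
    have hden2 : P.be ^ 2 ≤ o.den P.al P.be ^ 2 := pow_le_pow_left₀ hbe.le hden 2
    set E := (P.dim - 1) * P.be - Fg t * (P.be + P.al * o.ψ) ^ 2
    have hsum : (1 - o.ψ) + |(P.dim - 2) - A| ≤ 1 + (P.dim - 2) :=
      add_le_add (by linarith) (by rw [abs_of_nonneg (sub_nonneg.2 hAD)]; linarith)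
    have hs0 : 0 ≤ (1 - o.ψ) + |(P.dim - 2) - A| := add_nonneg (by linarith) (abs_nonneg _)
    have hE' : |E| ≤ |CE| * ((1 - o.ψ) + |(P.dim - 2) - A|) :=
      hEt.trans (mul_le_mul_of_nonneg_right (le_abs_self _) hs0)
    have hF' : |Fg t| ≤ CF := by
      rw [le_div_iff₀ (pow_pos hbe 2)]
      calc |Fg t| * P.be ^ 2 ≤ |Fg t| * o.den P.al P.be ^ 2 :=
            mul_le_mul_of_nonneg_left hden2 (abs_nonneg _)
        _ = |(P.dim - 1) * P.be - E| := by
            rw [← abs_of_nonneg (sq_nonneg (o.den P.al P.be)), ← abs_mul]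
            congr 1
            simp only [E, Orbit.den]; ring
        _ ≤ (P.dim - 1) * P.be + |E| :=
            (abs_sub _ _).trans (by
              rw [abs_of_nonneg (mul_nonneg (show (0 : ℝ) ≤ P.dim - 1 by linarith) hbe.le)])
        _ ≤ _ := add_le_add le_rfl (hE'.trans (mul_le_mul_of_nonneg_left hsum (abs_nonneg _)))
    have hG : |o.G P.al P.be| ≤ (P.dim + P.al) / P.be := by
      have h0 : 0 ≤ o.ψ * (P.dim + P.al - P.al * o.ψ) :=
        mul_nonneg hψ0.le (by linarith [mul_le_mul_of_nonneg_left hψ1.le hal.le])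
      rw [Orbit.G, dimN_eq, abs_div, abs_of_nonneg h0, abs_of_pos hden0]
      refine div_le_div₀ (by linarith) ?_ hbe hden
      have := mul_pos hψ0 (mul_pos hal hψ0)
      linarith [mul_le_mul_of_nonneg_right hψ1.le (show 0 ≤ P.dim + P.al by linarith)]
    -- the two forms of degree two
    set Φ := (P.be * r + P.al * q) / P.dim
    have hΦ0 : 0 ≤ Φ := by positivity
    have hΦ : Φ ≤ (P.be + P.al) / P.dim * (r + q) := by
      rw [div_mul_eq_mul_div, div_le_div_iff_of_pos_right hN]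
      linarith [mul_pos hbe hq, mul_pos hal hr]
    have hP₁ : P.dim * o.R - o.a * o.X = k * r := by rw [← dimN_eq]; exact e4
    have hP₂ : o.ψ * P.dim * o.R - o.X * (P.dim * o.ψ - P.be * o.a) / P.al = k * q := by
      rw [← dimN_eq]; exact e5
    have hΦe : k * Φ = o.R * o.den P.al P.be - o.ψ * o.X := by
      simp only [Φ, Orbit.den]
      rw [← mul_div_assoc, div_eq_iff hN.ne']
      field_simp at hP₂
      linear_combination -P.be * hP₁ - hP₂
    have hl₂ : o.l₂ P.al P.be * o.den P.al P.be ^ 2 =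
        -(P.dim - 1) * P.al * (k * Φ) + E * o.X := by
      rw [hΦe]
      simp only [Orbit.l₂, E, hFt, dimN_eq]
      field_simp
      simp only [Orbit.den]
      ring
    have hEX : |E * o.X| ≤ k * (|CE| * ((P.dim - 2) * C1 + (P.dim - 2) ^ 2 * C1) * (r + q)) := by
      rw [e3, abs_mul, abs_of_nonneg (mul_nonneg hk.le (sq_nonneg A))]
      have h1 : ((1 - o.ψ) + |(P.dim - 2) - A|) * A ^ 2 ≤
          ((P.dim - 2) * C1 + (P.dim - 2) ^ 2 * C1) * (r + q) := by
        have u1 : (1 - o.ψ) * A ≤ C1 * (r + q) := by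
          rw [sub_mul, one_mul, e1]
          exact (le_abs_self _).trans hc2
        have u2 := mul_le_mul u1 hAD hA0.le (mul_nonneg hC1 (by positivity))
        have u3 := mul_le_mul hc1 (pow_le_pow_left₀ hA0.le hAD 2) (sq_nonneg A)
          (mul_nonneg hC1 (by positivity))
        linarith
      have h2 := mul_le_mul_of_nonneg_right hE' (mul_nonneg hk.le (sq_nonneg A))
      have h3 := mul_le_mul_of_nonneg_left h1 (mul_nonneg hk.le (abs_nonneg CE))
      linarith
    have hl₂' : |o.l₂ P.al P.be| ≤ k * (C2 * (r + q)) := by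
      have hk' : k * (C2 * (r + q)) * P.be ^ 2 = k * (((P.dim - 1) * P.al * (P.be + P.al) / P.dim +
          |CE| * ((P.dim - 2) * C1 + (P.dim - 2) ^ 2 * C1)) * (r + q)) := by
        simp only [C2]; field_simp
      refine le_of_mul_le_mul_right ?_ (pow_pos hbe 2)
      rw [hk']
      refine (mul_le_mul_of_nonneg_left hden2 (abs_nonneg _)).trans ?_
      rw [← abs_of_nonneg (sq_nonneg (o.den P.al P.be)), ← abs_mul, hl₂]
      refine (abs_add_le _ _).trans ?_
      have h0 : (0 : ℝ) ≤ (P.dim - 1) * P.al := mul_nonneg (by linarith) hal.le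
      rw [neg_mul, neg_mul, abs_neg, abs_of_nonneg (mul_nonneg h0 (mul_nonneg hk.le hΦ0))]
      have u4 := mul_le_mul_of_nonneg_left hΦ (mul_nonneg h0 hk.le)
      have e6 : (P.dim - 1) * P.al * k * ((P.be + P.al) / P.dim * (r + q)) =
          k * ((P.dim - 1) * P.al * (P.be + P.al) / P.dim * (r + q)) := by ring
      linarith
    have hl₁ : (o.l₁ P.al P.be + o.ψ * o.l₂ P.al P.be) * o.den P.al P.be =
        P.al * (k * q - o.ψ * (k * r)) - k * Φ := by
      rw [hΦe, ← hP₁, ← hP₂]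
      simp only [Orbit.l₁, Orbit.K, dimN_eq]
      field_simp
      simp only [Orbit.den]
      ring
    have hl₁' : |o.l₁ P.al P.be| ≤ k * (C3 * (r + q)) := by
      have h1 : |o.l₁ P.al P.be + o.ψ * o.l₂ P.al P.be| * P.be ≤
          k * ((P.al + (P.be + P.al) / P.dim) * (r + q)) := by
        refine (mul_le_mul_of_nonneg_left hden (abs_nonneg _)).trans ?_
        rw [← abs_of_pos hden0, ← abs_mul, hl₁, abs_le]
        have u1 := mul_le_mul_of_nonneg_left hΦ hk.le
        have u2 := mul_nonneg hk.le hΦ0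
        have u3 := mul_le_mul_of_nonneg_right hψ1.le (mul_pos hal (mul_pos hk hr)).le
        have u4 := mul_nonneg hψ0.le (mul_pos hal (mul_pos hk hr)).le
        have u5 := mul_pos hal (mul_pos hk hq)
        have u6 := mul_pos hal (mul_pos hk hr)
        constructor <;> linarith
      rw [show C3 = (P.al + (P.be + P.al) / P.dim) / P.be + C2 from rfl, add_mul, mul_add]
      have h2 : |o.l₁ P.al P.be + o.ψ * o.l₂ P.al P.be| ≤
          k * ((P.al + (P.be + P.al) / P.dim) / P.be * (r + q)) := by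
        rw [← le_div_iff₀ hbe] at h1
        exact h1.trans_eq (by ring)
      have h3 : |o.ψ * o.l₂ P.al P.be| ≤ k * (C2 * (r + q)) := by
        rw [abs_mul, abs_of_pos hψ0]
        exact (mul_le_of_le_one_left (abs_nonneg _) hψ1.le).trans hl₂'
      have h4 := abs_sub (o.l₁ P.al P.be + o.ψ * o.l₂ P.al P.be) (o.ψ * o.l₂ P.al P.be)
      rw [add_sub_cancel_right] at h4
      linarith
    refine ⟨?_, hF', ?_, ?_⟩
    · show |-1 + o.ψ / 2 + o.G P.al P.be / 2 - Fg t * o.ψ| ≤ _
      have h1 := abs_le.1 hG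
      have h2 := abs_le.1 ((abs_mul (Fg t) o.ψ).trans_le (mul_le_mul hF' ((abs_of_pos hψ0).trans_le
        hψ1.le) (abs_nonneg _) ((abs_nonneg _).trans hF')))
      have e7 : (P.dim + P.al) / (2 * P.be) = (P.dim + P.al) / P.be / 2 := by ring
      rw [abs_le, e7, mul_one] at *
      constructor <;> linarith
    · show |o.l₁ P.al P.be| ≤ _
      rw [e4, e5]; exact hl₁'.trans_eq (by ring)
    · show |o.l₂ P.al P.be| ≤ _
      rw [e4, e5]; exact hl₂'.trans_eq (by ring)
  obtain ⟨CG, hCG⟩ := eventually_growth G hm hm'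
  have hS : ∀ t ∈ Ioi G.zl, T₁ P.al (d.sOf t) + T₂ P.be (d.sOf t) ≠ 0 := fun t _ =>
    (add_pos (T₁_pos _ _) (T₂_pos _ _)).ne'
  have hsub : Ici t₀ ⊆ Ioi G.zl := Ici_subset_Ioi.2 ht₀
  obtain ⟨b1, hb1⟩ := bound_of_eventually (t₀ := t₀) (kc₁.abs.mono hsub) (ev.mono fun t h => h.1)
  obtain ⟨b2, hb2⟩ := bound_of_eventually (t₀ := t₀) (hF.abs.mono hsub) (ev.mono fun t h => h.2.1)
  obtain ⟨b3, hb3⟩ := bound_of_eventually (t₀ := t₀) ((kl₁.abs.div kS hS).mono hsub)
    (ev.mono fun t h => h.2.2.1)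
  obtain ⟨b4, hb4⟩ := bound_of_eventually (t₀ := t₀) ((kl₂.abs.div kS hS).mono hsub)
    (ev.mono fun t h => h.2.2.2)
  obtain ⟨b5, hb5⟩ := bound_of_eventually (t₀ := t₀)
    (((kw.rpow_const fun t ht => Or.inl (wE_pos d m ht).ne').div
      ((kS.pow 2).rpow_const fun t ht => Or.inl (pow_ne_zero 2 (hS t ht)))
      fun t ht => (Real.rpow_pos_of_pos (pow_pos (add_pos (T₁_pos _ _) (T₂_pos _ _)) 2) _).ne').mono
      hsub) hCG
  refine ⟨max (max (max b1 b2) (max b3 b4)) b5, fun t ht => ?_⟩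
  intro v
  have ht' : G.zl < t := hsub ht
  have hSt : 0 < T₁ P.al (d.sOf t) + T₂ P.be (d.sOf t) := add_pos (T₁_pos _ _) (T₂_pos _ _)
  have hv : v.P₁ + v.P₂ = T₁ P.al (d.sOf t) + T₂ P.be (d.sOf t) := by
    rw [← d.P₁_eq m Fg ht', ← d.P₂_eq m Fg ht']
  rw [hv]
  set C := max (max (max b1 b2) (max b3 b4)) b5
  have c12 : max b1 b2 ≤ C := (le_max_left _ _).trans (le_max_left _ _)
  have c34 : max b3 b4 ≤ C := (le_max_right _ _).trans (le_max_left _ _)
  exact ⟨⟨(hb1 t ht).trans ((le_max_left _ _).trans c12),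
    (hb2 t ht).trans ((le_max_right _ _).trans c12),
    (div_le_iff₀ hSt).1 ((hb3 t ht).trans ((le_max_left _ _).trans c34)),
    (div_le_iff₀ hSt).1 ((hb4 t ht).trans ((le_max_right _ _).trans c34))⟩,
    (div_le_iff₀ (Real.rpow_pos_of_pos (pow_pos hSt 2) _)).1
      ((hb5 t ht).trans (le_max_right _ _))⟩

end Vale.Agent.P100.Cal
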