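import Vale.Agent.P100.Cal.State
import Vale.Agent.P100.Cal.Bounds
import Vale.Agent.P100.Ground.Mono

/-!
P100, calibrated identity: the calibrated range from the pointwise inequalities on the region and
from the fact that the ground state stays in it.
-/

open Filter Topology Set
open scoped Laplacian

namespace Vale.Agent.P100.Cal

open Orbit (dimN)

/-- A positive continuous function on a compact set is bounded below by a positive number. -/
theorem exists_pos_lb {X : Type*} [TopologicalSpace X] {S : Set X} {f : X → ℝ} (hS : IsCompact S)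
    (hc : ContinuousOn f S) (hpos : ∀ p ∈ S, 0 < f p) : ∃ c > 0, ∀ p ∈ S, c ≤ f p := by
  rcases S.eq_empty_or_nonempty with rfl | hne
  · exact ⟨1, one_pos, fun p hp => hp.elim⟩
  · obtain ⟨p, hp, hmin⟩ := hS.exists_isMinOn hne hc
    exact ⟨f p, hpos p hp, fun q hq => hmin hq⟩

variable {al be : ℝ}

theorem gG_pos {y : ℝ} (hal : 0 < al) (hbe : 0 < be) (hy : be < y) (hya : y ≤ al) :
    0 < Pos.gG al be y := by
  simp only [Pos.gG, Pos.den, Pos.dv, Pos.dN]
  exact div_pos (mul_pos (by linarith) (by linarith)) (mul_pos hal (by linarith))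

/-- Pointwise positivity on the region gives uniform goodness there. -/
theorem exists_good
    (hkap : ∀ y z U, Pos.Region al be y z U →
      1 / 20 * (4 * Pos.gC al be y z U * Pos.gP al be y z U * Pos.aDe al be y z) ≤
        Pos.kap al be y z U)
    (hP : ∀ y z U, Pos.Region al be y z U → 0 < Pos.gP al be y z U)
    (hB : ∃ c > 0, ∀ y z U, Pos.Region al be y z U →
      c * ((al - y) + (Pos.dD al be - U)) ≤ Pos.gB al be y z U) :
    ∃ a₀ > 0, ∃ M, ∀ y z U R : ℝ, Pos.Region al be y z U → y < al → 0 ≤ R →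
      0 ≤ ((state al be y z U R).val al be (Pos.gm al be)).P₁ →
      0 ≤ ((state al be y z U R).val al be (Pos.gm al be)).P₂ →
      ((state al be y z U R).val al be (Pos.gm al be)).Good (dimN al be) al be (Pos.gm al be)
        (y / al) (U * R) a₀ M := by
  by_cases hpar : 1 ≤ be ∧ be < al ∧ 3 ≤ al + be
  swap
  · exact ⟨1, one_pos, 0, fun y z U R h => absurd ⟨h.hbe, h.hal, h.hD⟩ hpar⟩
  obtain ⟨hbe1, hba, hD3⟩ := hpar
  have hbe : 0 < be := by linarith
  have hal : 0 < al := by linarith
  have hN : 0 < al + be + 2 := by linarith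
  have hdM : 0 < Pos.dM al be := by simp only [Pos.dM]; linarith
  set S := regionSet al be
  have hS : IsCompact S := isCompact_regionSet al be
  obtain ⟨kP, -, kw, kC, k5, kG, kJ⟩ := continuousOn_region al be
  obtain ⟨mP, hmP, lP⟩ := exists_pos_lb hS kP fun p hp => hP _ _ _ hp
  obtain ⟨mB, hmB, lB⟩ := hB
  obtain ⟨mG, hmG, lG⟩ := exists_pos_lb hS kG fun p hp =>
    gG_pos hal hbe (Pos.Region.hy hp) hp.hyal
  obtain ⟨bP, uP⟩ := hS.exists_bound_of_continuousOn kP
  obtain ⟨bC, uC⟩ := hS.exists_bound_of_continuousOn kC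
  obtain ⟨b5, u5⟩ := hS.exists_bound_of_continuousOn k5
  obtain ⟨bG, uG⟩ := hS.exists_bound_of_continuousOn kG
  obtain ⟨bJ, uJ⟩ := hS.exists_bound_of_continuousOn kJ
  set c := 2 * be * Pos.dM al be / (al * Pos.dN al be)
  have hc : 0 < c := by simp only [c, Pos.dN]; positivity
  set CD := al * (be * (al + be + 2) / (al + be)) with hCDdef
  set E0 := be * (al + be + 2) / (al + be)
  set KR := 2 * ((al + be + 2) / (al + be)) + 3 * ((al + be + 2) * E0 / (al * be)) +
    (al + be + 2) * E0 / al ^ 2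
  have hCD : 0 < CD := by
    have : 0 < al + be := by linarith
    simp only [CD]; positivity
  have hE0 : 0 < E0 := by
    have : 0 < al + be := by linarith
    simp only [E0]; positivity
  have hKR : 0 < KR := by
    have : 0 < al + be := by linarith
    simp only [KR]; positivity
  set a₀ := min (min (mP / 20) mG) (min (min (1 / 2) (c / 8)) (mB / (al * KR)))
  have ha₀ : 0 < a₀ := lt_min (lt_min (by positivity) hmG)
    (lt_min (lt_min (by norm_num) (by positivity)) (by positivity))
  refine ⟨a₀, ha₀, max (max (2 + |Pos.gm al be| / al + be * bJ / al + 2 * (3 / 2 + bG / 2 + b5))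
    (2 * b5 + bJ)) (max (max 1 bP) (CD * bC / (al ^ 2 * be ^ 2))), ?_⟩
  intro y z U R h hyal hR hP₁ hP₂
  have hp : (y, z, U) ∈ S := h
  have hy : be < y := Pos.Region.hy h
  have hy0 : 0 < y := hbe.trans hy
  have hz : 0 ≤ z := h.hz
  have hden : 0 < y + be := by linarith
  have hg := uG _ hp
  have h5 := u5 _ hp
  have hJ := uJ _ hp
  have hC' := uC _ hp
  have hP' := uP _ hp
  rw [Real.norm_eq_abs] at hg h5 hJ hC' hP'
  simp only at hg h5 hJ hC' hP'
  have lP' := lP _ hp
  have lB' := lB y z U h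
  have lG' := lG _ hp
  simp only at lP' lG'
  set o := state al be y z U R with ho
  set v := o.val al be (Pos.gm al be) with hv
  have hreg : o.Reg al be := state_reg R hal hbe hy
  have hψ : o.ψ = y / al := rfl
  have hψ1 : |y / al| ≤ 1 := by
    rw [abs_of_pos (div_pos hy0 hal), div_le_one hal]; exact hyal.le
  have hGs : o.G al be = Pos.gG al be y := by
    have := hden.ne'
    simp only [ho, Orbit.G, Orbit.den, state, dimN, Pos.gG, Pos.den, Pos.dv, Pos.dN,
      mul_div_cancel₀ _ hal.ne']
    rw [add_comm be y]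
    field_simp
    ring
  -- the exponent of the weight
  have hep : v.ep = be * (Pos.gj0 al be y - 2 * z / Pos.dl be y) := by
    rw [← Ew_state (U := U) R hal hbe hy, hv]
    simp only [Orbit.val, hreg.inv_rate, ← ho, Orbit.Ew]
    field_simp
    ring
  have hJ' : |v.ep| ≤ be * bJ := by
    rw [hep, abs_mul, abs_of_pos hbe]; exact mul_le_mul_of_nonneg_left hJ hbe.le
  have hc₁ : |v.c₁| ≤ 3 / 2 + bG / 2 + b5 := by
    show |-1 + o.ψ / 2 + o.G al be / 2 - Pos.c5 al be y U * o.ψ| ≤ _
    rw [hψ, hGs]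
    have h1 := abs_le.1 hψ1
    have h2 := abs_le.1 hg
    have h3 := abs_le.1 ((abs_mul (Pos.c5 al be y U) (y / al)).trans_le
      (mul_le_mul h5 hψ1 (abs_nonneg _) ((abs_nonneg _).trans h5)))
    rw [abs_le]; constructor <;> linarith
  have hC₀ := gC_ge h
  have hDe : 0 < Pos.aDe al be y z := by
    simp only [Pos.aDe, Pos.den, Pos.dv]
    exact add_pos_of_nonneg_of_pos (mul_nonneg hden.le hz) (mul_pos hy0 (sub_pos.2 hyal))
  have hDe' : Pos.aDe al be y z ≤ CD := by
    have h2 := h.hz2
    simp only [Pos.den, Pos.dD, Pos.dN] at h2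
    simp only [Pos.aDe, Pos.den, Pos.dv, CD]
    have h3 := mul_le_mul_of_nonneg_right (show al - y ≤ al by linarith)
      (show 0 ≤ be * (al + be + 2) / (al + be) from
        div_nonneg (by positivity) (by linarith))
    linarith
  have hgC : 0 < Pos.gC al be y z U := (mul_pos hc hDe).trans_le hC₀
  have hCq : v.Cq (dimN al be) al be (Pos.gm al be) (y / al) =
      Pos.aDe al be y z * Pos.gC al be y z U / (al ^ 2 * Pos.den be y ^ 2) :=
    Cq_state R hal hbe hy
  have hden2 : 0 < al ^ 2 * Pos.den be y ^ 2 := by simp only [Pos.den]; positivity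
  have hCq0 : 0 < v.Cq (dimN al be) al be (Pos.gm al be) (y / al) := by rw [hCq]; positivity
  have hκ : v.Bq (dimN al be) al be (Pos.gm al be) (y / al) ^ 2 ≤
      4 * (v.A₂ (dimN al be) be - a₀) * v.Cq (dimN al be) al be (Pos.gm al be) (y / al) := by
    have h1 := hkap y z U h
    rw [kap_state R hal hbe hy] at h1
    have h2 : Pos.gC al be y z U * Pos.aDe al be y z =
        al ^ 2 * Pos.den be y ^ 2 * v.Cq (dimN al be) al be (Pos.gm al be) (y / al) := by
      have : Pos.den be y ≠ 0 := hden.ne'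
      rw [hCq]; field_simp
    have h3 := mul_le_mul_of_nonneg_left (show 20 * a₀ ≤ Pos.gP al be y z U by
      linarith [show a₀ ≤ mP / 20 from (min_le_left _ _).trans (min_le_left _ _)])
      (mul_pos hgC hDe).le
    refine le_of_mul_le_mul_left ?_ hden2
    rw [show 4 * (v.A₂ (dimN al be) be - a₀) * v.Cq (dimN al be) al be (Pos.gm al be) (y / al) =
      4 * v.A₂ (dimN al be) be * v.Cq (dimN al be) al be (Pos.gm al be) (y / al) -
        4 * a₀ * v.Cq (dimN al be) al be (Pos.gm al be) (y / al) by ring]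
    linear_combination h1 + (1 / 5) * h3 - 4 * a₀ * h2
  have hA : a₀ ≤ v.A₂ (dimN al be) be := by
    by_contra hlt
    have := mul_neg_of_neg_of_pos (sub_neg.2 (not_le.1 hlt)) hCq0
    linarith [sq_nonneg (v.Bq (dimN al be) al be (Pos.gm al be) (y / al))]
  set B := max (max (2 + |Pos.gm al be| / al + be * bJ / al + 2 * (3 / 2 + bG / 2 + b5))
    (2 * b5 + bJ)) (max (max 1 bP) (CD * bC / (al ^ 2 * be ^ 2)))
  have b12 := le_max_left (max (2 + |Pos.gm al be| / al + be * bJ / al +
    2 * (3 / 2 + bG / 2 + b5)) (2 * b5 + bJ)) (max (max 1 bP) (CD * bC / (al ^ 2 * be ^ 2)))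
  have b34 := le_max_right (max (2 + |Pos.gm al be| / al + be * bJ / al +
    2 * (3 / 2 + bG / 2 + b5)) (2 * b5 + bJ)) (max (max 1 bP) (CD * bC / (al ^ 2 * be ^ 2)))
  refine
    { crit := Orbit.critical _ hreg
      pos₁ := hP₁
      pos₂ := hP₂
      bdg₁ := ?_
      bdg₂ := ?_
      bdψ := hψ1.trans ((le_max_left _ _).trans ((le_max_left _ _).trans b34))
      bdA := ?_
      bdC := ?_
      hk := ?_
      hA := hA
      hC := hCq0.le
      hκ := hκ
      hC₀ := ?_
      hY := ?_ }
  · refine le_trans ?_ ((le_max_left _ _).trans b12)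
    show |2 - Pos.gm al be / al + v.ep / al + 2 * v.c₁| ≤ _
    have h1 : |v.ep / al| ≤ be * bJ / al := by
      rw [abs_div, abs_of_pos hal]; gcongr
    have h2 : |Pos.gm al be / al| = |Pos.gm al be| / al := by rw [abs_div, abs_of_pos hal]
    have h3 := abs_le.1 h1
    have h4 := abs_le.1 h2.le
    have h5 := abs_le.1 hc₁
    rw [abs_le]; constructor <;> linarith
  · refine le_trans ?_ ((le_max_right _ _).trans b12)
    show |2 * Pos.c5 al be y U - v.ep / be| ≤ _
    have h1 : |v.ep / be| ≤ bJ := by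
      rw [abs_div, abs_of_pos hbe, div_le_iff₀ hbe]; linarith
    have h3 := abs_le.1 h1
    have h4 := abs_le.1 h5
    rw [abs_le]; constructor <;> linarith
  · refine le_trans ?_ ((le_max_right _ _).trans ((le_max_left _ _).trans b34))
    rw [A₂_state R hal hbe hy]
    refine (sub_le_self _ ?_).trans ((le_abs_self _).trans hP')
    simp only [Pos.dN]
    positivity
  · refine le_trans ?_ ((le_max_right _ _).trans b34)
    rw [hCq]
    simp only [Pos.den]
    exact div_le_div₀ (mul_nonneg hCD.le ((abs_nonneg _).trans hC'))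
      (mul_le_mul hDe' ((le_abs_self _).trans hC') hgC.le hCD.le) (by positivity)
      (mul_le_mul_of_nonneg_left (pow_le_pow_left₀ hbe.le (by linarith) 2) (sq_nonneg _))
  · rw [← hψ, Orbit.k₁_eq _ hreg]
    exact ((min_le_left _ _).trans (min_le_right _ _)).trans
      (lG'.trans (le_add_of_nonneg_right (div_nonneg hz hal.le)))
  · have e : v.P₂ = y / al * v.P₁ + U * R * Pos.aDe al be y z / al ^ 2 := P₂_state R hal hbe hy
    have h1 : v.P₂ ^ 2 ≤ 2 * v.P₁ ^ 2 + 2 * (U * R * Pos.aDe al be y z / al ^ 2) ^ 2 := by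
      have hsq : (y / al * v.P₁) ^ 2 ≤ v.P₁ ^ 2 := by
        rw [mul_pow]
        exact mul_le_of_le_one_left (sq_nonneg _)
          (pow_le_one₀ (div_pos hy0 hal).le ((div_le_one hal).2 hyal.le))
      rw [e]
      linarith [sq_nonneg (y / al * v.P₁ - U * R * Pos.aDe al be y z / al ^ 2)]
    have h2 : c / 4 * (U * R * Pos.aDe al be y z / al ^ 2) ^ 2 ≤
        v.Cq (dimN al be) al be (Pos.gm al be) (y / al) * (U * R) ^ 2 := by
      rw [hCq, div_mul_eq_mul_div (Pos.aDe al be y z * Pos.gC al be y z U), le_div_iff₀ hden2]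
      have h3 := mul_le_mul_of_nonneg_right hC₀ (mul_nonneg hDe.le (sq_nonneg (U * R)))
      have h4 : Pos.den be y ^ 2 / (4 * al ^ 2) ≤ 1 := by
        rw [div_le_one (by positivity), show 4 * al ^ 2 = (2 * al) ^ 2 by ring]
        exact pow_le_pow_left₀ hden.le (by linarith : y + be ≤ 2 * al) 2
      have h5 := mul_le_mul_of_nonneg_left h4
        (show 0 ≤ c * (U * R * Pos.aDe al be y z) ^ 2 by positivity)
      have e2 : c / 4 * (U * R * Pos.aDe al be y z / al ^ 2) ^ 2 *
          (al ^ 2 * Pos.den be y ^ 2) =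
          c * (U * R * Pos.aDe al be y z) ^ 2 * (Pos.den be y ^ 2 / (4 * al ^ 2)) := by
        field_simp
      linarith
    have h6 : a₀ ≤ min (1 / 2) (c / 8) := (min_le_right _ _).trans (min_le_left _ _)
    have u1 := mul_le_mul_of_nonneg_left h1 ha₀.le
    have u2 := mul_le_mul_of_nonneg_right (h6.trans (min_le_left _ _)) (sq_nonneg v.P₁)
    have u3 := mul_le_mul_of_nonneg_right (h6.trans (min_le_right _ _))
      (sq_nonneg (U * R * Pos.aDe al be y z / al ^ 2))
    linarith
  · have e : v.P₂ = y / al * v.P₁ + U * R * Pos.aDe al be y z / al ^ 2 := P₂_state R hal hbe hy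
    have hz2 := h.hz2
    have hU0 := h.hU0
    have hU1 := h.hU
    have hyh := h.hyh
    simp only [Pos.den, Pos.dD, Pos.dN] at hz2 hU1 hyh
    have hD : 0 < al + be := by linarith
    have hE1 : y ≤ E0 := by
      simp only [E0]; rw [le_div_iff₀ hD]; linarith
    have hd0 : 0 ≤ al - y + (al + be - U) := by linarith
    set ga := Pos.ga al be y z with hga
    -- the gap to the bubble value
    have hgap : (al + be + 2) / (al + be) - ga =
        ((al - y) * (E0 - y) - (y + be) * z) / (al * (y + be)) := by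
      simp only [hga, E0, Pos.ga, Pos.gG, Pos.den, Pos.dv, Pos.dN]
      field_simp
      ring
    have hg0 : 0 ≤ (al + be + 2) / (al + be) - ga := by
      rw [hgap]; exact div_nonneg (sub_nonneg.2 hz2) (by positivity)
    have hg1 : (al + be + 2) / (al + be) - ga ≤ E0 / (al * be) * (al - y) := by
      rw [hgap, div_mul_eq_mul_div]
      refine div_le_div₀ (mul_nonneg hE0.le (by linarith)) ?_ (by positivity) (by gcongr; linarith)
      have := mul_le_mul_of_nonneg_left (sub_le_self E0 hy0.le) (show 0 ≤ al - y by linarith)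
      linarith [mul_nonneg hden.le hz]
    have h1 : v.P₁ ≤ R * ((al + be + 2) / (al + be) * (al + be - U) +
        (al + be + 2) * E0 / (al * be) * (al - y)) := by
      show dimN al be * R - ga * (U * R) ≤ _
      have u1 : U * ((al + be + 2) / (al + be) - ga) ≤
          (al + be + 2) * (E0 / (al * be) * (al - y)) :=
        mul_le_mul (by linarith) hg1 hg0 (by linarith)
      have u2 := mul_le_mul_of_nonneg_left u1 hR
      have e2 : (al + be + 2) / (al + be) * (al + be) = al + be + 2 :=
        div_mul_cancel₀ _ hD.ne'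
      simp only [dimN]
      linear_combination u2 - R * e2
    have hde : Pos.aDe al be y z ≤ (al - y) * E0 := by
      simp only [Pos.aDe, Pos.den, Pos.dv]
      linarith
    have h2 : U * R * Pos.aDe al be y z / al ^ 2 ≤
        R * ((al + be + 2) * E0 / al ^ 2 * (al - y)) := by
      rw [div_mul_eq_mul_div ((al + be + 2) * E0), mul_div_assoc',
        div_le_div_iff_of_pos_right (by positivity)]
      calc U * R * Pos.aDe al be y z ≤ (al + be + 2) * R * Pos.aDe al be y z := by
            gcongr; linarith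
        _ ≤ (al + be + 2) * R * ((al - y) * E0) :=
            mul_le_mul_of_nonneg_left hde (mul_nonneg hN.le hR)
        _ = _ := by ring
    have h3 : v.P₁ + v.P₂ ≤ R * (KR * (al - y + (al + be - U))) := by
      have := mul_le_mul_of_nonneg_right ((div_le_one hal).2 hyal.le) hP₁
      rw [e]
      have k0 : 0 ≤ R * ((al + be + 2) / (al + be) * (al - y)) :=
        mul_nonneg hR (mul_nonneg (by positivity) (by linarith))
      have k1 : 0 ≤ R * ((al + be + 2) * E0 / (al * be) * (al + be - U)) :=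
        mul_nonneg hR (mul_nonneg (by positivity) (by linarith))
      have k2 : 0 ≤ R * ((al + be + 2) * E0 / al ^ 2 * (al + be - U)) :=
        mul_nonneg hR (mul_nonneg (by positivity) (by linarith))
      have k3 : 0 ≤ R * ((al + be + 2) * E0 / (al * be) * (al - y)) :=
        mul_nonneg hR (mul_nonneg (by positivity) (by linarith))
      simp only [KR]
      linarith
    have hdl : 0 < Pos.dl be y := sub_pos.2 hy
    have h4 := rY_state (z := z) (U := U) R hal hbe hy
    have h5 : a₀ ≤ mB / (al * KR) := (min_le_right _ _).trans (min_le_right _ _)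
    rw [le_div_iff₀ (by positivity)] at h5
    refine le_of_mul_le_mul_left ?_ hdl
    rw [h4]
    calc Pos.dl be y * (a₀ * (v.P₁ + v.P₂)) ≤
          al * (a₀ * (R * (KR * (al - y + (al + be - U))))) := by
          refine mul_le_mul (by simp only [Pos.dl]; linarith)
            (mul_le_mul_of_nonneg_left h3 ha₀.le) (by positivity) hal.le
      _ = R * (a₀ * (al * KR) * (al - y + (al + be - U))) := by ring
      _ ≤ R * Pos.gB al be y z U := mul_le_mul_of_nonneg_left
          ((mul_le_mul_of_nonneg_right h5 hd0).trans lB') hR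

variable {P : P100.Ground.Par} (G : P100.Ground.GroundState P)

theorem a₁_eq {t : ℝ} (ht : G.zl < t) : (toGround G).a₁ t = G.O.crv t := by
  have hd := G.mem ht
  have e : deriv (deriv G.O.U) t = G.O.U2 t :=
    ((G.O.hU1 t hd).congr_of_eventuallyEq
      (eventually_of_mem (G.O.isOpen.mem_nhds hd) fun u hu => (G.O.hU u hu).deriv)).deriv
  show deriv (deriv G.O.U) t / G.O.U t / (toGround G).fa t ^ 2 = _
  rw [e, fa_eq G ht, P100.Ground.Orb.a, P100.Ground.Orb.crv]
  have := (G.O.posU t hd).ne'
  have := (G.O.negU t hd).ne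
  field_simp

/-- The gauge along the ground state. -/
noncomputable def gauge (t : ℝ) : ℝ :=
  Pos.c5 P.al P.be (P.al * (toGround G).psi t) (2 * t * (toGround G).fa t)

theorem gauge_contDiffOn : ContDiffOn ℝ 1 (gauge G) (Ioi G.zl) := by
  obtain ⟨hfa, -, -, hpsi, -⟩ := (toGround G).contDiffOn_orb
  have hψ : ContDiffOn ℝ 1 (toGround G).psi (Ioi G.zl) := hpsi.of_le (by norm_num)
  have hA : ContDiffOn ℝ 1 (toGround G).fa (Ioi G.zl) := hfa.of_le (by norm_num)
  unfold gauge
  simp only [Pos.c5, Pos.gL, Pos.den, Pos.dv]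
  refine ContDiffOn.div ?_ ((contDiffOn_const.mul hψ |>.add contDiffOn_const).pow 2) fun t ht => ?_
  · exact contDiffOn_const.mul (contDiffOn_const.sub
      ((((contDiffOn_const.sub (contDiffOn_const.mul hψ))).mul (contDiffOn_const.add
        (contDiffOn_const.mul (contDiffOn_const.sub
          (((contDiffOn_const.mul contDiffOn_id).mul hA).div_const _))))).div_const _))
  · have h1 : 0 < (toGround G).psi t :=
      div_pos ((toGround G).fb_pos ht) ((toGround G).fa_pos ht)
    have := mul_pos P.al_pos h1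
    have := P.be_pos
    exact pow_ne_zero 2 (by linarith : P.al * (toGround G).psi t + P.be ≠ 0)

/-- The state of the ground state in the variables of the region. -/
theorem orb_eq_state {t : ℝ} (ht : G.zl < t) :
    (toGround G).orb (gauge G) t = state P.al P.be (P.al * G.O.psi t)
      (P.al * (G.O.crv t - P.gfun (G.O.psi t))) (G.O.aa t)
      (((toGround G).orb (gauge G) t).R) := by
  set d := toGround G
  have hal := P.al_pos
  have hbe := P.be_pos
  have hψ0 : 0 < d.psi t := div_pos (d.fb_pos ht) (d.fa_pos ht)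
  have hα : P.al * d.psi t + P.be ≠ 0 := by
    have := mul_pos hal hψ0; linarith
  have hA : G.O.aa t = 2 * t * d.fa t := by
    simp only [P100.Ground.Orb.aa, d, fa_eq G ht]
  rw [← psi_eq G ht, ← a₁_eq G ht, hA]
  have hga : Pos.ga P.al P.be (P.al * d.psi t) (P.al * (d.a₁ t - P.gfun (d.psi t))) = d.a₁ t := by
    simp only [Pos.ga, Pos.gG, Pos.den, Pos.dv, Pos.dN, P100.Ground.Par.gfun,
      P100.Ground.Par.dim]
    rw [add_comm P.be (P.al * d.psi t)]
    field_simp
    ring
  -- the derivative of the gauge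
  have hψ' := d.hasDerivAt_psi (gauge G) ht
  have hy : HasDerivAt (fun u => P.al * d.psi u) _ t := hψ'.const_mul P.al
  have hU : HasDerivAt (fun u => 2 * u * d.fa u) _ t :=
    ((hasDerivAt_id' t).const_mul 2).fun_mul (d.hasDerivAt_fa ht)
  have hE : HasDerivAt (fun u => Pos.gE P.al P.be (P.al * d.psi u) (2 * u * d.fa u)) _ t :=
    (((hy.const_sub P.al).const_mul (Pos.dM P.al P.be * P.be)).fun_mul
      ((((hU.div_const (Pos.dD P.al P.be)).const_sub 1).const_mul (Pos.l1 P.al P.be)).const_add
        (1 + 2 * P.be / P.al))).div_const (Pos.dD P.al P.be)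
  have hD : P.al + P.be ≠ 0 := by linarith
  have e : gauge G = fun u => (Pos.dM P.al P.be * P.be -
      Pos.gE P.al P.be (P.al * d.psi u) (2 * u * d.fa u)) /
        Pos.den P.be (P.al * d.psi u) ^ 2 := by
    funext u
    show Pos.c5 P.al P.be (P.al * d.psi u) (2 * u * d.fa u) = _
    rw [Pos.c5]
    congr 1
    simp only [Pos.gE, Pos.dD]
    field_simp
  have hF : HasDerivAt (gauge G) (d.fa t * Pos.c5' P.al P.be (P.al * d.psi t)
      (P.al * (d.a₁ t - P.gfun (d.psi t))) (2 * t * d.fa t)) t := by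
    rw [e]
    refine ((hE.const_sub (Pos.dM P.al P.be * P.be)).fun_div
      ((hy.add_const P.be).fun_pow 2) (pow_ne_zero 2 hα)).congr_deriv ?_
    simp only [Pos.c5', Pos.gE1, Pos.dU, hga]
    simp only [Pos.c5, Pos.gE, Pos.gL, Pos.dv, Pos.den, Pos.dD, Orbit.dψ, Orbit.G, Orbit.den,
      Ground.orb, P100.Ground.Par.gfun, P100.Ground.Par.dim, dimN]
    rw [add_comm P.be (P.al * d.psi t)]
    field_simp
    ring
  refine Orbit.mk.injEq .. |>.mpr ⟨?_, hga.symm, ?_, rfl, rfl, ?_⟩
  · rw [mul_div_cancel_left₀ _ hal.ne']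
  · show 4 * t * d.fa t ^ 2 / d.xi t = 2 * t * d.fa t * (2 * d.fa t / d.xi t)
    ring
  · rw [hF.deriv, mul_div_cancel_left₀ _ (d.fa_pos ht).ne']

theorem gauge_exponent (hbe : 1 ≤ P.be) :
    P.dim - 4 ≤ Pos.gm P.al P.be ∧ 2 - (P.dim - 2) * (1 - Pos.gm P.al P.be * P.q / 2) -
      P100.Ground.GroundState.lowB P * (1 + Pos.gm P.al P.be / 2) < 0 := by
  have hal := P.al_pos
  have hba := P.be_lt
  have hd : P.dim = P.al + P.be + 2 := rfl
  have hD : 0 < P.al + P.be := by linarith
  set r := ((P.al - P.be) / Pos.dD P.al P.be) ^ 2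
  have hr : r ≤ 1 := by
    refine pow_le_one₀ (div_nonneg (by linarith) ?_) ((div_le_one ?_).2 ?_) <;>
      simp only [Pos.dD] <;> linarith
  set w := 1 - 2 * P.be ^ 2 / Pos.dD P.al P.be ^ 2
  have hw0 : 0 ≤ w := by
    simp only [w, sub_nonneg, Pos.dD]
    rw [div_le_one (by positivity)]
    nlinarith [mul_lt_mul_of_pos_left hba P.be_pos]
  have hw1 : w ≤ 1 := sub_le_self _ (by positivity)
  have hrw : r * w ≤ 1 := mul_le_one₀ hr hw0 hw1
  have hm : Pos.gm P.al P.be = P.dim - 3 + -(r * w) := by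
    simp only [Pos.gm, Pos.gd, Pos.dN, r, w, hd]; ring
  have hm0 : 0 ≤ r * w := mul_nonneg (sq_nonneg _) hw0
  refine ⟨by linarith, ?_⟩
  have hNb : P.al < P.dim * P.be := by
    have := mul_le_mul_of_nonneg_left hbe (zero_lt_two.trans P.two_lt_dim).le
    linarith
  have hq : P.q * (P.dim - 2) = P.dim * P.be / P.al + 2 := by
    simp only [P100.Ground.Par.q, hd]; field_simp; ring
  have hrel := hq
  set m := Pos.gm P.al P.be
  rcases min_choice (P.dim - 2) (P.dim * P.be / P.al) with h | h <;>
    simp only [P100.Ground.GroundState.lowB, h]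
  · have hk : P.q * (P.dim - 2) - (P.dim - 2) < 4 := by
      have : P.dim * P.be / P.al < P.dim := by
        rw [div_lt_iff₀ hal]
        exact mul_lt_mul_of_pos_left hba (zero_lt_two.trans P.two_lt_dim)
      linarith
    have hmn : 0 ≤ m := by linarith
    have h1 : m * (P.q * (P.dim - 2) - (P.dim - 2)) / 2 < 2 * (P.dim - 3) := by
      rcases le_or_gt (P.q * (P.dim - 2) - (P.dim - 2)) 0 with hneg | hpos
      · have := mul_nonpos_of_nonneg_of_nonpos hmn hneg
        linarith
      · have u1 := mul_le_mul_of_nonneg_right (show m ≤ P.dim - 3 by linarith) hpos.le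
        have u2 := mul_lt_mul_of_pos_left hk (show 0 < P.dim - 3 by linarith)
        linarith
    linarith
  · have : 1 < P.dim * P.be / P.al := (one_lt_div hal).2 hNb
    have e : (P.dim - 2) * (1 - m * P.q / 2) = P.dim - 2 - m * (P.q * (P.dim - 2)) / 2 := by ring
    rw [e, hq]
    linarith

/-- The calibrated range, from the inequalities on the region and from the region containing the
ground state up to the level `α / β`. -/
theorem no_solution_of_region {n : ℕ} (hn : 5 ≤ n) (hnN : (n : ℝ) < P.dim) (hbe : 1 ≤ P.be)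
    (hkap : ∀ y z U, Pos.Region P.al P.be y z U →
      1 / 20 * (4 * Pos.gC P.al P.be y z U * Pos.gP P.al P.be y z U * Pos.aDe P.al P.be y z) ≤
        Pos.kap P.al P.be y z U)
    (hP : ∀ y z U, Pos.Region P.al P.be y z U → 0 < Pos.gP P.al P.be y z U)
    (hB : ∃ c > 0, ∀ y z U, Pos.Region P.al P.be y z U →
      c * ((P.al - y) + (Pos.dD P.al P.be - U)) ≤ Pos.gB P.al P.be y z U)
    (hreg : ∀ z ≥ G.zs, Pos.Region P.al P.be (P.al * G.O.psi z)
      (P.al * (G.O.crv z - P.gfun (G.O.psi z))) (G.O.aa z)) :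
    ¬ ∃ u v : EuclideanSpace ℝ (Fin n) → ℝ, Continuous u ∧ Continuous v ∧
      (∀ x, 0 < u x ∧ 0 < v x) ∧
      (∀ x ≠ 0, ContDiffAt ℝ 2 u x ∧ ContDiffAt ℝ 2 v x ∧
        -Δ u x = v x ^ ((P.al + 2) / P.be) ∧ -Δ v x = u x ^ ((P.be + 2) / P.al)) ∧
      ∀ x ≠ 0, Real.log (v x) / P.be - Real.log (u x) / P.al ≤
        Real.log (P.al / P.be) / (P.al + P.be + 2) := by
  have hn5 : (5 : ℝ) ≤ n := by exact_mod_cast hn
  obtain ⟨hm1, hm2⟩ := gauge_exponent (P := P) hbe
  set m := Pos.gm P.al P.be
  have hm : 0 ≤ m := by linarith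
  set d := toGround G
  obtain ⟨a₀, ha₀, M, hgood⟩ := exists_good hkap hP hB
  have hF := gauge_contDiffOn G
  have hgd : ∀ t ≥ G.zs, ((d.orb (gauge G) t).val P.al P.be m).Good (dimN P.al P.be) P.al P.be m
      (d.psi t) (d.orb (gauge G) t).X a₀ M := by
    intro t ht
    have ht' : G.zl < t := G.zl_lt.trans_le ht
    have hmem := G.mem ht'
    have he := orb_eq_state G ht'
    have hy : P.al * G.O.psi t < P.al :=
      mul_lt_of_lt_one_right P.al_pos (G.psi_lt_one hmem)
    have hR : 0 ≤ (d.orb (gauge G) t).R :=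
      div_nonneg (mul_nonneg zero_le_two (d.fa_pos ht').le) (Real.exp_pos _).le
    have hp1 : 0 ≤ ((d.orb (gauge G) t).val P.al P.be m).P₁ := by
      rw [d.P₁_eq m _ ht']; exact (T₁_pos _ _).le
    have hp2 : 0 ≤ ((d.orb (gauge G) t).val P.al P.be m).P₂ := by
      rw [d.P₂_eq m _ ht']; exact (T₂_pos _ _).le
    set R := (d.orb (gauge G) t).R
    rw [he] at hp1 hp2
    have h := hgood _ _ _ R (hreg t ht) hy hR hp1 hp2
    rw [mul_div_cancel_left₀ _ P.al_pos.ne', ← he, ← psi_eq G ht'] at h
    have hX : (d.orb (gauge G) t).X = G.O.aa t * R := congrArg Orbit.X he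
    rw [hX]
    exact h
  set CE := Pos.dM P.al P.be * P.be * P.al / Pos.dD P.al P.be *
    (1 + 2 * P.be / P.al + Pos.l1 P.al P.be)
  obtain ⟨C, hC⟩ := exists_bounds G hm hm2 hF.continuousOn G.zl_lt (CE := CE) (by
    filter_upwards [eventually_gt_atTop 0] with t ht
    have ht' : G.zl < t := (G.zl_lt.trans G.zs_lt).trans ht
    have hmem := G.mem ht'
    have hψ1 : d.psi t ≤ 1 := by rw [psi_eq G ht']; exact (G.psi_lt_one hmem).le
    have hψ0 : 0 < d.psi t := div_pos (d.fb_pos ht') (d.fa_pos ht')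
    have hA0 : 0 ≤ 2 * t * d.fa t := mul_nonneg (by linarith) (d.fa_pos ht').le
    have hA1 : 2 * t * d.fa t ≤ P.al + P.be := by
      have := G.tA_le (Real.log t)
      simp only [P100.Ground.GroundState.tA, Real.exp_log ht, ← fa_eq G ht',
        P100.Ground.Par.dim] at this
      linarith
    have hD : 0 < P.al + P.be := add_pos P.al_pos P.be_pos
    have hden : P.al * d.psi t + P.be ≠ 0 := by
      have := mul_pos P.al_pos hψ0; have := P.be_pos; linarith
    have e : (P.dim - 1) * P.be - gauge G t * (P.be + P.al * d.psi t) ^ 2 =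
        Pos.dM P.al P.be * P.be * P.al / Pos.dD P.al P.be *
          ((1 - d.psi t) * Pos.gL P.al P.be (2 * t * d.fa t)) := by
      have h4 : Pos.dD P.al P.be ≠ 0 := hD.ne'
      simp only [gauge, Pos.c5, Pos.den, Pos.dv, Pos.dM, P100.Ground.Par.dim, d] at hden ⊢
      rw [add_comm P.be]
      field_simp
      ring
    have hl : 0 ≤ Pos.l1 P.al P.be := by
      simp only [Pos.l1, Pos.dD]
      exact div_nonneg (by linarith [P.be_lt]) hD.le
    have hL0 : 0 ≤ 1 + 2 * P.be / P.al := by
      have := P.al_pos; have := P.be_pos; positivity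
    have u : (2 * t * d.fa t) / Pos.dD P.al P.be ∈ Icc 0 1 :=
      ⟨div_nonneg hA0 hD.le, (div_le_one hD).2 hA1⟩
    have hK : 0 ≤ Pos.dM P.al P.be * P.be * P.al / Pos.dD P.al P.be := by
      have := P.al_pos; have := P.be_pos
      simp only [Pos.dM, Pos.dD]; positivity
    have hL1 : 0 ≤ Pos.gL P.al P.be (2 * t * d.fa t) :=
      add_nonneg hL0 (mul_nonneg hl (sub_nonneg.2 u.2))
    have hL2 : Pos.gL P.al P.be (2 * t * d.fa t) ≤ 1 + 2 * P.be / P.al + Pos.l1 P.al P.be :=
      add_le_add le_rfl (mul_le_of_le_one_right hl (sub_le_self _ u.1))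
    rw [e, abs_of_nonneg (mul_nonneg hK (mul_nonneg (sub_nonneg.2 hψ1) hL1))]
    calc _ ≤ Pos.dM P.al P.be * P.be * P.al / Pos.dD P.al P.be *
          ((1 - d.psi t) * (1 + 2 * P.be / P.al + Pos.l1 P.al P.be)) :=
          mul_le_mul_of_nonneg_left (mul_le_mul_of_nonneg_left hL2 (sub_nonneg.2 hψ1)) hK
      _ = CE * (1 - d.psi t) := by simp only [CE]; ring
      _ ≤ _ := mul_le_mul_of_nonneg_left (le_add_of_nonneg_right (abs_nonneg _))
          (mul_nonneg hK (add_nonneg hL0 hl)))
  rintro ⟨u, v, hu, hv, hpos, heq, hle⟩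
  refine (Ground.no_solution d hn (by rw [dimN_eq]; exact hnN) hm (by linarith)
    hF G.zl_lt (tendsto_sOf G) ha₀ hgd (fun t ht => (hC t ht).1) fun t ht => (hC t ht).2)
    ⟨u, v, hu, hv, hpos, heq, fun x hx => ?_⟩
  rw [sOf_zs]
  exact hle x hx

end Vale.Agent.P100.Cal
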