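import Vale.Agent.P100.Cal.Param
import Vale.Agent.P100.Ground.Smooth

/-!
P100, calibrated identity: the critical ground state of `Vale.Agent.P100.Ground` as the input of the
calibration, and the behaviour of its scale invariant variable.
-/

open Filter Topology Set

namespace Vale.Agent.P100.Cal

open Orbit (dimN)

variable {P : P100.Ground.Par}

theorem dimN_eq (P : P100.Ground.Par) : dimN P.al P.be = P.dim := by
  simp only [dimN, P100.Ground.Par.dim]

/-- The ground state as data of the calibration. -/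
noncomputable def toGround (G : P100.Ground.GroundState P) : Ground P.al P.be where
  t₁ := G.zl
  U := G.O.U
  V := G.O.V
  hα := P.al_pos
  hβ := P.be_pos
  ht₁ := G.zl_lt.trans G.zs_lt
  smU := by
    rw [← G.dom_eq]
    exact_mod_cast (G.O.contDiffOn_UV 3).1
  smV := by
    rw [← G.dom_eq]
    exact_mod_cast (G.O.contDiffOn_UV 3).2
  posU t ht := by
    have hd : t ∈ G.O.dom := by rw [G.dom_eq]; exact ht
    exact ⟨G.O.posU t hd, by rw [(G.O.hU t hd).deriv]; exact G.O.negU t hd⟩
  posV t ht := by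
    have hd : t ∈ G.O.dom := by rw [G.dom_eq]; exact ht
    exact ⟨G.O.posV t hd, by rw [(G.O.hV t hd).deriv]; exact G.O.negV t hd⟩
  eqU t ht := by
    have hd : t ∈ G.O.dom := by rw [G.dom_eq]; exact ht
    have e : deriv G.O.U =ᶠ[𝓝 t] G.O.U1 :=
      eventually_of_mem (G.O.isOpen.mem_nhds hd) fun u hu => (G.O.hU u hu).deriv
    rw [e.deriv_eq, (G.O.hU1 t hd).deriv, (G.O.hU t hd).deriv, dimN_eq]
    exact G.O.odeU t hd
  eqV t ht := by
    have hd : t ∈ G.O.dom := by rw [G.dom_eq]; exact ht
    have e : deriv G.O.V =ᶠ[𝓝 t] G.O.V1 :=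
      eventually_of_mem (G.O.isOpen.mem_nhds hd) fun u hu => (G.O.hV u hu).deriv
    rw [e.deriv_eq, (G.O.hV1 t hd).deriv, (G.O.hV t hd).deriv, dimN_eq]
    exact G.O.odeV t hd
  poh t ht := by
    have hd : t ∈ G.O.dom := by rw [G.dom_eq]; exact ht
    have h := P100.Ground.Orb.poh_eq_zero (O := G.O) hd
    have hu := (G.O.posU t hd).ne'
    have hv := (G.O.posV t hd).ne'
    simp only [P100.Ground.Orb.poh, Real.rpow_add_one hu, Real.rpow_add_one hv] at h
    rw [(G.O.hU t hd).deriv, (G.O.hV t hd).deriv, dimN_eq]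
    exact h
  gap t ht := by
    have hd : t ∈ G.O.dom := by rw [G.dom_eq]; exact ht
    have h := G.del_pos t ht
    simp only [P100.Ground.Orb.del, P100.Ground.Orb.a, P100.Ground.Orb.b] at h
    rw [(G.O.hU t hd).deriv, (G.O.hV t hd).deriv]
    linarith [show P.be * (-G.O.U1 t / G.O.U t) = -(P.be * (G.O.U1 t / G.O.U t)) by ring,
      show P.al * (-G.O.V1 t / G.O.V t) = -(P.al * (G.O.V1 t / G.O.V t)) by ring]

variable (G : P100.Ground.GroundState P)

theorem theta_eq_exp {z : ℝ} (hz : G.zl < z) :
    G.O.theta z = Real.exp (P.dim * (toGround G).sOf z) := by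
  have hd : z ∈ G.O.dom := by rw [G.dom_eq]; exact hz
  have hu := G.O.posU z hd
  have hv := G.O.posV z hd
  rw [G.O.theta_eq hd, P.p_add_one, P.q_add_one, Real.rpow_def_of_pos hu,
    Real.rpow_def_of_pos hv, ← Real.exp_sub]
  congr 1
  simp only [toGround, Ground.sOf]
  have := P.al_pos.ne'
  have := P.be_pos.ne'
  field_simp
  ring

/-- At `zs` the scale invariant variable takes the value `log (α / β) / N`. -/
theorem sOf_zs : (toGround G).sOf G.zs = Real.log (P.al / P.be) / P.dim := by
  have h := theta_eq_exp G G.zl_lt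
  rw [G.theta_zs] at h
  rw [h, Real.log_exp, mul_div_assoc, mul_comm, div_mul_cancel₀]
  exact (zero_lt_two.trans P.two_lt_dim).ne'

/-- The scale invariant variable tends to `-∞`. -/
theorem tendsto_sOf : Tendsto (toGround G).sOf atTop atBot := by
  have hN : 0 < P.dim := zero_lt_two.trans P.two_lt_dim
  have h1 : Tendsto (fun z => Real.log (G.O.theta z)) atTop atBot := by
    refine Real.tendsto_log_nhdsGT_zero.comp (tendsto_nhdsWithin_iff.2 ⟨G.theta_lim, ?_⟩)
    filter_upwards [eventually_gt_atTop G.zl] with z hz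
    exact P100.Ground.Orb.theta_pos (O := G.O) (by rw [G.dom_eq]; exact hz)
  refine (h1.atBot_div_const hN).congr' ?_
  filter_upwards [eventually_gt_atTop G.zl] with z hz
  rw [theta_eq_exp G hz, Real.log_exp]
  field_simp

end Vale.Agent.P100.Cal
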