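import Vale.Agent.P100.Sys.Jet

/-!
P100, calibrated identity: the quartic of the identity whose coefficients are functions of the
scale invariant variable `s = f/α - g/β`, where `f = -log u`, `g = -log v`,
`p = (α+2)/β`, `q = (β+2)/α`. The variable `ξ` stands for `u ^ (2/α)`.
-/

namespace Vale.Agent.P100.Cal

open Vale.Agent.P100.Sys (ip fr qf)

variable {n : ℕ}

/-- The coefficient functions: the weight `E` and the four coefficients of the field. -/
structure Coef where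
  E : ℝ → ℝ
  c₁ : ℝ → ℝ
  c₂ : ℝ → ℝ
  l₁ : ℝ → ℝ
  l₂ : ℝ → ℝ

/-- `v^p / u` at unit scale. -/
noncomputable def T₁ (α s : ℝ) : ℝ := Real.exp ((α + 2) * s)

/-- `u^q / v` at unit scale. -/
noncomputable def T₂ (β s : ℝ) : ℝ := Real.exp (-β * s)

/-- The bilinear form of a matrix on two vectors, `b · H a`. -/
def bil (H : Fin n → Fin n → ℝ) (a b : Fin n → ℝ) : ℝ := ∑ i, ∑ j, H i j * a j * b i

/-- The derivative of `log E`. -/
noncomputable def Coef.eps (K : Coef) (s : ℝ) : ℝ := deriv K.E s / K.E s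

/-- The pointwise quartic of the calibrated identity. -/
noncomputable def jetX (α β m : ℝ) (K : Coef) (s ξ : ℝ) (H : Fin n → Fin n → ℝ)
    (a b : Fin n → ℝ) : ℝ :=
  fr H + (2 - m / α + K.eps s / α) * qf H a - K.eps s / β * bil H a b +
    ξ * T₁ α s * (ip a a - (α + 2) / β * ip a b) +
    K.c₁ s * (2 * qf H a + ip a a * (ip a a + ξ * T₁ α s)) +
    K.c₂ s * (2 * bil H a b + ip a a * (ip b b + ξ * T₂ β s)) +
    ip a a * (deriv K.c₁ s * (ip a a / α - ip a b / β) +
      deriv K.c₂ s * (ip a b / α - ip b b / β)) +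
    ξ * (deriv K.l₁ s * (ip a a / α - ip a b / β) +
      deriv K.l₂ s * (ip a b / α - ip b b / β)) +
    ξ * K.l₁ s * (ip a a + ξ * T₁ α s - 2 * ip a a / α) +
    ξ * K.l₂ s * (ip b b + ξ * T₂ β s - 2 * ip a b / α) +
    (-(m / α) * ip a a + K.eps s * (ip a a / α - ip a b / β)) *
      (K.c₁ s * ip a a + ξ * K.l₁ s) +
    (-(m / α) * ip a b + K.eps s * (ip a b / α - ip b b / β)) *
      (K.c₂ s * ip a a + ξ * K.l₂ s)

/-- The vector paired with the gradient of the cutoff. -/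
def flux (K : Coef) (s ξ : ℝ) (H : Fin n → Fin n → ℝ) (a b : Fin n → ℝ) (i : Fin n) : ℝ :=
  (∑ j, H i j * a j) + (K.c₁ s * ip a a + ξ * K.l₁ s) * a i +
    (K.c₂ s * ip a a + ξ * K.l₂ s) * b i

/-- The quantity that a calibration must dominate, at unit scale. -/
noncomputable def bulk (α β s : ℝ) (H : Fin n → Fin n → ℝ) (a b : Fin n → ℝ) : ℝ :=
  fr H + ip a a ^ 2 + (T₁ α s + T₂ β s) ^ 2 + (ip a a + T₁ α s + T₂ β s) * ip b b

/-- Pointwise coercivity of the calibrated quartic up to the level `S`. -/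
def Coercive (n : ℕ) (α β m S : ℝ) (K : Coef) : Prop :=
  ∃ γ > 0, ∀ s ≤ S, ∀ (H : Fin n → Fin n → ℝ) (a b : Fin n → ℝ),
    (∀ i j, H i j = H j i) → ∑ i, H i i = ip a a + T₁ α s →
      γ * bulk α β s H a b ≤ jetX α β m K s 1 H a b

/-- The quartic plus its cutoff term, up to a fourth power of the cutoff gradient, stays above
`V`. -/
def Absorbs (n : ℕ) (α β m S : ℝ) (K : Coef) (V ω : ℝ → ℝ) : Prop :=
  ∀ s ≤ S, ∀ (H : Fin n → Fin n → ℝ) (a b d : Fin n → ℝ),
    (∀ i j, H i j = H j i) → ∑ i, H i i = ip a a + T₁ α s →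
      V s ≤ jetX α β m K s 1 H a b + ∑ i, d i * flux K s 1 H a b i + ω s * ip d d ^ 2

end Vale.Agent.P100.Cal
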