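import Vale.Agent.P100.Sys.Bochner
import Vale.Agent.P100.Sys.Log
import Vale.Agent.P100.Cal.Jet

/-!
P100, calibrated identity: the Bochner identity for `f` tested with `η w`, plus the divergence of
`η w (A Df + B Dg)`, for arbitrary scalar fields `w`, `A`, `B`; then the calibrated choice
`w = u^(m/α) E(s)`, `A = c₁(s) |Df|² + u^(2/α) l₁(s)`, `B = c₂(s) |Df|² + u^(2/α) l₂(s)`.
-/

open MeasureTheory Filter Topology Set Metric

namespace Vale.Agent.P100.Cal

open Vale.Agent.P100.Sys (pd lap contDiffOn_pd contDiff_of_tsupport_subset pd_eq_zero_of_notMem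
  integrable_of_support continuousOn_pd integral_pd_mul pd_symm bochner pd_congr pd_add pd_sub pd_mul
  pd_const_mul pd_exp pd_sum ip fr qf)

variable {n : ℕ} {f g η : EuclideanSpace ℝ (Fin n) → ℝ} {Ω : Set (EuclideanSpace ℝ (Fin n))}

theorem alg_gen (H : Fin n → Fin n → ℝ) (hH : ∀ i j, H i j = H j i)
    (a b dη om dA dB kk : Fin n → ℝ) (p w η P₁ P₂ A B : ℝ) (htr : ∑ i, H i i = ip a a + P₁)
    (hK : ∑ i, kk i = ip b b + P₂) :
    ∑ j, ((∑ i, (H j i * (w * (dη i + η * om i)) * a j + H j i * (η * w) * H j i)) +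
        (2 * (∑ i, a i * H j i) + P₁ * (a j - p * b j)) * (η * w) * a j) +
      ∑ i, (w * (A * a i + B * b i) * dη i +
        (w * om i * (A * a i + B * b i) +
          w * (dA i * a i + A * H i i + (dB i * b i + B * kk i))) * η) =
      w * (η * (fr H + (∑ i, om i * ∑ j, H i j * a j) + 2 * qf H a +
          P₁ * (ip a a - p * ip a b) + (∑ i, om i * (A * a i + B * b i)) + ip dA a +
          A * (ip a a + P₁) + ip dB b + B * (ip b b + P₂)) +
        ∑ i, dη i * ((∑ j, H i j * a j) + A * a i + B * b i)) := by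
  have hq : qf H a = ∑ j, (∑ i, a i * H j i) * a j := by
    simp only [qf, Finset.sum_mul]
    exact Finset.sum_congr rfl fun i _ => Finset.sum_congr rfl fun j _ => by ring
  have h1 : ∑ j, ∑ i, H j i * (w * (dη i + η * om i)) * a j =
      w * (∑ i, dη i * ∑ j, H i j * a j) + w * η * (∑ i, om i * ∑ j, H i j * a j) := by
    simp only [Finset.mul_sum, ← Finset.sum_add_distrib]
    rw [Finset.sum_comm]
    exact Finset.sum_congr rfl fun i _ => Finset.sum_congr rfl fun j _ => by rw [hH j i]; ring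
  have h2 : ∑ j, ∑ i, H j i * (η * w) * H j i = η * w * fr H := by
    simp only [fr, Finset.mul_sum]
    exact Finset.sum_congr rfl fun i _ => Finset.sum_congr rfl fun j _ => by ring
  have h3 : ∑ j, (2 * (∑ i, a i * H j i) + P₁ * (a j - p * b j)) * (η * w) * a j =
      η * w * (2 * qf H a + P₁ * (ip a a - p * ip a b)) := by
    rw [hq]
    simp only [ip, Finset.mul_sum (a := η * w), mul_add, Finset.mul_sum (a := P₁),
      Finset.mul_sum (a := p), Finset.mul_sum (a := (2 : ℝ)), ← Finset.sum_add_distrib,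
      ← Finset.sum_sub_distrib]
    exact Finset.sum_congr rfl fun j _ => by simp only [← Finset.mul_sum]; ring
  have h4 : ∑ i, (w * (A * a i + B * b i) * dη i + (w * om i * (A * a i + B * b i) +
        w * (dA i * a i + A * H i i + (dB i * b i + B * kk i))) * η) =
      w * (∑ i, dη i * (A * a i + B * b i)) + w * η * ((∑ i, om i * (A * a i + B * b i)) +
        ip dA a + A * (∑ i, H i i) + ip dB b + B * ∑ i, kk i) := by
    simp only [ip, mul_add, Finset.mul_sum, ← Finset.sum_add_distrib]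
    exact Finset.sum_congr rfl fun i _ => by ring
  have h5 : ∑ i, dη i * ((∑ j, H i j * a j) + A * a i + B * b i) =
      (∑ i, dη i * ∑ j, H i j * a j) + ∑ i, dη i * (A * a i + B * b i) := by
    rw [← Finset.sum_add_distrib]
    exact Finset.sum_congr rfl fun i _ => by ring
  rw [h4, htr, hK, h5]
  simp only [Finset.sum_add_distrib, h1, h2, h3]
  ring

/-- The identity for arbitrary fields. -/
theorem identity_gen (hΩ : IsOpen Ω) {p q : ℝ} {w A B : EuclideanSpace ℝ (Fin n) → ℝ}
    {om : Fin n → EuclideanSpace ℝ (Fin n) → ℝ} (hwc : ContDiffOn ℝ 2 w Ω)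
    (hAc : ContDiffOn ℝ 1 A Ω) (hBc : ContDiffOn ℝ 1 B Ω)
    (hom : ∀ x ∈ Ω, ∀ i, pd i w x = w x * om i x)
    (hf : ContDiffOn ℝ 2 f Ω) (hg : ContDiffOn ℝ 2 g Ω)
    (hlf : ∀ x ∈ Ω, lap f x = (∑ i, pd i f x ^ 2) + Real.exp (f x - p * g x))
    (hlg : ∀ x ∈ Ω, lap g x = (∑ i, pd i g x ^ 2) + Real.exp (g x - q * f x))
    (hη : ContDiff ℝ 2 η) (hc : HasCompactSupport η) (hs : tsupport η ⊆ Ω) :
    ∃ J : EuclideanSpace ℝ (Fin n) → ℝ, Integrable J ∧ ∫ x, J x = 0 ∧
      (∀ x ∉ tsupport η, J x = 0) ∧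
      ∀ x ∈ Ω, J x = w x * (η x *
          (fr (fun i j => pd i (pd j f) x) +
            (∑ i, om i x * ∑ j, pd i (pd j f) x * pd j f x) +
            2 * qf (fun i j => pd i (pd j f) x) (fun i => pd i f x) +
            Real.exp (f x - p * g x) * (ip (fun i => pd i f x) (fun i => pd i f x) -
              p * ip (fun i => pd i f x) (fun i => pd i g x)) +
            (∑ i, om i x * (A x * pd i f x + B x * pd i g x)) +
            ip (fun i => pd i A x) (fun i => pd i f x) +
            A x * (ip (fun i => pd i f x) (fun i => pd i f x) + Real.exp (f x - p * g x)) +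
            ip (fun i => pd i B x) (fun i => pd i g x) +
            B x * (ip (fun i => pd i g x) (fun i => pd i g x) + Real.exp (g x - q * f x))) +
          ∑ i, pd i η x * ((∑ j, pd i (pd j f) x * pd j f x) + A x * pd i f x + B x * pd i g x)) := by
  have hf1 : ∀ i, ContDiffOn ℝ 1 (pd i f) Ω := contDiffOn_pd hΩ hf (by norm_num)
  have hg1 : ∀ i, ContDiffOn ℝ 1 (pd i g) Ω := contDiffOn_pd hΩ hg (by norm_num)
  have hf' : ContDiffOn ℝ 1 f Ω := hf.of_le (by norm_num)
  have hg' : ContDiffOn ℝ 1 g Ω := hg.of_le (by norm_num)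
  set P₁ : EuclideanSpace ℝ (Fin n) → ℝ := fun x => Real.exp (f x - p * g x) with hP₁
  set X : EuclideanSpace ℝ (Fin n) → ℝ := fun x => ∑ j, pd j f x * pd j f x with hX
  have hP₁c : ContDiffOn ℝ 1 P₁ Ω := (hf'.sub (contDiffOn_const.mul hg')).exp
  have hXc : ContDiffOn ℝ 1 X Ω := ContDiffOn.sum fun j _ => (hf1 j).mul (hf1 j)
  have hlapc : ContDiffOn ℝ 1 (lap f) Ω :=
    (hXc.add hP₁c).congr fun x hx => by simp [hlf x hx, hX, hP₁, pow_two]
  -- the vector field
  set V : Fin n → EuclideanSpace ℝ (Fin n) → ℝ :=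
    fun i x => w x * (A x * pd i f x + B x * pd i g x) with hV
  have hVc : ∀ i, ContDiffOn ℝ 1 (V i) Ω := fun i =>
    (hwc.of_le (by norm_num)).mul ((hAc.mul (hf1 i)).add (hBc.mul (hg1 i)))
  set ψ : EuclideanSpace ℝ (Fin n) → ℝ := fun x => η x * w x with hψ
  have hψs : tsupport ψ ⊆ tsupport η := tsupport_mul_subset_left
  have hψc : HasCompactSupport ψ := hc.of_isClosed_subset (isClosed_tsupport _) hψs
  have hψd : ContDiff ℝ 2 ψ :=
    contDiff_of_tsupport_subset hΩ (hη.contDiffOn.mul hwc) (hψs.trans hs)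
  -- the integrands
  set T : Fin n → EuclideanSpace ℝ (Fin n) → ℝ := fun j x =>
    (∑ i, (pd j (pd i f) x * pd i ψ x * pd j f x + pd j (pd i f) x * ψ x * pd j (pd i f) x)) +
      pd j (lap f) x * ψ x * pd j f x with hT
  set U : Fin n → EuclideanSpace ℝ (Fin n) → ℝ :=
    fun i x => V i x * pd i η x + pd i (V i) x * η x with hU
  have hcd : ∀ i j, ContinuousOn (pd i (pd j f)) Ω := fun i j => continuousOn_pd hΩ (hf1 j) le_rfl i
  have hcf : ∀ i, ContinuousOn (pd i f) Ω := fun i => (hf1 i).continuousOn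
  have hcη : ∀ i, ContinuousOn (pd i η) Ω := fun i =>
    continuousOn_pd hΩ hη.contDiffOn (by norm_num) i
  have hcψ : ∀ i, ContinuousOn (pd i ψ) Ω := fun i =>
    continuousOn_pd hΩ hψd.contDiffOn (by norm_num) i
  have z1 : ∀ x ∉ tsupport η, ∀ i, pd i η x = 0 := fun x hx i => pd_eq_zero_of_notMem i hx
  have z2 : ∀ x ∉ tsupport η, ∀ i, pd i ψ x = 0 := fun x hx i =>
    pd_eq_zero_of_notMem i fun h => hx (hψs h)
  have z3 : ∀ x ∉ tsupport η, η x = 0 := fun x hx => image_eq_zero_of_notMem_tsupport hx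
  have z4 : ∀ x ∉ tsupport η, ψ x = 0 := fun x hx => by simp [hψ, z3 x hx]
  have i1 : ∀ j i, Integrable fun x => pd j (pd i f) x * pd i ψ x * pd j f x := fun j i =>
    integrable_of_support hΩ hc hs (((hcd j i).mul (hcψ i)).mul (hcf j))
      fun x hx => by simp [z2 x hx]
  have i2 : ∀ j i, Integrable fun x => pd j (pd i f) x * ψ x * pd j (pd i f) x := fun j i =>
    integrable_of_support hΩ hc hs (((hcd j i).mul hψd.continuous.continuousOn).mul (hcd j i))
      fun x hx => by simp [z4 x hx]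
  have i3 : ∀ j, Integrable fun x => pd j (lap f) x * ψ x * pd j f x := fun j =>
    integrable_of_support hΩ hc hs (((continuousOn_pd hΩ hlapc le_rfl j).mul
      hψd.continuous.continuousOn).mul (hcf j)) fun x hx => by simp [z4 x hx]
  have i4 : ∀ i, Integrable fun x => V i x * pd i η x := fun i =>
    integrable_of_support hΩ hc hs ((hVc i).continuousOn.mul (hcη i))
      fun x hx => by simp [z1 x hx]
  have i5 : ∀ i, Integrable fun x => pd i (V i) x * η x := fun i =>
    integrable_of_support hΩ hc hs ((continuousOn_pd hΩ (hVc i) le_rfl i).mul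
      hη.continuous.continuousOn) fun x hx => by simp [z3 x hx]
  have iT : ∀ j, Integrable (T j) := fun j =>
    (integrable_finsetSum _ fun i _ => (i1 j i).add (i2 j i)).add (i3 j)
  have iU : ∀ i, Integrable (U i) := fun i => (i4 i).add (i5 i)
  have eT : ∀ j, ∫ x, T j x = 0 := fun j => by
    rw [hT, integral_add (integrable_finsetSum _ fun i _ => by
        exact (i1 j i).add (i2 j i)) (i3 j),
      integral_finsetSum _ fun i _ => by exact (i1 j i).add (i2 j i)]
    simp only [fun i => integral_add (i1 j i) (i2 j i)]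
    exact bochner hΩ hf hlapc hψd hψc (hψs.trans hs) j
  have eU : ∀ i, ∫ x, U i x = 0 := fun i => by
    rw [hU, integral_add (i4 i) (i5 i),
      integral_pd_mul hΩ (hVc i) (hη.of_le (by norm_num)) hc hs i]
    ring
  refine ⟨fun x => (∑ j, T j x) + ∑ i, U i x,
    (integrable_finsetSum _ fun j _ => iT j).add (integrable_finsetSum _ fun i _ => iU i), ?_,
    fun x hx => ?_, fun x hx => ?_⟩
  · rw [integral_add (integrable_finsetSum _ fun j _ => iT j)
      (integrable_finsetSum _ fun i _ => iU i), integral_finsetSum _ fun j _ => iT j,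
      integral_finsetSum _ fun i _ => iU i]
    simp [eT, eU]
  · simp [hT, hU, z1 x hx, z2 x hx, z3 x hx, z4 x hx]
  have hxn := hΩ.mem_nhds hx
  have df : DifferentiableAt ℝ f x := (hf.contDiffAt hxn).differentiableAt (by norm_num)
  have dg : DifferentiableAt ℝ g x := (hg.contDiffAt hxn).differentiableAt (by norm_num)
  have dfi : ∀ i, DifferentiableAt ℝ (pd i f) x := fun i =>
    ((hf1 i).contDiffAt hxn).differentiableAt (by norm_num)
  have dgi : ∀ i, DifferentiableAt ℝ (pd i g) x := fun i =>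
    ((hg1 i).contDiffAt hxn).differentiableAt (by norm_num)
  have dP₁ : DifferentiableAt ℝ P₁ x := (hP₁c.contDiffAt hxn).differentiableAt (by norm_num)
  have dX : DifferentiableAt ℝ X x := (hXc.contDiffAt hxn).differentiableAt (by norm_num)
  have dA : DifferentiableAt ℝ A x := (hAc.contDiffAt hxn).differentiableAt (by norm_num)
  have dB : DifferentiableAt ℝ B x := (hBc.contDiffAt hxn).differentiableAt (by norm_num)
  have dw : DifferentiableAt ℝ w x := (hwc.contDiffAt hxn).differentiableAt (by norm_num)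
  have pP₁ : ∀ i, pd i P₁ x = P₁ x * (pd i f x - p * pd i g x) := fun i => by
    rw [hP₁, pd_exp (df.fun_sub (dg.const_mul p)), pd_sub df (dg.const_mul p), pd_const_mul dg]
  have pX : ∀ i, pd i X x = 2 * ∑ j, pd j f x * pd i (pd j f) x := fun i => by
    rw [hX, pd_sum _ fun j _ => (dfi j).fun_mul (dfi j), Finset.mul_sum]
    exact Finset.sum_congr rfl fun j _ => by rw [pd_mul (dfi j) (dfi j)]; ring
  have plap : ∀ j, pd j (lap f) x =
      2 * (∑ i, pd i f x * pd j (pd i f) x) + P₁ x * (pd j f x - p * pd j g x) := fun j => by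
    rw [pd_congr (G := fun y => X y + P₁ y) (Filter.eventually_of_mem hxn fun y hy => by
      simp [hlf y hy, hX, hP₁, pow_two]), pd_add dX dP₁, pX, pP₁]
  have pψ : ∀ i, pd i ψ x = w x * (pd i η x + η x * om i x) := fun i => by
    rw [hψ, pd_mul (hη.differentiable (by norm_num) x) dw, hom x hx]; ring
  have pV : ∀ i, pd i (V i) x = w x * om i x * (A x * pd i f x + B x * pd i g x) +
      w x * (pd i A x * pd i f x + A x * pd i (pd i f) x +
        (pd i B x * pd i g x + B x * pd i (pd i g) x)) := fun i => by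
    rw [hV, pd_mul dw ((dA.fun_mul (dfi i)).fun_add (dB.fun_mul (dgi i))),
      pd_add (dA.fun_mul (dfi i)) (dB.fun_mul (dgi i)), pd_mul dA (dfi i), pd_mul dB (dgi i),
      hom x hx]
    ring
  have hsym : ∀ i j, pd i (pd j f) x = pd j (pd i f) x := pd_symm hΩ hf hx
  have htr : ∑ i, pd i (pd i f) x = ip (fun i => pd i f x) (fun i => pd i f x) + P₁ x := by
    rw [← lap, hlf x hx]; simp [ip, hP₁, pow_two]
  have htr' : ∑ i, pd i (pd i g) x =
      ip (fun i => pd i g x) (fun i => pd i g x) + Real.exp (g x - q * f x) := by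
    rw [← lap, hlg x hx]; simp [ip, pow_two]
  have eA := alg_gen (fun i j => pd i (pd j f) x) hsym (fun i => pd i f x) (fun i => pd i g x)
    (fun i => pd i η x) (fun i => om i x) (fun i => pd i A x) (fun i => pd i B x)
    (fun i => pd i (pd i g) x) p (w x) (η x) (P₁ x) (Real.exp (g x - q * f x)) (A x) (B x) htr htr'
  simp only [hT, hU, plap, pV, pψ]
  simp only [hψ, hV, hP₁, ip] at eA ⊢
  exact eA

/-- The scale invariant variable. -/
noncomputable def sv (α β : ℝ) (f g : EuclideanSpace ℝ (Fin n) → ℝ)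
    (x : EuclideanSpace ℝ (Fin n)) : ℝ := f x / α - g x / β

/-- The weight. -/
noncomputable def wgt (α β m : ℝ) (K : Coef) (f g : EuclideanSpace ℝ (Fin n) → ℝ)
    (x : EuclideanSpace ℝ (Fin n)) : ℝ := Real.exp (-(m / α) * f x) * K.E (sv α β f g x)

/-- The calibrated identity. -/
theorem identity (hΩ : IsOpen Ω) {α β m : ℝ} (hα : α ≠ 0) (hβ : β ≠ 0) {K : Coef} {I : Set ℝ}
    (hI : IsOpen I) (hE : ContDiffOn ℝ 2 K.E I) (hE0 : ∀ t ∈ I, 0 < K.E t)
    (h₁ : ContDiffOn ℝ 1 K.c₁ I) (h₂ : ContDiffOn ℝ 1 K.c₂ I) (h₃ : ContDiffOn ℝ 1 K.l₁ I)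
    (h₄ : ContDiffOn ℝ 1 K.l₂ I)
    (hf : ContDiffOn ℝ 2 f Ω) (hg : ContDiffOn ℝ 2 g Ω) (hsI : ∀ x ∈ Ω, sv α β f g x ∈ I)
    (hlf : ∀ x ∈ Ω, lap f x = (∑ i, pd i f x ^ 2) + Real.exp (f x - (α + 2) / β * g x))
    (hlg : ∀ x ∈ Ω, lap g x = (∑ i, pd i g x ^ 2) + Real.exp (g x - (β + 2) / α * f x))
    (hη : ContDiff ℝ 2 η) (hc : HasCompactSupport η) (hs : tsupport η ⊆ Ω) :
    ∃ J : EuclideanSpace ℝ (Fin n) → ℝ, Integrable J ∧ ∫ x, J x = 0 ∧
      (∀ x ∉ tsupport η, J x = 0) ∧
      ∀ x ∈ Ω, J x = wgt α β m K f g x *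
        (η x * jetX α β m K (sv α β f g x) (Real.exp (-(2 / α) * f x))
            (fun i j => pd i (pd j f) x) (fun i => pd i f x) (fun i => pd i g x) +
          ∑ i, pd i η x * flux K (sv α β f g x) (Real.exp (-(2 / α) * f x))
            (fun i j => pd i (pd j f) x) (fun i => pd i f x) (fun i => pd i g x) i) := by
  have hsv : ContDiffOn ℝ 2 (sv α β f g) Ω := (hf.div_const α).sub (hg.div_const β)
  have hsv1 : ContDiffOn ℝ 1 (sv α β f g) Ω := hsv.of_le (by norm_num)
  set X : EuclideanSpace ℝ (Fin n) → ℝ := fun x => ∑ j, pd j f x * pd j f x with hX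
  set z : EuclideanSpace ℝ (Fin n) → ℝ := fun x => Real.exp (-(2 / α) * f x) with hz
  set A : EuclideanSpace ℝ (Fin n) → ℝ :=
    fun x => K.c₁ (sv α β f g x) * X x + z x * K.l₁ (sv α β f g x) with hA
  set B : EuclideanSpace ℝ (Fin n) → ℝ :=
    fun x => K.c₂ (sv α β f g x) * X x + z x * K.l₂ (sv α β f g x) with hB
  have hf1 : ∀ i, ContDiffOn ℝ 1 (pd i f) Ω := contDiffOn_pd hΩ hf (by norm_num)
  have hXc : ContDiffOn ℝ 1 X Ω := ContDiffOn.sum fun j _ => (hf1 j).mul (hf1 j)
  have hzc : ContDiffOn ℝ 1 z Ω := (contDiffOn_const.mul (hf.of_le (by norm_num))).exp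
  have hwc : ContDiffOn ℝ 2 (wgt α β m K f g) Ω :=
    (contDiffOn_const.mul hf).exp.mul (hE.comp hsv hsI)
  have hAc : ContDiffOn ℝ 1 A Ω :=
    ((h₁.comp hsv1 hsI).mul hXc).add (hzc.mul (h₃.comp hsv1 hsI))
  have hBc : ContDiffOn ℝ 1 B Ω :=
    ((h₂.comp hsv1 hsI).mul hXc).add (hzc.mul (h₄.comp hsv1 hsI))
  have dsv : ∀ x ∈ Ω, DifferentiableAt ℝ (sv α β f g) x := fun x hx =>
    (hsv.contDiffAt (hΩ.mem_nhds hx)).differentiableAt (by norm_num)
  have df : ∀ x ∈ Ω, DifferentiableAt ℝ f x := fun x hx =>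
    (hf.contDiffAt (hΩ.mem_nhds hx)).differentiableAt (by norm_num)
  have dg : ∀ x ∈ Ω, DifferentiableAt ℝ g x := fun x hx =>
    (hg.contDiffAt (hΩ.mem_nhds hx)).differentiableAt (by norm_num)
  have psv : ∀ x ∈ Ω, ∀ i, pd i (sv α β f g) x = pd i f x / α - pd i g x / β := fun x hx i => by
    rw [show sv α β f g = fun y => α⁻¹ * f y - β⁻¹ * g y from
        funext fun y => by simp only [sv]; ring,
      pd_sub ((df x hx).const_mul _) ((dg x hx).const_mul _), pd_const_mul (df x hx),
      pd_const_mul (dg x hx)]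
    ring
  have pc : ∀ G : ℝ → ℝ, ∀ x ∈ Ω, DifferentiableAt ℝ G (sv α β f g x) → ∀ i,
      pd i (fun y => G (sv α β f g y)) x =
        deriv G (sv α β f g x) * (pd i f x / α - pd i g x / β) := fun G x hx hG i => by
    rw [← psv x hx i]
    have h := hG.hasDerivAt.comp_hasFDerivAt x (dsv x hx).hasFDerivAt
    show fderiv ℝ (G ∘ sv α β f g) x _ = _
    rw [h.fderiv]
    rfl
  have dG : ∀ G : ℝ → ℝ, ContDiffOn ℝ 1 G I → ∀ x ∈ Ω, DifferentiableAt ℝ G (sv α β f g x) :=
    fun G hG x hx => (hG.contDiffAt (hI.mem_nhds (hsI x hx))).differentiableAt (by norm_num)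
  have dE : ∀ x ∈ Ω, DifferentiableAt ℝ K.E (sv α β f g x) := dG _ (hE.of_le (by norm_num))
  set om : Fin n → EuclideanSpace ℝ (Fin n) → ℝ := fun i x =>
    -(m / α) * pd i f x + K.eps (sv α β f g x) * (pd i f x / α - pd i g x / β) with hom
  have pw : ∀ x ∈ Ω, ∀ i, pd i (wgt α β m K f g) x = wgt α β m K f g x * om i x := fun x hx i => by
    have hEc : DifferentiableAt ℝ (fun y => K.E (sv α β f g y)) x :=
      (dE x hx).comp x (dsv x hx)
    rw [show wgt α β m K f g = fun y => Real.exp (-(m / α) * f y) * K.E (sv α β f g y) from rfl,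
      pd_mul ((df x hx).const_mul _).exp hEc, pd_exp ((df x hx).const_mul _),
      pd_const_mul (df x hx), pc _ x hx (dE x hx)]
    have h0 := (hE0 _ (hsI x hx)).ne'
    simp only [hom, Coef.eps]
    field_simp
    ring
  obtain ⟨J, hJi, hJ0, hJz, hJ⟩ := identity_gen hΩ hwc hAc hBc pw hf hg hlf hlg hη hc hs
  refine ⟨J, hJi, hJ0, hJz, fun x hx => (hJ x hx).trans ?_⟩
  have dX : DifferentiableAt ℝ X x :=
    (hXc.contDiffAt (hΩ.mem_nhds hx)).differentiableAt (by norm_num)
  have dz : DifferentiableAt ℝ z x :=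
    (hzc.contDiffAt (hΩ.mem_nhds hx)).differentiableAt (by norm_num)
  have dc : ∀ G : ℝ → ℝ, ContDiffOn ℝ 1 G I →
      DifferentiableAt ℝ (fun y => G (sv α β f g y)) x :=
    fun G hG => (dG G hG x hx).comp x (dsv x hx)
  have pX : ∀ i, pd i X x = 2 * ∑ j, pd j f x * pd i (pd j f) x := fun i => by
    have dfi : ∀ j, DifferentiableAt ℝ (pd j f) x := fun j =>
      ((hf1 j).contDiffAt (hΩ.mem_nhds hx)).differentiableAt (by norm_num)
    rw [hX, pd_sum _ fun j _ => (dfi j).fun_mul (dfi j), Finset.mul_sum]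
    exact Finset.sum_congr rfl fun j _ => by rw [pd_mul (dfi j) (dfi j)]; ring
  have pz : ∀ i, pd i z x = -(2 / α) * (z x * pd i f x) := fun i => by
    rw [hz, pd_exp ((df x hx).const_mul _), pd_const_mul (df x hx)]; ring
  have pF : ∀ c l : ℝ → ℝ, ContDiffOn ℝ 1 c I → ContDiffOn ℝ 1 l I → ∀ i,
      pd i (fun y => c (sv α β f g y) * X y + z y * l (sv α β f g y)) x =
        deriv c (sv α β f g x) * (pd i f x / α - pd i g x / β) * X x +
        c (sv α β f g x) * (2 * ∑ j, pd j f x * pd i (pd j f) x) +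
        z x * (deriv l (sv α β f g x) * (pd i f x / α - pd i g x / β) -
          2 / α * l (sv α β f g x) * pd i f x) := fun c l hc' hl' i => by
    rw [pd_add ((dc c hc').fun_mul dX) (dz.fun_mul (dc l hl')), pd_mul (dc c hc') dX,
      pd_mul dz (dc l hl'), pc c x hx (dG c hc' x hx), pc l x hx (dG l hl' x hx), pX, pz]
    ring
  have hP₁ : Real.exp (f x - (α + 2) / β * g x) = z x * T₁ α (sv α β f g x) := by
    simp only [hz, T₁, sv, ← Real.exp_add]
    congr 1
    field_simp
    ring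
  have hP₂ : Real.exp (g x - (β + 2) / α * f x) = z x * T₂ β (sv α β f g x) := by
    simp only [hz, T₂, sv, ← Real.exp_add]
    congr 1
    field_simp
    ring
  set a : Fin n → ℝ := fun i => pd i f x with ha
  set b : Fin n → ℝ := fun i => pd i g x with hb
  set H : Fin n → Fin n → ℝ := fun i j => pd i (pd j f) x with hH
  set e := K.eps (sv α β f g x) with he
  have q1 : ∑ i, om i x * ∑ j, pd i (pd j f) x * pd j f x =
      (-(m / α) + e / α) * qf H a - e / β * bil H a b := by
    simp only [hom, qf, bil, ha, hb, hH, he, Finset.mul_sum, ← Finset.sum_sub_distrib]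
    exact Finset.sum_congr rfl fun i _ => Finset.sum_congr rfl fun j _ => by ring
  have q2 : ∑ i, om i x * (A x * pd i f x + B x * pd i g x) =
      (-(m / α) * ip a a + e * (ip a a / α - ip a b / β)) * A x +
        (-(m / α) * ip a b + e * (ip a b / α - ip b b / β)) * B x := by
    simp only [hom, ip, ha, hb, he, Finset.sum_div, Finset.mul_sum, ← Finset.sum_sub_distrib,
      ← Finset.sum_add_distrib, Finset.sum_mul]
    exact Finset.sum_congr rfl fun i _ => by ring
  have q3 : ∀ c l : ℝ → ℝ, ∀ r : Fin n → ℝ,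
      ip (fun i => deriv c (sv α β f g x) * (pd i f x / α - pd i g x / β) * X x +
        c (sv α β f g x) * (2 * ∑ j, pd j f x * pd i (pd j f) x) +
        z x * (deriv l (sv α β f g x) * (pd i f x / α - pd i g x / β) -
          2 / α * l (sv α β f g x) * pd i f x)) r =
      deriv c (sv α β f g x) * (ip a r / α - ip b r / β) * X x +
        c (sv α β f g x) * (2 * bil H a r) +
        z x * (deriv l (sv α β f g x) * (ip a r / α - ip b r / β) -
          2 / α * l (sv α β f g x) * ip a r) := fun c l r => by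
    simp only [ip, bil, ha, hb, hH, Finset.sum_div, Finset.mul_sum, ← Finset.sum_sub_distrib,
      ← Finset.sum_add_distrib, Finset.sum_mul, add_mul]
    exact Finset.sum_congr rfl fun i _ => by
      congr 1
      congr 1
      · ring
      · exact Finset.sum_congr rfl fun j _ => by ring
      · ring
  have hba : ip b a = ip a b := Finset.sum_congr rfl fun i _ => mul_comm _ _
  have hbq : bil H a a = qf H a := by
    simp only [bil, qf]
    exact Finset.sum_congr rfl fun i _ => Finset.sum_congr rfl fun j _ => by ring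
  have eA : ip (fun i => pd i A x) a = _ :=
    (congrArg (fun w => ip w a) (funext (pF K.c₁ K.l₁ h₁ h₃))).trans (q3 K.c₁ K.l₁ a)
  have eB : ip (fun i => pd i B x) b = _ :=
    (congrArg (fun w => ip w b) (funext (pF K.c₂ K.l₂ h₂ h₄))).trans (q3 K.c₂ K.l₂ b)
  rw [q1, q2, eA, eB, hP₁, hP₂, hba, hbq]
  have hXa : X x = ip a a := rfl
  simp only [jetX, flux, hA, hB, hXa, he, hz]
  ring

end Vale.Agent.P100.Cal
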