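import Vale.Agent.P100.Cal.Identity
import Vale.Agent.P100.Cal.Absorb
import Vale.Agent.P100.Sys.Cutoff
import Vale.Agent.P100.Sys.Ineq

/-!
P100, analytic half of the calibrated identity: a calibration up to the level `S` excludes positive
solutions of the Lane–Emden system, `C²` off the origin and continuous, with
`log v / β - log u / α ≤ S`.
-/

open MeasureTheory Filter Topology Set Metric
open scoped Laplacian

namespace Vale.Agent.P100.Cal

open Vale.Agent.P100.Sys (pd lap ann cut contDiff_ann ann_support ann_nonneg ann_le_one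
  pd_ann_pow_four fderiv_cut_eq_zero integral_fderiv_cut integrable_of_support pd_symm young ip
  ip_self_nonneg laplacian_eq_lap lap_neg_log ann_eq_one)

variable {n : ℕ}

/-- Young's inequality with a weight. -/
theorem young_weighted {α m : ℝ} (hα : 0 < α) (hm : 0 ≤ m) {k : ℕ} (hk : m ≤ k) {ε : ℝ}
    (hε : 0 < ε) :
    ∃ C : ℝ, 0 ≤ C ∧ ∀ f W y D : ℝ, 0 < W → 0 ≤ y → y ≤ 1 → 0 ≤ D →
      Real.exp (-(m / α) * f) * W ^ (m / (m + 4)) * y ^ k * D ^ 4 ≤
        ε * (y ^ (k + 4) * (W * Real.exp (-((m + 4) / α) * f))) + C * D ^ (m + 4) := by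
  have hm4 : 0 < m + 4 := by linarith
  obtain ⟨C, hC, h⟩ := young (μ := m / α) (τ := 4 / α) (σ := m + 4) (k := ((k + 4 : ℕ) : ℝ))
    (m := (k : ℝ)) (div_nonneg hm hα.le) (by positivity) (by field_simp)
    (by
      rw [← add_div, mul_div_assoc, div_div_div_cancel_right₀ hα.ne', ← mul_div_assoc,
        div_le_iff₀ hm4]
      push_cast
      nlinarith)
    (by positivity) hε
  refine ⟨C, hC, fun f W y D hW hy hy1 hD => ?_⟩
  have := h (f - Real.log W * (α / (m + 4))) y D hy hy1 hD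
  rw [Real.rpow_natCast, Real.rpow_natCast] at this
  have e1 : Real.exp (-(m / α) * (f - Real.log W * (α / (m + 4)))) =
      Real.exp (-(m / α) * f) * W ^ (m / (m + 4)) := by
    rw [Real.rpow_def_of_pos hW, ← Real.exp_add]
    congr 1
    field_simp
    ring
  have e2 : Real.exp (-(m / α + 4 / α) * (f - Real.log W * (α / (m + 4)))) =
      W * Real.exp (-((m + 4) / α) * f) := by
    rw [← Real.exp_log hW, Real.log_exp, ← Real.exp_add]
    congr 1
    field_simp
    ring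
  rwa [e1, e2] at this

/-- The localised estimate. -/
theorem local_estimate {α β m S : ℝ} (hα : 0 < α) (hβ : 0 < β) (hm : 0 ≤ m) {K : Coef}
    {I : Set ℝ} (hI : IsOpen I) (hIS : Iic S ⊆ I) (hE : ContDiffOn ℝ 2 K.E I)
    (hE0 : ∀ t ∈ I, 0 < K.E t) (h₁ : ContDiffOn ℝ 1 K.c₁ I) (h₂ : ContDiffOn ℝ 1 K.c₂ I)
    (h₃ : ContDiffOn ℝ 1 K.l₁ I) (h₄ : ContDiffOn ℝ 1 K.l₂ I) {V ω : ℝ → ℝ}
    (hV : ContinuousOn V (Iic S)) (hV0 : ∀ s ≤ S, 0 < V s) (hω0 : ∀ s ≤ S, 0 ≤ ω s)
    {C₀ : ℝ} (hgr : ∀ s ≤ S, K.E s * ω s ≤ C₀ * (K.E s * V s) ^ (m / (m + 4)))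
    (habs : Absorbs n α β m S K V ω) :
    ∃ k : ℕ, ∃ C : ℝ, 0 ≤ C ∧ ∀ (f g : EuclideanSpace ℝ (Fin n) → ℝ) (M ρ R : ℝ),
      ContDiffOn ℝ 2 f {0}ᶜ → ContDiffOn ℝ 2 g {0}ᶜ →
      (∀ x ≠ 0, lap f x = (∑ i, pd i f x ^ 2) + Real.exp (f x - (α + 2) / β * g x)) →
      (∀ x ≠ 0, lap g x = (∑ i, pd i g x ^ 2) + Real.exp (g x - (β + 2) / α * f x)) →
      (∀ x ≠ 0, sv α β f g x ≤ S) → 0 ≤ M →
      (∀ x ≠ 0, ‖x‖ ≤ 2 * ρ → wgt α β m K f g x * ω (sv α β f g x) ≤ M) →
      0 < ρ → 0 < R →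
      Integrable (fun x => ann n ρ R x ^ k * (K.E (sv α β f g x) * V (sv α β f g x) *
        Real.exp (-((m + 4) / α) * f x))) ∧
      ∫ x, ann n ρ R x ^ k * (K.E (sv α β f g x) * V (sv α β f g x) *
        Real.exp (-((m + 4) / α) * f x)) ≤
        C * ((∫ x, ‖fderiv ℝ (cut n R) x‖ ^ (m + 4)) +
          M * ∫ x, ‖fderiv ℝ (cut n ρ) x‖ ^ (4 : ℝ)) := by
  have hσ0 : 0 < m + 4 := by linarith
  set k : ℕ := ⌈m⌉₊ with hkdef
  set Kc : ℝ := ((k + 4 : ℕ) : ℝ) ^ 4 * (8 * (n : ℝ) ^ 2) + 1 with hKc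
  have hK : 0 < Kc := by positivity
  set C₁ : ℝ := max C₀ 1 with hC₁
  have hC₁0 : 0 < C₁ := lt_of_lt_of_le one_pos (le_max_right _ _)
  obtain ⟨Cy, hCy, hy⟩ := young_weighted hα hm (Nat.le_ceil m)
    (show 0 < 1 / (2 * (Kc * C₁)) by positivity)
  refine ⟨k + 4, 2 * (Kc * C₁ * Cy + Kc), by positivity,
    fun f g M ρ R hf hg hlf hlg hsv hM0 hM hρ hR => ?_⟩
  have hΩ : IsOpen ({0}ᶜ : Set (EuclideanSpace ℝ (Fin n))) := isOpen_compl_singleton
  set χ := ann n ρ R with hχ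
  set η : EuclideanSpace ℝ (Fin n) → ℝ := fun x => χ x ^ (k + 4) with hη
  have hηd : ContDiff ℝ 2 η := contDiff_ann.pow _
  have hsub : tsupport η ⊆ tsupport χ := closure_mono fun x hx h => hx (by simp [hη, h])
  have hΩs : tsupport χ ⊆ {0}ᶜ := (ann_support hρ hR).trans fun x hx h => by
    rw [mem_singleton_iff] at h
    exact hx.2 (by simp [h, hρ])
  have hKc' : IsCompact (tsupport χ) :=
    (isCompact_closedBall (0 : EuclideanSpace ℝ (Fin n)) (2 * R)).of_isClosed_subset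
      (isClosed_tsupport _) ((ann_support hρ hR).trans sdiff_subset)
  have hηc : HasCompactSupport η := hKc'.of_isClosed_subset (isClosed_tsupport _) hsub
  obtain ⟨J, hJi, hJ0, hJz, hJ⟩ := identity (m := m) hΩ hα.ne' hβ.ne' hI hE hE0 h₁ h₂ h₃ h₄ hf hg
    (fun x hx => hIS (hsv x hx)) (fun x hx => hlf x hx) (fun x hx => hlg x hx) hηd hηc
    (hsub.trans hΩs)
  set s := sv α β f g with hs
  have hsc : ContinuousOn s {0}ᶜ := (hf.continuousOn.div_const α).sub (hg.continuousOn.div_const β)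
  set F := fun x => χ x ^ (k + 4) *
    (K.E (s x) * V (s x) * Real.exp (-((m + 4) / α) * f x)) with hF
  have hFi : Integrable F := integrable_of_support hΩ hKc' hΩs
    ((contDiff_ann.continuous.continuousOn.pow _).mul
      ((((hE.continuousOn.mono hIS).comp hsc fun x hx => hsv x hx).mul
        (hV.comp hsc fun x hx => hsv x hx)).mul
        ((continuousOn_const.mul hf.continuousOn).rexp)))
    fun x hx => by
      show χ x ^ (k + 4) * (K.E (s x) * V (s x) * Real.exp (-((m + 4) / α) * f x)) = 0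
      simp [image_eq_zero_of_notMem_tsupport hx]
  set G1 := fun x => ‖fderiv ℝ (cut n R) x‖ ^ (m + 4) with hG1
  set G2 := fun x => ‖fderiv ℝ (cut n ρ) x‖ ^ (4 : ℝ) with hG2
  have hG1i : Integrable G1 := ((integral_fderiv_cut hσ0 n).choose_spec R hR).1
  have hG2i : Integrable G2 := ((integral_fderiv_cut (by norm_num) n).choose_spec ρ hρ).1
  refine ⟨hFi, ?_⟩
  have pw : ∀ x, 1 / 2 * F x ≤ J x + Kc * C₁ * Cy * G1 x + Kc * M * G2 x := by
    intro x
    have g1 : 0 ≤ G1 x := Real.rpow_nonneg (norm_nonneg _) _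
    have g2 : 0 ≤ G2 x := Real.rpow_nonneg (norm_nonneg _) _
    by_cases hx : x ∈ tsupport χ
    swap
    · have hFx : F x = 0 := by simp [hF, image_eq_zero_of_notMem_tsupport hx]
      rw [hJz x fun h => hx (hsub h), hFx]
      have := mul_nonneg (mul_nonneg (mul_nonneg hK.le hC₁0.le) hCy) g1
      have := mul_nonneg (mul_nonneg hK.le hM0) g2
      linarith
    have hxΩ := hΩs hx
    have hS : s x ≤ S := hsv x hxΩ
    have hy0 : 0 ≤ χ x := ann_nonneg
    have hy1 : χ x ≤ 1 := ann_le_one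
    have hEp : 0 < K.E (s x) := hE0 _ (hIS hS)
    have hW : 0 < K.E (s x) * V (s x) := mul_pos hEp (hV0 _ hS)
    set a : Fin n → ℝ := fun i => pd i f x with ha
    set b : Fin n → ℝ := fun i => pd i g x with hb
    set H : Fin n → Fin n → ℝ := fun i j => pd i (pd j f) x with hH
    set d : Fin n → ℝ := fun i => pd i χ x with hd
    set ξ := Real.exp (-(2 / α) * f x) with hξ
    set e := wgt α β m K f g x with he
    set kk : ℝ := ((k + 4 : ℕ) : ℝ) with hkk
    have he' : e = Real.exp (-(m / α) * f x) * K.E (s x) := rfl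
    have he0 : 0 < e := by rw [he']; positivity
    have hdη : ∀ i, pd i η x = kk * d i * χ x ^ (k + 3) := fun i => by
      show fderiv ℝ (fun y => χ y ^ (k + 4)) x _ = _
      rw [fderiv_fun_pow _ (contDiff_ann.differentiable (by norm_num) x)]
      simp [hd, pd, hχ, hkk]
      ring
    have htr : ∑ i, H i i = ip a a + ξ * T₁ α (s x) := by
      show ∑ i, pd i (pd i f) x = _
      rw [← lap, hlf x hxΩ]
      simp only [ip, ha, ← pow_two, hξ, T₁, ← Real.exp_add, hs, sv]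
      congr 2
      field_simp
      ring
    set jv := jetX α β m K (s x) ξ H a b with hjv
    set fl := fun d : Fin n → ℝ => ∑ i, d i * flux K (s x) ξ H a b i with hfl
    have h4 : χ x ^ (k + 4) * (ξ ^ 2 * V (s x)) ≤
        η x * jv + fl (fun i => pd i η x) + ω (s x) * (kk ^ 4 * χ x ^ k * ip d d ^ 2) := by
      rcases eq_or_lt_of_le hy0 with h0 | hpos
      · simp only [hfl, hdη]
        simp only [hη, ← h0, zero_pow (show k + 4 ≠ 0 by omega), zero_pow (show k + 3 ≠ 0 by omega),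
          mul_zero, zero_mul, Finset.sum_const_zero, zero_add]
        exact mul_nonneg (hω0 _ hS) (by positivity)
      · have h := mul_le_mul_of_nonneg_left (habs.scale hS (Real.exp_pos _) H a b
          (fun i => kk / χ x * d i) (fun i j => pd_symm hΩ hf hxΩ i j) htr)
          (pow_nonneg hy0 (k + 4))
        refine h.trans (le_of_eq ?_)
        rw [ip_smul_smul]
        simp only [hfl, hdη]
        simp only [hη, hξ, mul_add, Finset.mul_sum]
        congr 1
        · congr 1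
          refine Finset.sum_congr rfl fun i _ => ?_
          field_simp
          ring
        · field_simp
          ring
    have hlow : F x = e * (χ x ^ (k + 4) * (ξ ^ 2 * V (s x))) := by
      simp only [hF, he', hξ]
      rw [show -((m + 4) / α) * f x = -(m / α) * f x + -(2 / α) * f x + -(2 / α) * f x by ring,
        Real.exp_add, Real.exp_add]
      ring
    set D1 := ‖fderiv ℝ (cut n R) x‖ with hD1
    set D2 := ‖fderiv ℝ (cut n ρ) x‖ with hD2
    have hd4 : ip d d ^ 2 ≤ 8 * (n : ℝ) ^ 2 * (D1 ^ 4 + D2 ^ 4) := by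
      have h1 : ip d d ^ 2 ≤ (n : ℝ) * ∑ i, d i ^ 4 := by
        have := sq_sum_le_card_mul_sum_sq (s := (Finset.univ : Finset (Fin n)))
          (f := fun i => d i * d i)
        simp only [Finset.card_univ, Fintype.card_fin] at this
        refine this.trans_eq ?_
        congr 1
        exact Finset.sum_congr rfl fun i _ => by ring
      refine h1.trans ?_
      refine (mul_le_mul_of_nonneg_left (Finset.sum_le_sum fun i _ =>
        pd_ann_pow_four (ρ := ρ) (R := R) (x := x) i) (Nat.cast_nonneg n)).trans ?_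
      simp only [Finset.sum_const, Finset.card_univ, Fintype.card_fin, nsmul_eq_mul, hD1, hD2]
      exact le_of_eq (by ring)
    have e2 : e * ω (s x) * χ x ^ k * D1 ^ 4 ≤ 1 / (2 * Kc) * F x + C₁ * Cy * G1 x := by
      have h1 : e * ω (s x) ≤
          C₁ * (Real.exp (-(m / α) * f x) * (K.E (s x) * V (s x)) ^ (m / (m + 4))) := by
        rw [he', mul_assoc, mul_left_comm C₁]
        refine mul_le_mul_of_nonneg_left ((hgr _ hS).trans ?_) (Real.exp_pos _).le
        exact mul_le_mul_of_nonneg_right (le_max_left _ _) (Real.rpow_nonneg hW.le _)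
      have h2 := mul_le_mul_of_nonneg_left (hy (f x) _ (χ x) D1 hW hy0 hy1 (norm_nonneg _)) hC₁0.le
      have h3 := mul_le_mul_of_nonneg_right h1 (show 0 ≤ χ x ^ k * D1 ^ 4 by positivity)
      have e : C₁ * (1 / (2 * (Kc * C₁)) * F x) = 1 / (2 * Kc) * F x := by field_simp
      simp only [hF] at e ⊢
      rw [mul_add, e] at h2
      simp only [hG1, ← hD1]
      linarith
    have e3 : e * ω (s x) * χ x ^ k * D2 ^ 4 ≤ M * G2 x := by
      have eG : G2 x = D2 ^ 4 := by simp [hG2, hD2]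
      rw [eG]
      by_cases hx2 : 2 * ρ < ‖x‖
      · rw [hD2, fderiv_cut_eq_zero hρ hx2]; simp
      · exact mul_le_mul_of_nonneg_right ((mul_le_of_le_one_right
          (mul_nonneg he0.le (hω0 _ hS)) (pow_le_one₀ hy0 hy1)).trans
          (hM x hxΩ (not_lt.1 hx2))) (by positivity)
    have hJx : J x = e * (η x * jv + fl (fun i => pd i η x)) := hJ x hxΩ
    rw [hJx]
    have h5 := mul_le_mul_of_nonneg_left h4 he0.le
    have hw0 : 0 ≤ e * ω (s x) * χ x ^ k := by
      have := hω0 _ hS; positivity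
    have h6 : e * (ω (s x) * (kk ^ 4 * χ x ^ k * ip d d ^ 2)) ≤
        Kc * (e * ω (s x) * χ x ^ k * D1 ^ 4 + e * ω (s x) * χ x ^ k * D2 ^ 4) := by
      have h := mul_le_mul_of_nonneg_left
        (mul_le_mul_of_nonneg_left hd4 (show (0 : ℝ) ≤ kk ^ 4 by positivity)) hw0
      have h' := mul_nonneg hw0 (show 0 ≤ D1 ^ 4 + D2 ^ 4 by positivity)
      rw [hKc]
      linarith
    have h7 := mul_le_mul_of_nonneg_left (add_le_add e2 e3) hK.le
    have h8 : Kc * (1 / (2 * Kc) * F x) = 1 / 2 * F x := by field_simp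
    linarith
  have hint := integral_mono (hFi.const_mul (1 / 2))
    ((hJi.add (hG1i.const_mul (Kc * C₁ * Cy))).add (hG2i.const_mul (Kc * M))) pw
  simp only [Pi.add_apply] at hint
  have hJG : Integrable fun x => J x + Kc * C₁ * Cy * G1 x := hJi.add (hG1i.const_mul _)
  rw [integral_const_mul, integral_add hJG (hG2i.const_mul _),
    integral_add hJi (hG1i.const_mul _), integral_const_mul, integral_const_mul, hJ0] at hint
  have hI1 : 0 ≤ ∫ x, G1 x := integral_nonneg fun x => Real.rpow_nonneg (norm_nonneg _) _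
  have hI2 : 0 ≤ ∫ x, G2 x := integral_nonneg fun x => Real.rpow_nonneg (norm_nonneg _) _
  have := mul_nonneg hK.le hI1
  have := mul_nonneg (mul_nonneg (mul_nonneg hK.le hC₁0.le) hCy) (mul_nonneg hM0 hI2)
  show ∫ x, F x ≤ _
  nlinarith

/-- A calibration that absorbs the cutoff excludes solutions below its level. -/
theorem no_solution_of_absorbs (hn : 5 ≤ n) {α β m S : ℝ} (hα : 0 < α) (hβ : 0 < β) (hm : 0 ≤ m)
    (hmn : (n : ℝ) < m + 4) {K : Coef} {I : Set ℝ} (hI : IsOpen I) (hIS : Iic S ⊆ I)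
    (hE : ContDiffOn ℝ 2 K.E I) (hE0 : ∀ t ∈ I, 0 < K.E t) (h₁ : ContDiffOn ℝ 1 K.c₁ I)
    (h₂ : ContDiffOn ℝ 1 K.c₂ I) (h₃ : ContDiffOn ℝ 1 K.l₁ I) (h₄ : ContDiffOn ℝ 1 K.l₂ I)
    {V ω : ℝ → ℝ} (hV : ContinuousOn V (Iic S)) (hV0 : ∀ s ≤ S, 0 < V s)
    (hω : ContinuousOn ω (Iic S)) (hω0 : ∀ s ≤ S, 0 ≤ ω s) {C₀ : ℝ}
    (hgr : ∀ s ≤ S, K.E s * ω s ≤ C₀ * (K.E s * V s) ^ (m / (m + 4)))
    (habs : Absorbs n α β m S K V ω) :
    ¬ ∃ u v : EuclideanSpace ℝ (Fin n) → ℝ, Continuous u ∧ Continuous v ∧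
      (∀ x, 0 < u x ∧ 0 < v x) ∧
      (∀ x ≠ 0, ContDiffAt ℝ 2 u x ∧ ContDiffAt ℝ 2 v x ∧
        -Δ u x = v x ^ ((α + 2) / β) ∧ -Δ v x = u x ^ ((β + 2) / α)) ∧
      ∀ x ≠ 0, Real.log (v x) / β - Real.log (u x) / α ≤ S := by
  rintro ⟨u, v, hu, hv, hpos, h, hcmp⟩
  set p : ℝ := (α + 2) / β with hp
  set q : ℝ := (β + 2) / α with hq
  have hσ0 : 0 < m + 4 := by linarith
  set f : EuclideanSpace ℝ (Fin n) → ℝ := fun x => -Real.log (u x) with hf
  set g : EuclideanSpace ℝ (Fin n) → ℝ := fun x => -Real.log (v x) with hg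
  have hfC : ContDiffOn ℝ 2 f {0}ᶜ := fun x hx =>
    ((h x hx).1.log (hpos x).1.ne').neg.contDiffWithinAt
  have hgC : ContDiffOn ℝ 2 g {0}ᶜ := fun x hx =>
    ((h x hx).2.1.log (hpos x).2.ne').neg.contDiffWithinAt
  have hlf : ∀ x ≠ 0, lap f x = (∑ i, pd i f x ^ 2) + Real.exp (f x - p * g x) := fun x hx => by
    obtain ⟨h1, -, he, -⟩ := h x hx
    rw [hf, lap_neg_log (Eventually.of_forall fun y => (hpos y).1) h1, ← laplacian_eq_lap h1, he,
      hg]
    congr 1
    rw [Real.rpow_def_of_pos (hpos x).2, Real.exp_sub, Real.exp_neg, Real.exp_log (hpos x).1,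
      show p * -Real.log (v x) = -(Real.log (v x) * p) by ring, Real.exp_neg]
    field_simp
  have hlg : ∀ x ≠ 0, lap g x = (∑ i, pd i g x ^ 2) + Real.exp (g x - q * f x) := fun x hx => by
    obtain ⟨-, h1, -, he⟩ := h x hx
    rw [hg, lap_neg_log (Eventually.of_forall fun y => (hpos y).2) h1, ← laplacian_eq_lap h1, he,
      hf]
    congr 1
    rw [Real.rpow_def_of_pos (hpos x).1, Real.exp_sub, Real.exp_neg, Real.exp_log (hpos x).2,
      show q * -Real.log (u x) = -(Real.log (u x) * q) by ring, Real.exp_neg]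
    field_simp
  have hsv : ∀ x ≠ 0, sv α β f g x ≤ S := fun x hx => by
    have := hcmp x hx
    simp only [sv, hf, hg, neg_div]
    linarith
  -- boundedness near the origin
  have hfc : Continuous f := (hu.log fun x => (hpos x).1.ne').neg
  have hgc : Continuous g := (hv.log fun x => (hpos x).2.ne').neg
  have hsc : Continuous (sv α β f g) := (hfc.div_const α).sub (hgc.div_const β)
  have hne : Nonempty (Fin n) := ⟨⟨0, by omega⟩⟩
  have hd : Dense ({0}ᶜ : Set (EuclideanSpace ℝ (Fin n))) := dense_compl_singleton 0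
  have hsall : ∀ x, sv α β f g x ≤ S := fun x =>
    (isClosed_Iic.preimage hsc).closure_subset_iff.2 (fun y hy => hsv y hy) (hd x)
  have hcont : Continuous fun x => wgt α β m K f g x * ω (sv α β f g x) :=
    (((continuous_const.mul hfc).rexp).mul
      ((hE.continuousOn.mono hIS).comp_continuous hsc hsall)).mul
      (hω.comp_continuous hsc hsall)
  obtain ⟨M, hM⟩ := (isCompact_closedBall (0 : EuclideanSpace ℝ (Fin n)) 1).exists_bound_of_continuousOn
    hcont.continuousOn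
  obtain ⟨k, C, hC, hest⟩ := local_estimate (n := n) hα hβ hm hI hIS hE hE0 h₁ h₂ h₃ h₄ hV hV0 hω0
    hgr habs
  obtain ⟨B1, hB1⟩ := integral_fderiv_cut hσ0 n
  obtain ⟨B2, hB2⟩ := integral_fderiv_cut (show (0 : ℝ) < 4 by norm_num) n
  set φ : EuclideanSpace ℝ (Fin n) → ℝ := fun x =>
    K.E (sv α β f g x) * V (sv α β f g x) * Real.exp (-((m + 4) / α) * f x) with hφ
  have hφp : ∀ x, 0 < φ x := fun x =>
    mul_pos (mul_pos (hE0 _ (hIS (hsall x))) (hV0 _ (hsall x))) (Real.exp_pos _)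
  have hφc : Continuous φ :=
    (((hE.continuousOn.mono hIS).comp_continuous hsc hsall).mul
      (hV.comp_continuous hsc hsall)).mul ((continuous_const.mul hfc).rexp)
  -- a fixed ball away from the origin
  set x₀ : EuclideanSpace ℝ (Fin n) := EuclideanSpace.single ⟨0, by omega⟩ 2 with hx₀
  have hx₀n : ‖x₀‖ = 2 := by simp [hx₀]
  set L : ℝ := ∫ x in closedBall x₀ 1, φ x with hL
  have hLi := hφc.continuousOn.integrableOn_compact (μ := volume) (isCompact_closedBall x₀ 1)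
  have hLpos : 0 < L := by
    rw [hL, setIntegral_pos_iff_support_of_nonneg_ae
      (Eventually.of_forall fun x => (hφp x).le) hLi]
    refine lt_of_lt_of_le (measure_ball_pos volume x₀ one_pos) (measure_mono fun x hx => ?_)
    exact ⟨(hφp x).ne', ball_subset_closedBall hx⟩
  have key : ∀ R : ℝ, 3 ≤ R →
      L ≤ C * (B1 * R ^ ((n : ℝ) - (m + 4)) + M * (B2 * R ^ (4 - (n : ℝ)))) := by
    intro R hR
    have hR0 : 0 < R := by linarith
    have hρ : 0 < R⁻¹ := inv_pos.2 hR0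
    have hρ2 : 2 * R⁻¹ ≤ 1 := by rw [← div_eq_mul_inv, div_le_one hR0]; linarith
    have hann : ∀ x ∈ closedBall x₀ 1, ann n R⁻¹ R x = 1 := fun x hx => by
      rw [mem_closedBall, dist_eq_norm] at hx
      have h1 := norm_sub_norm_le x₀ x
      have h2 := norm_le_norm_add_norm_sub' x x₀
      rw [norm_sub_rev] at h1
      rw [hx₀n] at h1 h2
      exact ann_eq_one hρ hR0 (by linarith) (by linarith)
    have hM0 : 0 ≤ M := (norm_nonneg _).trans (hM 0 (by simp))
    obtain ⟨hi, hle⟩ := hest f g M R⁻¹ R hfC hgC hlf hlg hsv hM0 (fun x _ hx =>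
        (le_abs_self _).trans (hM x (by simpa using hx.trans hρ2))) hρ hR0
    calc L = ∫ x in closedBall x₀ 1, ann n R⁻¹ R x ^ k * φ x :=
          setIntegral_congr_fun measurableSet_closedBall fun x hx => by simp [hann x hx]
      _ ≤ ∫ x, ann n R⁻¹ R x ^ k * φ x :=
          setIntegral_le_integral hi (Eventually.of_forall fun x =>
            mul_nonneg (pow_nonneg ann_nonneg _) (hφp x).le)
      _ ≤ _ := hle
      _ ≤ _ := by
          refine mul_le_mul_of_nonneg_left (add_le_add (hB1 R hR0).2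
            (mul_le_mul_of_nonneg_left ((hB2 R⁻¹ hρ).2.trans_eq ?_) hM0)) hC
          rw [Real.inv_rpow hR0.le, ← Real.rpow_neg hR0.le, neg_sub]
  have t1 : Tendsto (fun R : ℝ => R ^ ((n : ℝ) - (m + 4))) atTop (𝓝 0) := by
    simpa using tendsto_rpow_neg_atTop (sub_pos.2 hmn)
  have hn4 : (4 : ℝ) < n := by exact_mod_cast (by omega : 4 < n)
  have t2 : Tendsto (fun R : ℝ => R ^ (4 - (n : ℝ))) atTop (𝓝 0) := by
    simpa using tendsto_rpow_neg_atTop (sub_pos.2 hn4)
  have t := ((t1.const_mul B1).add ((t2.const_mul B2).const_mul M)).const_mul C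
  simp only [mul_zero, add_zero] at t
  have := ge_of_tendsto t (eventually_atTop.2 ⟨3, key⟩)
  linarith

/-- A coercive calibration with bounded coefficients excludes solutions below its level. -/
theorem no_solution_of_coercive (hn : 5 ≤ n) {α β m S : ℝ} (hα : 0 < α) (hβ : 0 < β) (hm : 0 ≤ m)
    (hmn : (n : ℝ) < m + 4) {K : Coef} {I : Set ℝ} (hI : IsOpen I) (hIS : Iic S ⊆ I)
    (hE : ContDiffOn ℝ 2 K.E I) (hE0 : ∀ t ∈ I, 0 < K.E t) (h₁ : ContDiffOn ℝ 1 K.c₁ I)
    (h₂ : ContDiffOn ℝ 1 K.c₂ I) (h₃ : ContDiffOn ℝ 1 K.l₁ I) (h₄ : ContDiffOn ℝ 1 K.l₂ I)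
    (hco : Coercive n α β m S K) {C : ℝ}
    (hb : ∀ s ≤ S, |K.c₁ s| ≤ C ∧ |K.c₂ s| ≤ C ∧ |K.l₁ s| ≤ C * (T₁ α s + T₂ β s) ∧
      |K.l₂ s| ≤ C * (T₁ α s + T₂ β s))
    (hgr : ∀ s ≤ S, K.E s ^ (4 / (m + 4)) ≤ C * ((T₁ α s + T₂ β s) ^ 2) ^ (m / (m + 4))) :
    ¬ ∃ u v : EuclideanSpace ℝ (Fin n) → ℝ, Continuous u ∧ Continuous v ∧
      (∀ x, 0 < u x ∧ 0 < v x) ∧
      (∀ x ≠ 0, ContDiffAt ℝ 2 u x ∧ ContDiffAt ℝ 2 v x ∧
        -Δ u x = v x ^ ((α + 2) / β) ∧ -Δ v x = u x ^ ((β + 2) / α)) ∧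
      ∀ x ≠ 0, Real.log (v x) / β - Real.log (u x) / α ≤ S := by
  obtain ⟨γ, W, hγ, hW, habs⟩ := absorbs_of_coercive hco hb
  have hT : ∀ s, 0 < (T₁ α s + T₂ β s) ^ 2 := fun s =>
    pow_pos (add_pos (T₁_pos _ _) (T₂_pos _ _)) 2
  refine no_solution_of_absorbs hn hα hβ hm hmn hI hIS hE hE0 h₁ h₂ h₃ h₄
    (by unfold T₁ T₂; fun_prop) (fun s _ => mul_pos hγ (hT s)) continuousOn_const
    (fun _ _ => hW) (C₀ := W * C / γ ^ (m / (m + 4))) (fun s hs => ?_) habs
  have hEp : 0 < K.E s := hE0 s (hIS hs)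
  have hσ : (m + 4) ≠ 0 := by linarith
  have eE : K.E s ^ (4 / (m + 4)) * K.E s ^ (m / (m + 4)) = K.E s := by
    rw [← Real.rpow_add hEp, ← add_div, add_comm, div_self hσ, Real.rpow_one]
  have h2 : K.E s ≤ C * ((T₁ α s + T₂ β s) ^ 2) ^ (m / (m + 4)) * K.E s ^ (m / (m + 4)) := by
    conv_lhs => rw [← eE]
    exact mul_le_mul_of_nonneg_right (hgr s hs) (Real.rpow_nonneg hEp.le _)
  rw [Real.mul_rpow hEp.le (mul_pos hγ (hT s)).le, Real.mul_rpow hγ.le (hT s).le]
  refine (mul_le_mul_of_nonneg_right h2 hW).trans (le_of_eq ?_)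
  have : γ ^ (m / (m + 4)) ≠ 0 := (Real.rpow_pos_of_pos hγ _).ne'
  field_simp

end Vale.Agent.P100.Cal
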