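import Vale.Agent.P100.Cal.Square

/-!
P100, calibrated identity: the values of the calibration along a zero energy radial trajectory of
the critical system of dimension `N = α + β + 2`, in the state variables `ψ = g'/f'`,
`a = (N - r² P₁ / A)/A` (`A = r f'`), and `X = f'²`, `R = f'/r` at unit `u ^ (2/α)`. The gauge is
given by its value `F` and its derivative `F₁` along `f`. The quartic is critical at `X`, and the
four numbers of its completed square take closed forms.
-/

namespace Vale.Agent.P100.Cal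

/-- A state of the trajectory together with a gauge. -/
structure Orbit where
  ψ : ℝ
  a : ℝ
  X : ℝ
  R : ℝ
  F : ℝ
  F₁ : ℝ

namespace Orbit

variable (o : Orbit) (α β m : ℝ)

/-- The dimension of the critical system. -/
noncomputable def dimN : ℝ := α + β + 2

noncomputable def den : ℝ := β + α * o.ψ

noncomputable def dl : ℝ := α * o.ψ - β

noncomputable def K : ℝ := (dimN α β - 1) / o.den α β

noncomputable def G : ℝ := o.ψ * (dimN α β + α - α * o.ψ) / o.den α β

noncomputable def De : ℝ := o.den α β * o.a - dimN α β * o.ψ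

/-- `α ι - m`, with `ι` the local exponent of the weight. -/
noncomputable def Ew : ℝ := α * (2 + o.ψ + o.G α β - 2 * o.a) - m

/-- The derivative of `ψ` along `f`. -/
noncomputable def dψ : ℝ := o.den α β * (o.a - o.G α β) / α

/-- `X` times the derivative of `a` along `f`. -/
noncomputable def Xda : ℝ :=
  o.R * (dimN α β * ((α + 2) / β) * o.ψ - (dimN α β + 2) * o.a) +
    o.X * o.a * (2 * o.a - (α + 2) / β * o.ψ - 1)

/-- The derivative of `R` along `f`. -/
noncomputable def dR : ℝ := o.R * (1 - o.a)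

/-- The derivative of `X` along `f`. -/
noncomputable def dX : ℝ := 2 * (o.X * (1 - o.a) + o.R)

/-- The derivative of `f/α - g/β` along `f`. -/
noncomputable def rate : ℝ := 1 / α - o.ψ / β

/-- The second coefficient of degree two. -/
noncomputable def l₂ : ℝ := (dimN α β - 1) * (o.X - α * o.R) / o.den α β - o.F * o.X

/-- The first coefficient of degree two. -/
noncomputable def l₁ : ℝ :=
  o.X * (o.a - o.K α β * o.ψ) - o.R - o.ψ * o.l₂ α β

noncomputable def dl₂ : ℝ :=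
  (dimN α β - 1) * (o.dX - α * o.dR) / o.den α β -
    (dimN α β - 1) * (o.X - α * o.R) * α * o.dψ α β / o.den α β ^ 2 - o.F₁ * o.X - o.F * o.dX

noncomputable def dl₁ : ℝ :=
  o.dX * (o.a - o.K α β * o.ψ) + o.Xda α β +
    o.X * ((dimN α β - 1) * α * o.dψ α β * o.ψ / o.den α β ^ 2 - o.K α β * o.dψ α β) - o.dR -
    o.dψ α β * o.l₂ α β - o.ψ * o.dl₂ α β

noncomputable def dG : ℝ :=
  ((dimN α β + α - 2 * α * o.ψ) * o.den α β - α * o.ψ * (dimN α β + α - α * o.ψ)) /
    o.den α β ^ 2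

/-- The values of the calibration, derivatives taken in `s = f/α - g/β`. -/
noncomputable def val : Val where
  ep := (m / α - (2 + o.ψ + o.G α β - 2 * o.a)) / o.rate α β
  c₁ := -1 + o.ψ / 2 + o.G α β / 2 - o.F * o.ψ
  c₂ := o.F
  l₁ := o.l₁ α β
  l₂ := o.l₂ α β
  d₁ := ((1 + o.dG α β) * o.dψ α β / 2 - o.F₁ * o.ψ - o.F * o.dψ α β) / o.rate α β
  d₂ := o.F₁ / o.rate α β
  e₁ := (o.dl₁ α β + 2 / α * o.l₁ α β) / o.rate α β
  e₂ := (o.dl₂ α β + 2 / α * o.l₂ α β) / o.rate α β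
  P₁ := dimN α β * o.R - o.a * o.X
  P₂ := o.ψ * dimN α β * o.R - o.X * (dimN α β * o.ψ - β * o.a) / α

/-- The three conditions that keep the formulas meaningful. -/
structure Reg : Prop where
  hα : 0 < α
  hβ : 0 < β
  hden : o.den α β ≠ 0
  hdl : o.dl α β ≠ 0

variable {o α β}

theorem Reg.rate_eq (h : o.Reg α β) : o.rate α β = -(o.dl α β) / (α * β) := by
  have := h.hα.ne'
  have := h.hβ.ne'
  simp only [Orbit.rate, Orbit.dl]
  field_simp
  ring

theorem Reg.inv_rate (h : o.Reg α β) (c : ℝ) :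
    c / o.rate α β = -(α * β * c) / o.dl α β := by
  rw [h.rate_eq, div_div_eq_mul_div, div_neg, neg_div]
  ring

theorem Reg.N_ne (h : o.Reg α β) : dimN α β ≠ 0 :=
  (by have := h.hα; have := h.hβ; unfold dimN; linarith : (0 : ℝ) < dimN α β).ne'

theorem critical (h : o.Reg α β) :
    (o.val α β m).Critical (dimN α β) α β m o.ψ o.X := by
  have h1 := h.hα.ne'
  have h2 := h.hβ.ne'
  have h3 := h.hden
  have h4 := h.hdl
  have h5 := h.N_ne
  constructor <;>
    simp only [Val.rX, Val.rY, Val.rZ, Val.r0, Val.Cq, Val.Bq, Val.rXX, Val.rXY, Val.rXZ, Val.rZZ,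
      Val.g₁, Val.g₂, Orbit.val, h.inv_rate, Orbit.dl₁, Orbit.dl₂, Orbit.l₁, Orbit.l₂, Orbit.dG,
      Orbit.dψ, Orbit.Xda, Orbit.dX, Orbit.dR, Orbit.K, Orbit.G] <;>
    simp only [Orbit.den, Orbit.dl, dimN] at h3 h4 h5 ⊢ <;>
    field_simp <;> ring

theorem k₁_eq (h : o.Reg α β) : (o.val α β m).k₁ α β m o.ψ = o.a := by
  have h1 := h.hα.ne'
  have h2 := h.hβ.ne'
  have h3 := h.hden
  have h4 := h.hdl
  simp only [Val.k₁, Val.g₁, Val.g₂, Orbit.val, h.inv_rate, Orbit.G]
  simp only [Orbit.den, Orbit.dl, dimN] at h3 h4 ⊢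
  field_simp
  ring

theorem A₂_eq (h : o.Reg α β) :
    (o.val α β m).A₂ (dimN α β) β =
      -(dimN α β - 1) / (4 * dimN α β) * (2 * o.F - o.Ew α β m / o.dl α β) ^ 2 +
        o.F * (1 - o.Ew α β m / o.dl α β) + α * o.F₁ / o.dl α β := by
  have h1 := h.hα.ne'
  have h2 := h.hβ.ne'
  have h3 := h.hden
  have h4 := h.hdl
  have h5 := h.N_ne
  simp only [Val.A₂, Val.rXY, Val.rZZ, Val.g₂, Orbit.val, h.inv_rate, Orbit.Ew, Orbit.G]
  simp only [Orbit.den, Orbit.dl, dimN] at h3 h4 h5 ⊢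
  field_simp
  ring

theorem Cq_eq (h : o.Reg α β) :
    (o.val α β m).Cq (dimN α β) α β m o.ψ =
      o.De α β * (o.K α β * (1 / α - o.a / dimN α β) - o.F / α) := by
  have h1 := h.hα.ne'
  have h2 := h.hβ.ne'
  have h3 := h.hden
  have h4 := h.hdl
  have h5 := h.N_ne
  simp only [Val.Cq, Val.rXX, Val.rXY, Val.rXZ, Val.rZZ, Val.g₁, Val.g₂, Orbit.val, h.inv_rate,
    Orbit.dG, Orbit.dψ, Orbit.De, Orbit.K, Orbit.G]
  simp only [Orbit.den, Orbit.dl, dimN] at h3 h4 h5 ⊢
  field_simp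
  ring

theorem Bq_eq (h : o.Reg α β) :
    o.dl α β * (o.val α β m).Bq (dimN α β) α β m o.ψ =
      o.K α β * β * (o.a - o.G α β) -
        o.F * (o.den α β * (o.a - o.G α β) - o.dl α β * (o.ψ - o.G α β) -
          2 * o.dl α β * o.a / dimN α β) +
        o.dl α β * o.F₁ + o.Ew α β m * o.K α β * o.De α β / dimN α β := by
  have h1 := h.hα.ne'
  have h2 := h.hβ.ne'
  have h3 := h.hden
  have h4 := h.hdl
  have h5 := h.N_ne
  simp only [Val.Bq, Val.rXY, Val.rXZ, Val.rZZ, Val.g₁, Val.g₂, Orbit.val, h.inv_rate,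
    Orbit.dG, Orbit.dψ, Orbit.Ew, Orbit.De, Orbit.K, Orbit.G]
  simp only [Orbit.den, Orbit.dl, dimN] at h3 h4 h5 ⊢
  field_simp
  ring

theorem rY_eq (h : o.Reg α β) :
    o.dl α β * (o.val α β m).rY β =
      o.R * α * (o.K α β * (dimN α β - 2 - m) - 2 * o.F) +
        o.X * (o.K α β * (2 - β + m - α * o.a) - o.F * (2 - β + m - α * o.G α β) - α * o.F₁) := by
  have h1 := h.hα.ne'
  have h2 := h.hβ.ne'
  have h3 := h.hden
  have h4 := h.hdl
  simp only [Val.rY, Orbit.val, h.inv_rate, Orbit.dl₂, Orbit.l₂, Orbit.dX, Orbit.dψ, Orbit.dR,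
    Orbit.K, Orbit.G]
  simp only [Orbit.den, Orbit.dl, dimN] at h3 h4 ⊢
  field_simp
  ring

end Orbit

end Vale.Agent.P100.Cal
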