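import Vale.Agent.P100.Cal.Main
import Vale.Agent.P100.Cal.Orbit

/-!
P100, calibrated identity: the coefficient functions along a positive radial ground state of the
critical system, written in `t = r²` (continued to `t < 0`), as functions of
`s = f/α - g/β`, `f = -log U`, `g = -log V`.
-/

open Filter Topology Set
open scoped Laplacian

namespace Vale.Agent.P100.Cal

open Orbit (dimN)

/-- A positive zero energy solution of the critical system in the variable `t = r²`. -/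
structure Ground (α β : ℝ) where
  t₁ : ℝ
  U : ℝ → ℝ
  V : ℝ → ℝ
  hα : 0 < α
  hβ : 0 < β
  ht₁ : t₁ < 0
  smU : ContDiffOn ℝ 3 U (Ioi t₁)
  smV : ContDiffOn ℝ 3 V (Ioi t₁)
  posU : ∀ t > t₁, 0 < U t ∧ deriv U t < 0
  posV : ∀ t > t₁, 0 < V t ∧ deriv V t < 0
  eqU : ∀ t > t₁,
    4 * t * deriv (deriv U) t + 2 * dimN α β * deriv U t = -(V t ^ ((α + 2) / β))
  eqV : ∀ t > t₁,
    4 * t * deriv (deriv V) t + 2 * dimN α β * deriv V t = -(U t ^ ((β + 2) / α))
  poh : ∀ t > t₁, 4 * t * deriv U t * deriv V t +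
    (β * (V t ^ ((α + 2) / β) * V t) + α * (U t ^ ((β + 2) / α) * U t)) / dimN α β +
    2 * (β * deriv U t * V t + α * U t * deriv V t) = 0
  gap : ∀ t > t₁, 0 < β * (deriv U t / U t) - α * (deriv V t / V t)

namespace Ground

variable {α β : ℝ} (gd : Ground α β)

/-- `-U'/U`. -/
noncomputable def fa (t : ℝ) : ℝ := -deriv gd.U t / gd.U t

/-- `-V'/V`. -/
noncomputable def fb (t : ℝ) : ℝ := -deriv gd.V t / gd.V t

/-- The scale invariant variable. -/
noncomputable def sOf (t : ℝ) : ℝ := -Real.log (gd.U t) / α + Real.log (gd.V t) / β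

/-- `U ^ (2/α)`. -/
noncomputable def xi (t : ℝ) : ℝ := Real.exp (2 / α * Real.log (gd.U t))

/-- `ψ = b/a`. -/
noncomputable def psi (t : ℝ) : ℝ := gd.fb t / gd.fa t

/-- `(U''/U)/a²`. -/
noncomputable def a₁ (t : ℝ) : ℝ := deriv (deriv gd.U) t / gd.U t / gd.fa t ^ 2

/-- The state with the gauge `Fg`, a function of the parameter. -/
noncomputable def orb (Fg : ℝ → ℝ) (t : ℝ) : Orbit where
  ψ := gd.psi t
  a := gd.a₁ t
  X := 4 * t * gd.fa t ^ 2 / gd.xi t
  R := 2 * gd.fa t / gd.xi t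
  F := Fg t
  F₁ := deriv Fg t / gd.fa t

/-- The weight along the ground state. -/
noncomputable def wE (m t : ℝ) : ℝ :=
  Real.exp ((1 - m / α) * Real.log (gd.U t)) * gd.V t * (β * gd.fa t + α * gd.fb t) / gd.fa t ^ 2

/-- The parameter of a value of `s`. -/
noncomputable def tau : ℝ → ℝ := Function.invFunOn gd.sOf (Ioi gd.t₁)

/-- The calibration. -/
noncomputable def coef (m : ℝ) (Fg : ℝ → ℝ) : Coef where
  E s := gd.wE m (gd.tau s)
  c₁ s := ((gd.orb Fg (gd.tau s)).val α β m).c₁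
  c₂ s := ((gd.orb Fg (gd.tau s)).val α β m).c₂
  l₁ s := ((gd.orb Fg (gd.tau s)).val α β m).l₁
  l₂ s := ((gd.orb Fg (gd.tau s)).val α β m).l₂

variable {gd} {t : ℝ}

theorem hasDeriv (gd : Ground α β) (ht : gd.t₁ < t) :
    HasDerivAt gd.U (deriv gd.U t) t ∧ HasDerivAt (deriv gd.U) (deriv (deriv gd.U) t) t ∧
    HasDerivAt (deriv (deriv gd.U)) (deriv (deriv (deriv gd.U)) t) t ∧
    HasDerivAt gd.V (deriv gd.V t) t ∧ HasDerivAt (deriv gd.V) (deriv (deriv gd.V) t) t := by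
  have hU : ContDiffOn ℝ 2 (deriv gd.U) (Ioi gd.t₁) := gd.smU.deriv_of_isOpen isOpen_Ioi (by norm_num)
  have hV : ContDiffOn ℝ 2 (deriv gd.V) (Ioi gd.t₁) := gd.smV.deriv_of_isOpen isOpen_Ioi (by norm_num)
  have hU2 : ContDiffOn ℝ 1 (deriv (deriv gd.U)) (Ioi gd.t₁) :=
    hU.deriv_of_isOpen isOpen_Ioi (by norm_num)
  have hn : Ioi gd.t₁ ∈ 𝓝 t := isOpen_Ioi.mem_nhds ht
  exact ⟨((gd.smU.contDiffAt hn).differentiableAt (by norm_num)).hasDerivAt,
    ((hU.contDiffAt hn).differentiableAt (by norm_num)).hasDerivAt,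
    ((hU2.contDiffAt hn).differentiableAt (by norm_num)).hasDerivAt,
    ((gd.smV.contDiffAt hn).differentiableAt (by norm_num)).hasDerivAt,
    ((hV.contDiffAt hn).differentiableAt (by norm_num)).hasDerivAt⟩

theorem fa_pos (gd : Ground α β) (ht : gd.t₁ < t) : 0 < gd.fa t :=
  div_pos (neg_pos.2 (gd.posU t ht).2) (gd.posU t ht).1

theorem fb_pos (gd : Ground α β) (ht : gd.t₁ < t) : 0 < gd.fb t :=
  div_pos (neg_pos.2 (gd.posV t ht).2) (gd.posV t ht).1

theorem dimN_pos (gd : Ground α β) : 0 < dimN α β := by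
  have := gd.hα; have := gd.hβ; unfold dimN; linarith

theorem reg (gd : Ground α β) (Fg : ℝ → ℝ) (ht : gd.t₁ < t) : (gd.orb Fg t).Reg α β := by
  refine ⟨gd.hα, gd.hβ, ?_, ?_⟩
  · have := div_pos (gd.fb_pos ht) (gd.fa_pos ht)
    show β + α * gd.psi t ≠ 0
    have := gd.hα; have := gd.hβ
    exact (show 0 < β + α * gd.psi t by unfold psi; positivity).ne'
  · show α * gd.psi t - β ≠ 0
    have h := gd.gap t ht
    have ha := gd.fa_pos ht
    have e : (α * gd.psi t - β) * gd.fa t = β * (deriv gd.U t / gd.U t) -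
        α * (deriv gd.V t / gd.V t) := by
      simp only [psi, sub_mul, mul_assoc, div_mul_cancel₀ _ ha.ne']
      simp only [fa, fb]; ring
    intro h0; rw [h0, zero_mul] at e; linarith

theorem psi_gt (gd : Ground α β) (ht : gd.t₁ < t) : β / α < gd.psi t := by
  have h := gd.gap t ht
  have ha := gd.fa_pos ht
  rw [psi, div_lt_div_iff₀ gd.hα ha]
  have e : β * gd.fa t - gd.fb t * α =
      -(β * (deriv gd.U t / gd.U t) - α * (deriv gd.V t / gd.V t)) := by
    simp only [fa, fb]; ring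
  linarith

/-- The two second derivatives are tied by the vanishing energy. -/
theorem key (gd : Ground α β) (ht : gd.t₁ < t) :
    α * gd.U t * deriv (deriv gd.V) t + β * gd.V t * deriv (deriv gd.U) t =
      dimN α β * deriv gd.U t * deriv gd.V t := by
  have off : ∀ u > gd.t₁, u ≠ 0 → α * gd.U u * deriv (deriv gd.V) u +
      β * gd.V u * deriv (deriv gd.U) u - dimN α β * deriv gd.U u * deriv gd.V u = 0 := by
    intro u hu hu0
    have h1 := gd.eqU u hu
    have h2 := gd.eqV u hu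
    have h3 := gd.poh u hu
    have hN := gd.dimN_pos.ne'
    field_simp at h3
    have h' : 4 * u * (α * gd.U u * deriv (deriv gd.V) u + β * gd.V u * deriv (deriv gd.U) u -
        dimN α β * deriv gd.U u * deriv gd.V u) = 0 := by
      linear_combination α * gd.U u * h2 + β * gd.V u * h1 - h3
    exact (mul_eq_zero.1 h').resolve_left (mul_ne_zero (by norm_num) hu0)
  have hd : ∀ u > gd.t₁, ContinuousAt (fun u => α * gd.U u * deriv (deriv gd.V) u +
      β * gd.V u * deriv (deriv gd.U) u - dimN α β * deriv gd.U u * deriv gd.V u) u := by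
    intro u hu
    obtain ⟨a1, a2, a3, a4, a5⟩ := gd.hasDeriv hu
    have a6 : ContinuousAt (deriv (deriv gd.V)) u := by
      have hV : ContDiffOn ℝ 2 (deriv gd.V) (Ioi gd.t₁) :=
        gd.smV.deriv_of_isOpen isOpen_Ioi (by norm_num)
      exact (hV.continuousOn_deriv_of_isOpen isOpen_Ioi (by norm_num)).continuousAt
        (isOpen_Ioi.mem_nhds hu)
    exact (((continuousAt_const.mul a1.continuousAt).mul a6).add
      ((continuousAt_const.mul a4.continuousAt).mul a3.continuousAt)).sub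
      ((continuousAt_const.mul a2.continuousAt).mul a5.continuousAt)
  refine sub_eq_zero.1 ?_
  by_cases h : t = 0
  · subst h
    refine tendsto_nhds_unique ((hd 0 ht).tendsto.mono_left nhdsWithin_le_nhds :
      Tendsto _ (𝓝[≠] (0 : ℝ)) _) (tendsto_const_nhds.congr' ?_)
    filter_upwards [self_mem_nhdsWithin, nhdsWithin_le_nhds (isOpen_Ioi.mem_nhds ht)] with u h1 h2
    exact (off u h2 h1).symm
  · exact off t ht h

theorem U_eq (gd : Ground α β) (ht : gd.t₁ < t) :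
    gd.V t ^ ((α + 2) / β) =
      gd.U t * (2 * dimN α β * gd.fa t - 4 * t * gd.a₁ t * gd.fa t ^ 2) := by
  have h := gd.eqU t ht
  have hu := (gd.posU t ht).1.ne'
  have ha := (gd.fa_pos ht).ne'
  have e1 : deriv (deriv gd.U) t = gd.a₁ t * gd.fa t ^ 2 * gd.U t := by
    simp only [a₁]; field_simp
  have e2 : deriv gd.U t = -(gd.fa t * gd.U t) := by simp only [fa]; field_simp
  rw [e1, e2] at h
  linarith

theorem hasDerivAt_fa (gd : Ground α β) (ht : gd.t₁ < t) :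
    HasDerivAt gd.fa (gd.fa t ^ 2 * (1 - gd.a₁ t)) t := by
  obtain ⟨h1, h2, -⟩ := gd.hasDeriv ht
  have hu := (gd.posU t ht).1.ne'
  have ha := (gd.fa_pos ht).ne'
  refine ((h2.fun_neg).fun_div h1 hu).congr_deriv ?_
  simp only [a₁, mul_sub, mul_one]
  rw [mul_div_cancel₀ _ (pow_ne_zero 2 ha)]
  simp only [fa]
  field_simp
  ring

theorem hasDerivAt_psi (gd : Ground α β) (Fg : ℝ → ℝ) (ht : gd.t₁ < t) :
    HasDerivAt gd.psi (gd.fa t * (gd.orb Fg t).dψ α β) t := by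
  obtain ⟨h1, h2, h3, h4, h5⟩ := gd.hasDeriv ht
  have hu := (gd.posU t ht).1.ne'
  have hv := (gd.posV t ht).1.ne'
  have ha := (gd.fa_pos ht).ne'
  have hfb : HasDerivAt gd.fb ((-deriv (deriv gd.V) t * gd.V t - -deriv gd.V t * deriv gd.V t) /
      gd.V t ^ 2) t := (h5.fun_neg).fun_div h4 hv
  have hden : β + α * gd.psi t ≠ 0 := (gd.reg Fg ht).hden
  have hal := gd.hα.ne'
  refine (hfb.fun_div (gd.hasDerivAt_fa ht) ha).congr_deriv ?_
  have e2 : deriv gd.U t = -(gd.fa t * gd.U t) := by simp only [fa]; field_simp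
  have e3 : deriv gd.V t = -(gd.fb t * gd.V t) := by simp only [fb]; field_simp
  have e4 : deriv (deriv gd.U) t = gd.a₁ t * gd.fa t ^ 2 * gd.U t := by
    simp only [a₁]; field_simp
  have k := gd.key ht
  rw [e2, e3, e4] at k
  have e5 : deriv (deriv gd.V) t =
      gd.V t * (dimN α β * gd.fa t * gd.fb t - β * gd.a₁ t * gd.fa t ^ 2) / α := by
    rw [eq_div_iff hal]
    refine mul_left_cancel₀ hu ?_
    linear_combination k
  rw [e5, e3]
  have eG : ∀ w, (β + α * gd.psi t) * (w - gd.psi t * (dimN α β + α - α * gd.psi t) /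
      (β + α * gd.psi t)) =
      (β + α * gd.psi t) * w - gd.psi t * (dimN α β + α - α * gd.psi t) := fun w => by
    rw [mul_sub, mul_div_cancel₀ _ hden]
  simp only [Orbit.dψ, Orbit.G, Orbit.den, orb, eG]
  simp only [psi]
  field_simp
  ring

theorem hasDerivAt_sOf (gd : Ground α β) (Fg : ℝ → ℝ) (ht : gd.t₁ < t) :
    HasDerivAt gd.sOf (gd.fa t * (gd.orb Fg t).rate α β) t := by
  obtain ⟨h1, -, -, h4, -⟩ := gd.hasDeriv ht
  have hu := (gd.posU t ht).1.ne'
  have hv := (gd.posV t ht).1.ne'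
  have ha := (gd.fa_pos ht).ne'
  refine (((h1.log hu).fun_neg.div_const α).fun_add ((h4.log hv).div_const β)).congr_deriv ?_
  simp only [Orbit.rate, orb, psi, mul_sub]
  rw [← mul_div_assoc, ← mul_div_assoc, mul_div_cancel₀ _ ha]
  simp only [fa, fb]
  ring

theorem slope_neg (gd : Ground α β) (Fg : ℝ → ℝ) (ht : gd.t₁ < t) :
    gd.fa t * (gd.orb Fg t).rate α β < 0 := by
  have h := gd.psi_gt ht
  have ha := gd.fa_pos ht
  refine mul_neg_of_pos_of_neg ha ?_
  have := gd.hα; have := gd.hβ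
  rw [div_lt_iff₀ gd.hα] at h
  simp only [Orbit.rate, orb, sub_neg, div_lt_div_iff₀ gd.hα gd.hβ]
  linarith

theorem hasDerivAt_xi (gd : Ground α β) (ht : gd.t₁ < t) :
    HasDerivAt gd.xi (-(2 / α) * gd.fa t * gd.xi t) t := by
  obtain ⟨h1, -⟩ := gd.hasDeriv ht
  refine (((h1.log (gd.posU t ht).1.ne').const_mul (2 / α)).exp).congr_deriv ?_
  simp only [fa, xi]
  ring

theorem hasDerivAt_X (gd : Ground α β) (Fg : ℝ → ℝ) (ht : gd.t₁ < t) :
    HasDerivAt (fun u => (gd.orb Fg u).X)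
      (gd.fa t * ((gd.orb Fg t).dX + 2 / α * (gd.orb Fg t).X)) t := by
  have hx : gd.xi t ≠ 0 := (Real.exp_pos _).ne'
  have := ((((hasDerivAt_id t).const_mul (4 : ℝ)).fun_mul ((gd.hasDerivAt_fa ht).fun_pow 2)).fun_div
    (gd.hasDerivAt_xi ht) hx)
  refine this.congr_deriv ?_
  simp only [Orbit.dX, orb, id_eq]
  field_simp
  ring

theorem hasDerivAt_R (gd : Ground α β) (Fg : ℝ → ℝ) (ht : gd.t₁ < t) :
    HasDerivAt (fun u => (gd.orb Fg u).R)
      (gd.fa t * ((gd.orb Fg t).dR + 2 / α * (gd.orb Fg t).R)) t := by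
  have hx : gd.xi t ≠ 0 := (Real.exp_pos _).ne'
  have := (((gd.hasDerivAt_fa ht).const_mul (2 : ℝ)).fun_div (gd.hasDerivAt_xi ht) hx)
  refine this.congr_deriv ?_
  simp only [Orbit.dR, orb]
  field_simp
  ring

theorem hasDerivAt_a₁ (gd : Ground α β) (Fg : ℝ → ℝ) (ht : gd.t₁ < t) :
    ∃ d, HasDerivAt gd.a₁ d t ∧
      (gd.orb Fg t).X * d = gd.fa t * (gd.orb Fg t).Xda α β := by
  obtain ⟨h1, h2, h3, h4, -⟩ := gd.hasDeriv ht
  have hu := (gd.posU t ht).1.ne'
  have hv := (gd.posV t ht).1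
  have ha := (gd.fa_pos ht).ne'
  have hx : gd.xi t ≠ 0 := (Real.exp_pos _).ne'
  refine ⟨_, (h3.fun_div h1 hu).fun_div ((gd.hasDerivAt_fa ht).fun_pow 2) (pow_ne_zero 2 ha), ?_⟩
  have e2 : deriv gd.U t = -(gd.fa t * gd.U t) := by simp only [fa]; field_simp
  have e4 : deriv (deriv gd.U) t = gd.a₁ t * gd.fa t ^ 2 * gd.U t := by
    simp only [a₁]; field_simp
  have e3 : deriv gd.V t = -(gd.fb t * gd.V t) := by simp only [fb]; field_simp
  -- the equation differentiated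
  have hl : HasDerivAt
      (fun u => 4 * u * deriv (deriv gd.U) u + 2 * dimN α β * deriv gd.U u)
      (4 * 1 * deriv (deriv gd.U) t + 4 * t * deriv (deriv (deriv gd.U)) t +
        2 * dimN α β * deriv (deriv gd.U) t) t :=
    (((hasDerivAt_id t).const_mul (4 : ℝ)).fun_mul h3).fun_add (h2.const_mul _)
  have hr : HasDerivAt (fun u => -(gd.V u ^ ((α + 2) / β)))
      (-(deriv gd.V t * ((α + 2) / β) * gd.V t ^ ((α + 2) / β - 1))) t :=
    (h4.rpow_const (Or.inl hv.ne')).fun_neg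
  have heq : (fun u => 4 * u * deriv (deriv gd.U) u + 2 * dimN α β * deriv gd.U u) =ᶠ[𝓝 t]
      fun u => -(gd.V u ^ ((α + 2) / β)) :=
    eventually_of_mem (isOpen_Ioi.mem_nhds ht) fun u hu => gd.eqU u hu
  have hd := hl.unique (hr.congr_of_eventuallyEq heq)
  rw [Real.rpow_sub_one hv.ne', gd.U_eq ht, e4, e3] at hd
  have hd' : 4 * t * deriv (deriv (deriv gd.U)) t =
      (α + 2) / β * gd.fb t * gd.U t * (2 * dimN α β * gd.fa t - 4 * t * gd.a₁ t * gd.fa t ^ 2) -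
        (4 + 2 * dimN α β) * gd.a₁ t * gd.fa t ^ 2 * gd.U t := by
    have := hv.ne'
    rw [show (4 + 2 * dimN α β) * gd.a₁ t * gd.fa t ^ 2 * gd.U t =
      4 * 1 * (gd.a₁ t * gd.fa t ^ 2 * gd.U t) +
        2 * dimN α β * (gd.a₁ t * gd.fa t ^ 2 * gd.U t) by ring]
    rw [eq_sub_iff_add_eq]
    linear_combination (norm := (field_simp; ring_nf)) hd
  rw [e4, e2]
  simp only [Orbit.Xda, orb, psi]
  have hb := gd.hβ.ne'
  field_simp at hd' ⊢
  linear_combination hd'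

theorem P₁_eq (gd : Ground α β) (m : ℝ) (Fg : ℝ → ℝ) (ht : gd.t₁ < t) :
    ((gd.orb Fg t).val α β m).P₁ = T₁ α (gd.sOf t) := by
  have h := gd.U_eq ht
  have hu := (gd.posU t ht).1
  have hv := (gd.posV t ht).1
  have hx : gd.xi t ≠ 0 := (Real.exp_pos _).ne'
  have e : T₁ α (gd.sOf t) = gd.V t ^ ((α + 2) / β) / (gd.U t * gd.xi t) := by
    have := gd.hα.ne'
    rw [T₁, sOf, xi, Real.rpow_def_of_pos hv]
    nth_rw 2 [← Real.exp_log hu]
    rw [← Real.exp_add, ← Real.exp_sub]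
    congr 1
    field_simp
    ring
  rw [e, h]
  simp only [Orbit.val, orb]
  field_simp

theorem P₂_eq (gd : Ground α β) (m : ℝ) (Fg : ℝ → ℝ) (ht : gd.t₁ < t) :
    ((gd.orb Fg t).val α β m).P₂ = T₂ β (gd.sOf t) := by
  have h1 := gd.U_eq ht
  have h3 := gd.poh t ht
  have hu := (gd.posU t ht).1
  have hv := (gd.posV t ht).1
  have hx : gd.xi t ≠ 0 := (Real.exp_pos _).ne'
  have ha := (gd.fa_pos ht).ne'
  have hal := gd.hα.ne'
  have hN := gd.dimN_pos.ne'
  have e : T₂ β (gd.sOf t) = gd.U t ^ ((β + 2) / α) / (gd.V t * gd.xi t) := by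
    have := gd.hβ.ne'
    rw [T₂, sOf, xi, Real.rpow_def_of_pos hu]
    nth_rw 2 [← Real.exp_log hv]
    rw [← Real.exp_add, ← Real.exp_sub]
    congr 1
    field_simp
    ring
  have e2 : deriv gd.U t = -(gd.fa t * gd.U t) := by
    simp only [fa]; field_simp
  have e3 : deriv gd.V t = -(gd.fb t * gd.V t) := by
    simp only [fb]; field_simp
  rw [h1, e2, e3] at h3
  rw [e]
  simp only [Orbit.val, orb, psi]
  field_simp at h3 ⊢
  refine mul_left_cancel₀ hu.ne' ?_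
  linear_combination -h3

/-- The derivatives of the four coefficients along the parameter. -/
theorem hasDerivAt_coefs (gd : Ground α β) (m : ℝ) {Fg : ℝ → ℝ}
    (hF : DifferentiableAt ℝ Fg t) (ht : gd.t₁ < t) :
    HasDerivAt (fun u => ((gd.orb Fg u).val α β m).c₁)
        (gd.fa t * ((gd.orb Fg t).rate α β * ((gd.orb Fg t).val α β m).d₁)) t ∧
      HasDerivAt (fun u => ((gd.orb Fg u).val α β m).c₂)
        (gd.fa t * ((gd.orb Fg t).rate α β * ((gd.orb Fg t).val α β m).d₂)) t ∧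
      HasDerivAt (fun u => ((gd.orb Fg u).val α β m).l₁)
        (gd.fa t * ((gd.orb Fg t).rate α β * ((gd.orb Fg t).val α β m).e₁)) t ∧
      HasDerivAt (fun u => ((gd.orb Fg u).val α β m).l₂)
        (gd.fa t * ((gd.orb Fg t).rate α β * ((gd.orb Fg t).val α β m).e₂)) t := by
  set o := gd.orb Fg t with ho
  have hrate : o.rate α β ≠ 0 := by
    intro h
    have := gd.slope_neg Fg ht
    rw [← ho, h, mul_zero] at this
    exact lt_irrefl _ this
  have hden : o.den α β ≠ 0 := (gd.reg Fg ht).hden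
  have hψ := gd.hasDerivAt_psi Fg ht
  have hFψ : HasDerivAt Fg (gd.fa t * o.F₁) t := by
    refine hF.hasDerivAt.congr_deriv ?_
    simp only [ho, orb]
    rw [mul_div_cancel₀ _ (gd.fa_pos ht).ne']
  have hd : HasDerivAt (fun u => (gd.orb Fg u).den α β) (α * (gd.fa t * o.dψ α β)) t :=
    (hψ.const_mul α).const_add β
  have hG : HasDerivAt (fun u => (gd.orb Fg u).G α β) (gd.fa t * (o.dG α β * o.dψ α β)) t := by
    have h := (hψ.fun_mul ((hψ.const_mul α).const_sub (dimN α β + α))).fun_div hd hden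
    refine h.congr_deriv ?_
    simp only [Orbit.dG, ho, Orbit.den, orb] at hden ⊢
    field_simp
    ring
  have hK : HasDerivAt (fun u => (gd.orb Fg u).K α β)
      (-(dimN α β - 1) * (α * (gd.fa t * o.dψ α β)) / o.den α β ^ 2) t := by
    have h := (hasDerivAt_const t (dimN α β - 1)).fun_div hd hden
    refine h.congr_deriv ?_
    simp only [ho]
    ring
  have hl₂ : HasDerivAt (fun u => (gd.orb Fg u).l₂ α β)
      (gd.fa t * (o.dl₂ α β + 2 / α * o.l₂ α β)) t := by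
    have hX := gd.hasDerivAt_X Fg ht
    have hR := gd.hasDerivAt_R Fg ht
    have h := ((((hX.fun_sub (hR.const_mul α)).const_mul (dimN α β - 1)).fun_div hd hden)).fun_sub
      (hFψ.fun_mul hX)
    refine h.congr_deriv ?_
    simp only [Orbit.dl₂, Orbit.l₂, ← ho, show Fg t = o.F from rfl]
    field_simp
    ring
  obtain ⟨d, hda, hXd⟩ := gd.hasDerivAt_a₁ Fg ht
  have hl₁ : HasDerivAt (fun u => (gd.orb Fg u).l₁ α β)
      (gd.fa t * (o.dl₁ α β + 2 / α * o.l₁ α β)) t := by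
    have h := (((gd.hasDerivAt_X Fg ht).fun_mul (hda.fun_sub (hK.fun_mul hψ))).fun_sub
      (gd.hasDerivAt_R Fg ht)).fun_sub (hψ.fun_mul hl₂)
    refine h.congr_deriv ?_
    simp only [Orbit.dl₁, Orbit.l₁, ← ho, show gd.psi t = o.ψ from rfl,
      show gd.a₁ t = o.a from rfl] at hXd ⊢
    linear_combination hXd
  refine ⟨?_, hFψ.congr_deriv ?_, hl₁.congr_deriv ?_, hl₂.congr_deriv ?_⟩
  · have h := (((hψ.div_const 2).const_add (-1 : ℝ)).fun_add (hG.div_const 2)).fun_sub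
      (hFψ.fun_mul hψ)
    refine h.congr_deriv ?_
    simp only [Orbit.val, ← ho, mul_div_cancel₀ _ hrate]
    simp only [show Fg t = o.F from rfl]
    simp only [show gd.psi t = o.ψ from rfl]
    ring
  all_goals simp only [Orbit.val, mul_div_cancel₀ _ hrate]

theorem hasDerivAt_wE (gd : Ground α β) (m : ℝ) (Fg : ℝ → ℝ) (ht : gd.t₁ < t) :
    HasDerivAt (gd.wE m)
      (gd.wE m t * (gd.fa t * ((gd.orb Fg t).rate α β * ((gd.orb Fg t).val α β m).ep))) t := by
  obtain ⟨h1, -, -, h4, -⟩ := gd.hasDeriv ht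
  have hu := (gd.posU t ht).1.ne'
  have ha := gd.fa_pos ht
  have hψ : HasDerivAt gd.psi _ t := gd.hasDerivAt_psi Fg ht
  have hfb : HasDerivAt gd.fb (gd.fa t ^ 2 * (1 - gd.a₁ t) * gd.psi t +
      gd.fa t * (gd.fa t * (gd.orb Fg t).dψ α β)) t := by
    refine ((gd.hasDerivAt_fa ht).fun_mul hψ).congr_of_eventuallyEq ?_
    exact eventually_of_mem (isOpen_Ioi.mem_nhds ht) fun u hu => by
      simp only [psi]
      rw [mul_div_cancel₀ _ (gd.fa_pos hu).ne']
  have hA := gd.hasDerivAt_fa ht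
  have h := (((((h1.log hu).const_mul (1 - m / α)).exp).fun_mul h4).fun_mul
    ((hA.const_mul β).fun_add (hfb.const_mul α))).fun_div (hA.fun_pow 2) (pow_ne_zero 2 ha.ne')
  refine h.congr_deriv ?_
  have hrate : (gd.orb Fg t).rate α β ≠ 0 := fun h => by
    have := gd.slope_neg Fg ht
    rw [h, mul_zero] at this
    exact lt_irrefl _ this
  have hden : β + α * gd.psi t ≠ 0 := (gd.reg Fg ht).hden
  have e2 : deriv gd.U t / gd.U t = -gd.fa t := by simp only [fa]; ring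
  have e3 : deriv gd.V t = -(gd.fb t * gd.V t) := by
    simp only [fb]; field_simp [(gd.posV t ht).1.ne']
  have e5 : gd.fb t = gd.psi t * gd.fa t := by
    simp only [psi]; rw [div_mul_cancel₀ _ ha.ne']
  have hal := gd.hα.ne'
  have := ha.ne'
  simp only [Orbit.val, mul_div_cancel₀ _ hrate, wE]
  rw [e2, e3, e5]
  simp only [Orbit.dψ, Orbit.G, Orbit.den, orb]
  set w := Real.exp ((1 - m / α) * Real.log (gd.U t))
  field_simp
  ring

theorem strictAnti_sOf (gd : Ground α β) : StrictAntiOn gd.sOf (Ioi gd.t₁) := by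
  refine strictAntiOn_of_deriv_neg (convex_Ioi _) (fun t ht =>
    (gd.hasDerivAt_sOf (fun _ => 0) ht).continuousAt.continuousWithinAt) fun t ht => ?_
  rw [interior_Ioi] at ht
  rw [(gd.hasDerivAt_sOf (fun _ => 0) ht).deriv]
  exact gd.slope_neg _ ht

theorem tau_sOf (gd : Ground α β) (ht : gd.t₁ < t) : gd.tau (gd.sOf t) = t :=
  gd.strictAnti_sOf.injOn.leftInvOn_invFunOn ht

theorem contDiffOn_orb (gd : Ground α β) :
    ContDiffOn ℝ 2 gd.fa (Ioi gd.t₁) ∧ ContDiffOn ℝ 2 gd.fb (Ioi gd.t₁) ∧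
      ContDiffOn ℝ 2 gd.xi (Ioi gd.t₁) ∧ ContDiffOn ℝ 2 gd.psi (Ioi gd.t₁) ∧
      ContDiffOn ℝ 1 gd.a₁ (Ioi gd.t₁) := by
  have hU : ContDiffOn ℝ 2 gd.U (Ioi gd.t₁) := gd.smU.of_le (by norm_num)
  have hV : ContDiffOn ℝ 2 gd.V (Ioi gd.t₁) := gd.smV.of_le (by norm_num)
  have hUd : ContDiffOn ℝ 2 (deriv gd.U) (Ioi gd.t₁) :=
    gd.smU.deriv_of_isOpen isOpen_Ioi (by norm_num)
  have hVd : ContDiffOn ℝ 2 (deriv gd.V) (Ioi gd.t₁) :=
    gd.smV.deriv_of_isOpen isOpen_Ioi (by norm_num)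
  have hfa : ContDiffOn ℝ 2 gd.fa (Ioi gd.t₁) := hUd.neg.div hU fun t ht => (gd.posU t ht).1.ne'
  have hfb : ContDiffOn ℝ 2 gd.fb (Ioi gd.t₁) := hVd.neg.div hV fun t ht => (gd.posV t ht).1.ne'
  refine ⟨hfa, hfb, ((contDiffOn_const.mul (hU.log fun t ht => (gd.posU t ht).1.ne')).exp),
    hfb.div hfa fun t ht => (gd.fa_pos ht).ne', ?_⟩
  exact ((hUd.deriv_of_isOpen isOpen_Ioi (by norm_num)).div (hU.of_le (by norm_num))
    fun t ht => (gd.posU t ht).1.ne').div ((hfa.of_le (by norm_num)).pow 2)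
    fun t ht => pow_ne_zero 2 (gd.fa_pos ht).ne'

theorem hasStrictDerivAt_tau (gd : Ground α β) (ht : gd.t₁ < t) :
    HasStrictDerivAt gd.tau (gd.fa t * (gd.orb (fun _ => 0) t).rate α β)⁻¹ (gd.sOf t) := by
  have hn : Ioi gd.t₁ ∈ 𝓝 t := isOpen_Ioi.mem_nhds ht
  have hc : ContDiffAt ℝ 1 gd.sOf t :=
    ((((gd.smU.contDiffAt hn).of_le (by norm_num)).log (gd.posU t ht).1.ne').neg.div_const α).add
      (((((gd.smV.contDiffAt hn).of_le (by norm_num)).log (gd.posV t ht).1.ne')).div_const β)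
  have h := hc.hasStrictDerivAt' (gd.hasDerivAt_sOf (fun _ => 0) ht) one_ne_zero
  exact h.to_local_left_inverse (gd.slope_neg _ ht).ne
    (eventually_of_mem hn fun u hu => gd.tau_sOf hu)

theorem isOpen_range (gd : Ground α β) : IsOpen (gd.sOf '' Ioi gd.t₁) := by
  rw [isOpen_iff_mem_nhds]
  rintro _ ⟨t, ht, rfl⟩
  have hn : Ioi gd.t₁ ∈ 𝓝 t := isOpen_Ioi.mem_nhds ht
  have hc : ContDiffAt ℝ 1 gd.sOf t :=
    ((((gd.smU.contDiffAt hn).of_le (by norm_num)).log (gd.posU t ht).1.ne').neg.div_const α).add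
      (((((gd.smV.contDiffAt hn).of_le (by norm_num)).log (gd.posV t ht).1.ne')).div_const β)
  have h := hc.hasStrictDerivAt' (gd.hasDerivAt_sOf (fun _ => 0) ht) one_ne_zero
  rw [← h.map_nhds_eq (gd.slope_neg _ ht).ne]
  exact image_mem_map hn

theorem contDiffOn_tau (gd : Ground α β) : ContDiffOn ℝ 2 gd.tau (gd.sOf '' Ioi gd.t₁) := by
  set I := gd.sOf '' Ioi gd.t₁ with hI
  have hm : MapsTo gd.tau I (Ioi gd.t₁) := by
    rintro _ ⟨t, ht, rfl⟩
    rw [gd.tau_sOf ht]; exact ht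
  have hd : ∀ s ∈ I, HasDerivAt gd.tau
      (gd.fa (gd.tau s) * (gd.orb (fun _ => 0) (gd.tau s)).rate α β)⁻¹ s := by
    rintro _ ⟨t, ht, rfl⟩
    rw [gd.tau_sOf ht]
    exact (gd.hasStrictDerivAt_tau ht).hasDerivAt
  have hdiff : DifferentiableOn ℝ gd.tau I := fun s hs =>
    (hd s hs).differentiableAt.differentiableWithinAt
  obtain ⟨hfa, -, -, hpsi, -⟩ := gd.contDiffOn_orb
  have hs : ContDiffOn ℝ 2 (fun t => (gd.fa t * (gd.orb (fun _ => 0) t).rate α β)⁻¹)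
      (Ioi gd.t₁) :=
    (hfa.mul (contDiffOn_const.sub (hpsi.div_const β))).inv fun t ht => (gd.slope_neg (fun _ => 0) ht).ne
  have h1 : ContDiffOn ℝ 1 gd.tau I := by
    rw [show (1 : WithTop ℕ∞) = 0 + 1 by simp, contDiffOn_succ_iff_deriv_of_isOpen gd.isOpen_range]
    refine ⟨hdiff, by simp, ?_⟩
    exact ((hs.of_le (by simp)).comp (contDiffOn_zero.2 hdiff.continuousOn) hm).congr
      fun s hs => (hd s hs).deriv
  rw [show (2 : WithTop ℕ∞) = 1 + 1 by rfl, contDiffOn_succ_iff_deriv_of_isOpen gd.isOpen_range]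
  refine ⟨hdiff, by simp, ?_⟩
  exact ((hs.of_le (by norm_num)).comp h1 hm).congr fun s hs => (hd s hs).deriv

/-- The values of the calibration at `s(t)` are those of the orbit. -/
theorem valAt_eq (gd : Ground α β) (m : ℝ) {Fg : ℝ → ℝ}
    (hF : DifferentiableAt ℝ Fg t) (ht : gd.t₁ < t) :
    (gd.coef m Fg).valAt α β (gd.sOf t) = (gd.orb Fg t).val α β m := by
  have hτ := (gd.hasStrictDerivAt_tau ht).hasDerivAt
  have hne : gd.fa t * (gd.orb Fg t).rate α β ≠ 0 := (gd.slope_neg Fg ht).ne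
  have er : (gd.orb (fun _ => 0) t).rate α β = (gd.orb Fg t).rate α β := rfl
  rw [er] at hτ
  have hk : ∀ (G : ℝ → ℝ) (w : ℝ), HasDerivAt G (gd.fa t * ((gd.orb Fg t).rate α β * w)) t →
      deriv (fun s => G (gd.tau s)) (gd.sOf t) = w := by
    intro G w hG
    rw [← gd.tau_sOf ht] at hG
    have h := hG.comp (gd.sOf t) hτ
    rw [gd.tau_sOf ht] at h
    refine h.deriv.trans ?_
    rw [← mul_assoc, mul_comm _ w, mul_assoc, mul_inv_cancel₀ hne, mul_one]
  obtain ⟨k1, k2, k3, k4⟩ := gd.hasDerivAt_coefs m hF ht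
  have e1 := hk _ _ k1
  have e2 := hk _ _ k2
  have e3 := hk _ _ k3
  have e4 := hk _ _ k4
  have hE := hk (gd.wE m) (gd.wE m t * ((gd.orb Fg t).val α β m).ep)
    ((gd.hasDerivAt_wE m Fg ht).congr_deriv (by ring))
  have hw : gd.wE m t ≠ 0 := by
    have := gd.fa_pos ht; have := gd.fb_pos ht; have := (gd.posV t ht).1
    have := gd.hα; have := gd.hβ
    unfold wE; positivity
  have ep : (gd.coef m Fg).eps (gd.sOf t) = ((gd.orb Fg t).val α β m).ep := by
    show deriv (fun s => gd.wE m (gd.tau s)) (gd.sOf t) / gd.wE m (gd.tau (gd.sOf t)) = _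
    rw [hE, gd.tau_sOf ht, mul_div_cancel_left₀ _ hw]
  simp only [Coef.valAt, ep, ← gd.P₁_eq m Fg ht, ← gd.P₂_eq m Fg ht]
  simp only [coef, e1, e2, e3, e4, gd.tau_sOf ht]

/-- A ground state with uniformly good values excludes solutions up to the level of `t₀`. -/
theorem no_solution (gd : Ground α β) {n : ℕ} (hn : 5 ≤ n) (hnN : (n : ℝ) < dimN α β) {m : ℝ}
    (hm : 0 ≤ m) (hmn : (n : ℝ) < m + 4) {Fg : ℝ → ℝ} (hFg : ContDiffOn ℝ 1 Fg (Ioi gd.t₁))
    {t₀ : ℝ} (ht₀ : gd.t₁ < t₀) (htend : Tendsto gd.sOf atTop atBot) {a₀ M C : ℝ} (ha₀ : 0 < a₀)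
    (hgood : ∀ t ≥ t₀, ((gd.orb Fg t).val α β m).Good (dimN α β) α β m (gd.psi t)
      (gd.orb Fg t).X a₀ M)
    (hb : ∀ t ≥ t₀, |((gd.orb Fg t).val α β m).c₁| ≤ C ∧ |((gd.orb Fg t).val α β m).c₂| ≤ C ∧
      |((gd.orb Fg t).val α β m).l₁| ≤
        C * (((gd.orb Fg t).val α β m).P₁ + ((gd.orb Fg t).val α β m).P₂) ∧
      |((gd.orb Fg t).val α β m).l₂| ≤
        C * (((gd.orb Fg t).val α β m).P₁ + ((gd.orb Fg t).val α β m).P₂))
    (hgr : ∀ t ≥ t₀, gd.wE m t ^ (4 / (m + 4)) ≤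
      C * ((((gd.orb Fg t).val α β m).P₁ + ((gd.orb Fg t).val α β m).P₂) ^ 2) ^ (m / (m + 4))) :
    ¬ ∃ u v : EuclideanSpace ℝ (Fin n) → ℝ, Continuous u ∧ Continuous v ∧
      (∀ x, 0 < u x ∧ 0 < v x) ∧
      (∀ x ≠ 0, ContDiffAt ℝ 2 u x ∧ ContDiffAt ℝ 2 v x ∧
        -Δ u x = v x ^ ((α + 2) / β) ∧
        -Δ v x = u x ^ ((β + 2) / α)) ∧
      ∀ x ≠ 0, Real.log (v x) / β - Real.log (u x) / α ≤ gd.sOf t₀ := by
  set I := gd.sOf '' Ioi gd.t₁ with hI
  have hcov : ∀ s ≤ gd.sOf t₀, ∃ t ≥ t₀, gd.sOf t = s := by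
    intro s hs
    obtain ⟨T, hT1, hT2⟩ := ((htend.eventually_le_atBot s).and (eventually_ge_atTop t₀)).exists
    have hc : ContinuousOn gd.sOf (Icc t₀ T) := fun u hu =>
      (gd.hasDerivAt_sOf (fun _ => 0) (ht₀.trans_le hu.1)).continuousAt.continuousWithinAt
    obtain ⟨u, hu, he⟩ := intermediate_value_Icc' hT2 hc ⟨hT1, hs⟩
    exact ⟨u, hu.1, he⟩
  have hIS : Iic (gd.sOf t₀) ⊆ I := fun s hs => by
    obtain ⟨t, h, rfl⟩ := hcov s hs
    exact ⟨t, ht₀.trans_le h, rfl⟩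
  have hm' : MapsTo gd.tau I (Ioi gd.t₁) := by
    rintro _ ⟨t, ht, rfl⟩
    rw [gd.tau_sOf ht]; exact ht
  obtain ⟨hfa, hfb, hxi, hpsi, ha₁⟩ := gd.contDiffOn_orb
  have hτ := gd.contDiffOn_tau
  have hτ1 : ContDiffOn ℝ 1 gd.tau I := hτ.of_le (by norm_num)
  have hψ1 : ContDiffOn ℝ 1 gd.psi (Ioi gd.t₁) := hpsi.of_le (by norm_num)
  have hX : ContDiffOn ℝ 1 (fun t => (gd.orb Fg t).X) (Ioi gd.t₁) :=
    ((contDiffOn_const.mul contDiffOn_id).mul ((hfa.of_le (by norm_num)).pow 2)).div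
      (hxi.of_le (by norm_num)) fun t _ => (Real.exp_pos _).ne'
  have hR : ContDiffOn ℝ 1 (fun t => (gd.orb Fg t).R) (Ioi gd.t₁) :=
    (contDiffOn_const.mul (hfa.of_le (by norm_num))).div (hxi.of_le (by norm_num))
      fun t _ => (Real.exp_pos _).ne'
  have hF : ContDiffOn ℝ 1 Fg (Ioi gd.t₁) := hFg
  have hdenC : ContDiffOn ℝ 1 (fun t => (gd.orb Fg t).den α β) (Ioi gd.t₁) :=
    contDiffOn_const.add (contDiffOn_const.mul hψ1)
  have hden : ∀ t ∈ Ioi gd.t₁, (gd.orb Fg t).den α β ≠ 0 := fun t ht => (gd.reg Fg ht).hden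
  have hG : ContDiffOn ℝ 1 (fun t => (gd.orb Fg t).G α β) (Ioi gd.t₁) :=
    (hψ1.mul (contDiffOn_const.sub (contDiffOn_const.mul hψ1))).div hdenC hden
  have hl₂ : ContDiffOn ℝ 1 (fun t => (gd.orb Fg t).l₂ α β) (Ioi gd.t₁) :=
    ((contDiffOn_const.mul (hX.sub (contDiffOn_const.mul hR))).div hdenC hden).sub (hF.mul hX)
  have hl₁ : ContDiffOn ℝ 1 (fun t => (gd.orb Fg t).l₁ α β) (Ioi gd.t₁) :=
    ((hX.mul (ha₁.sub (((contDiffOn_const.div hdenC hden)).mul hψ1))).sub hR).sub (hψ1.mul hl₂)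
  have hc₁ : ContDiffOn ℝ 1 (fun t => ((gd.orb Fg t).val α β m).c₁) (Ioi gd.t₁) :=
    ((contDiffOn_const.add (hψ1.div_const 2)).add (hG.div_const 2)).sub (hF.mul hψ1)
  have hE : ContDiffOn ℝ 2 (gd.wE m) (Ioi gd.t₁) :=
    ((((contDiffOn_const.mul ((gd.smU.of_le (by norm_num)).log fun t ht =>
      (gd.posU t ht).1.ne')).exp).mul (gd.smV.of_le (by norm_num))).mul
      ((contDiffOn_const.mul hfa).add (contDiffOn_const.mul hfb))).div (hfa.pow 2)
      fun t ht => pow_ne_zero 2 (gd.fa_pos ht).ne'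
  have hval : ∀ t ≥ t₀, (gd.coef m Fg).valAt α β (gd.sOf t) = (gd.orb Fg t).val α β m :=
    fun t ht => gd.valAt_eq m ((hFg.contDiffAt (isOpen_Ioi.mem_nhds (ht₀.trans_le ht))).differentiableAt (by norm_num)) (ht₀.trans_le ht)
  refine no_solution_of_coercive hn gd.hα gd.hβ hm hmn (K := gd.coef m Fg) gd.isOpen_range hIS
    (hE.comp hτ hm') ?_ (hc₁.comp hτ1 hm') (hF.comp hτ1 hm') (hl₁.comp hτ1 hm')
    (hl₂.comp hτ1 hm') ?_ (C := C) (fun s hs => ?_) fun s hs => ?_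
  · rintro _ ⟨t, ht, rfl⟩
    show 0 < gd.wE m (gd.tau (gd.sOf t))
    rw [gd.tau_sOf ht]
    have := gd.fa_pos ht; have := gd.fb_pos ht; have := (gd.posV t ht).1
    have := gd.hα; have := gd.hβ
    unfold wE; positivity
  · refine coercive_of_good (N := dimN α β) (M := M) (ψ := fun s => gd.psi (gd.tau s))
      (X₀ := fun s => (gd.orb Fg (gd.tau s)).X) (by omega) ha₀ hnN ?_ fun s hs => ?_
    · have := gd.hα; have := gd.hβ; unfold dimN; linarith
    obtain ⟨t, h, rfl⟩ := hcov s hs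
    simp only [gd.tau_sOf (ht₀.trans_le h)]
    rw [hval t h]
    exact hgood t h
  · obtain ⟨t, h, rfl⟩ := hcov s hs
    have h' := ht₀.trans_le h
    have := hb t h
    rw [gd.P₁_eq m Fg h', gd.P₂_eq m Fg h'] at this
    simpa only [coef, gd.tau_sOf h'] using this
  · obtain ⟨t, h, rfl⟩ := hcov s hs
    have h' := ht₀.trans_le h
    have := hgr t h
    rw [gd.P₁_eq m Fg h', gd.P₂_eq m Fg h'] at this
    simpa only [coef, gd.tau_sOf h'] using this

end Ground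

end Vale.Agent.P100.Cal
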