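import Vale.Agent.P100.Cal.Absorb

/-!
P100, calibrated identity: completion of the squares. At given values of the coefficients the
quartic is a square of a matrix less the square of its trace, plus a quadratic expression in
`X = |a|²`, `Z = a · b`, `Y = |b|²`. When that expression is critical at `X₀`, `b = ψ a`, signs of
four numbers give coercivity, with a constant that depends only on bounds for them.
-/

namespace Vale.Agent.P100.Cal

open Vale.Agent.P100.Sys (ip fr qf ip_self_nonneg)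

variable {n : ℕ}

/-- Values of the coefficient functions and of their derivatives. -/
structure Val where
  ep : ℝ
  c₁ : ℝ
  c₂ : ℝ
  l₁ : ℝ
  l₂ : ℝ
  d₁ : ℝ
  d₂ : ℝ
  e₁ : ℝ
  e₂ : ℝ
  P₁ : ℝ
  P₂ : ℝ

/-- The values at `s`. -/
noncomputable def Coef.valAt (K : Coef) (α β s : ℝ) : Val :=
  ⟨K.eps s, K.c₁ s, K.c₂ s, K.l₁ s, K.l₂ s, deriv K.c₁ s, deriv K.c₂ s, deriv K.l₁ s,
    deriv K.l₂ s, T₁ α s, T₂ β s⟩

namespace Val

variable (v : Val) (N α β m ψ X₀ : ℝ)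

/-- Coefficient of `H a · a`. -/
noncomputable def g₁ : ℝ := 2 - m / α + v.ep / α + 2 * v.c₁

/-- Coefficient of `H a · b`. -/
noncomputable def g₂ : ℝ := 2 * v.c₂ - v.ep / β

noncomputable def rXX : ℝ :=
  (1 + v.g₁ α m / 2) ^ 2 / N - v.g₁ α m ^ 2 / 4 + v.c₁ + v.d₁ / α + (-(m / α) + v.ep / α) * v.c₁

noncomputable def rXY : ℝ := -(v.g₂ β ^ 2) / 8 + v.c₂ - v.d₂ / β - v.ep * v.c₂ / β

noncomputable def rXZ : ℝ :=
  (1 + v.g₁ α m / 2) * v.g₂ β / N - v.g₁ α m * v.g₂ β / 2 - v.d₁ / β + v.d₂ / α -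
    v.ep * v.c₁ / β + (-(m / α) + v.ep / α) * v.c₂

noncomputable def rZZ : ℝ := v.g₂ β ^ 2 / (4 * N) - v.g₂ β ^ 2 / 8

noncomputable def rX : ℝ :=
  2 * v.P₁ * (1 + v.g₁ α m / 2) / N + v.P₁ + v.c₁ * v.P₁ + v.c₂ * v.P₂ + v.e₁ / α +
    v.l₁ * (1 - 2 / α) + (-(m / α) + v.ep / α) * v.l₁

noncomputable def rY : ℝ := v.l₂ - v.e₂ / β - v.ep * v.l₂ / β

noncomputable def rZ : ℝ :=
  v.g₂ β * v.P₁ / N - (α + 2) / β * v.P₁ - v.e₁ / β + v.e₂ / α - 2 * v.l₂ / α -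
    v.ep * v.l₁ / β + (-(m / α) + v.ep / α) * v.l₂

noncomputable def r0 : ℝ := v.P₁ ^ 2 / N + v.l₁ * v.P₁ + v.l₂ * v.P₂

/-- The coefficient of `(b - ψ a)²` along `a`. -/
noncomputable def A₂ : ℝ := v.rXY β + v.rZZ N β

/-- The coefficient of `(X - X₀)²`. -/
noncomputable def Cq : ℝ := v.rXX N α m + ψ * v.rXZ N α β m + ψ ^ 2 * (v.rXY β + v.rZZ N β)

/-- The mixed coefficient. -/
noncomputable def Bq : ℝ := v.rXZ N α β m + 2 * ψ * (v.rXY β + v.rZZ N β)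

/-- The trace gain per unit of `X`. -/
noncomputable def k₁ : ℝ := 1 + (v.g₁ α m + v.g₂ β * ψ) / 2

/-- The quartic at given values. -/
noncomputable def jet (H : Fin n → Fin n → ℝ) (a b : Fin n → ℝ) : ℝ :=
  fr H + (2 - m / α + v.ep / α) * qf H a - v.ep / β * bil H a b +
    v.P₁ * (ip a a - (α + 2) / β * ip a b) +
    v.c₁ * (2 * qf H a + ip a a * (ip a a + v.P₁)) +
    v.c₂ * (2 * bil H a b + ip a a * (ip b b + v.P₂)) +
    ip a a * (v.d₁ * (ip a a / α - ip a b / β) + v.d₂ * (ip a b / α - ip b b / β)) +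
    (v.e₁ * (ip a a / α - ip a b / β) + v.e₂ * (ip a b / α - ip b b / β)) +
    v.l₁ * (ip a a + v.P₁ - 2 * ip a a / α) + v.l₂ * (ip b b + v.P₂ - 2 * ip a b / α) +
    (-(m / α) * ip a a + v.ep * (ip a a / α - ip a b / β)) * (v.c₁ * ip a a + v.l₁) +
    (-(m / α) * ip a b + v.ep * (ip a b / α - ip b b / β)) * (v.c₂ * ip a a + v.l₂)

/-- The expression is critical at `X₀`, `b = ψ a`, with value zero. -/
structure Critical : Prop where
  dX : v.rX N α m + ψ * v.rZ N α β m + ψ ^ 2 * v.rY β = -2 * v.Cq N α β m ψ * X₀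
  zero : v.r0 N = v.Cq N α β m ψ * X₀ ^ 2
  dψ : v.rZ N α β m + 2 * ψ * v.rY β = -(v.Bq N α β m ψ) * X₀

/-- The shifted matrix. -/
noncomputable def shift (H : Fin n → Fin n → ℝ) (a b : Fin n → ℝ) (i j : Fin n) : ℝ :=
  H i j + (a i * (v.g₁ α m * a j + v.g₂ β * b j) + a j * (v.g₁ α m * a i + v.g₂ β * b i)) / 4

theorem fr_shift (H : Fin n → Fin n → ℝ) (hsym : ∀ i j, H i j = H j i) (a b : Fin n → ℝ) :
    fr (v.shift α β m H a b) = fr H + v.g₁ α m * qf H a + v.g₂ β * bil H a b +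
      (ip a a * (v.g₁ α m ^ 2 * ip a a + 2 * v.g₁ α m * v.g₂ β * ip a b + v.g₂ β ^ 2 * ip b b) +
        (v.g₁ α m * ip a a + v.g₂ β * ip a b) ^ 2) / 8 := by
  set c := v.g₁ α m
  set d := v.g₂ β
  have h1 : ∀ i j, v.shift α β m H a b i j ^ 2 = H i j ^ 2 +
      (c * (H i j * a j * a i) + d / 2 * (H i j * a j * b i) + d / 2 * (H j i * a i * b j)) +
      ((a i * a i) * ((c * a j + d * b j) * (c * a j + d * b j)) +
        (a j * a j) * ((c * a i + d * b i) * (c * a i + d * b i))) / 16 +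
      ((a i * (c * a i + d * b i)) * (a j * (c * a j + d * b j))) / 8 := fun i j => by
    simp only [Val.shift]
    rw [hsym j i]
    ring
  have eq : ∑ i, ∑ j, H i j * a j * a i = qf H a := by
    simp only [qf]
    exact Finset.sum_congr rfl fun i _ => Finset.sum_congr rfl fun j _ => by ring
  have eb : ∑ i, ∑ j, H j i * a i * b j = bil H a b := by
    rw [Finset.sum_comm]; rfl
  have ew : ip (fun i => c * a i + d * b i) (fun i => c * a i + d * b i) =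
      c ^ 2 * ip a a + 2 * c * d * ip a b + d ^ 2 * ip b b := by
    simp only [ip, Finset.mul_sum, ← Finset.sum_add_distrib]
    exact Finset.sum_congr rfl fun i _ => by ring
  have ea : ip a (fun i => c * a i + d * b i) = c * ip a a + d * ip a b := by
    simp only [ip, Finset.mul_sum, ← Finset.sum_add_distrib]
    exact Finset.sum_congr rfl fun i _ => by ring
  have e0 : fr (v.shift α β m H a b) = fr H +
      (c * qf H a + d / 2 * bil H a b + d / 2 * bil H a b) +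
      (ip a a * ip (fun i => c * a i + d * b i) (fun i => c * a i + d * b i) +
        ip a a * ip (fun i => c * a i + d * b i) (fun i => c * a i + d * b i)) / 16 +
      ip a (fun i => c * a i + d * b i) * ip a (fun i => c * a i + d * b i) / 8 := by
    simp only [fr, h1, Finset.sum_add_distrib, ← Finset.mul_sum, ← Finset.sum_div]
    rw [eq, eb, show (∑ i, ∑ j, H i j * a j * b i) = bil H a b from rfl]
    simp only [ip, ← Finset.sum_mul, ← Finset.mul_sum]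
  rw [e0, ew, ea]
  ring

theorem trace_shift {H : Fin n → Fin n → ℝ} {a : Fin n → ℝ} (b : Fin n → ℝ)
    (htr : ∑ i, H i i = ip a a + v.P₁) :
    ∑ i, v.shift α β m H a b i i =
      ip a a + v.P₁ + (v.g₁ α m * ip a a + v.g₂ β * ip a b) / 2 := by
  simp only [Val.shift, Finset.sum_add_distrib, htr, ← Finset.sum_div]
  simp only [ip, mul_add, Finset.sum_add_distrib, Finset.mul_sum]
  simp only [← mul_assoc, mul_comm (a _) (v.g₁ α m), mul_comm (a _) (v.g₂ β)]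
  ring

/-- The completed square. -/
theorem jet_eq (h : v.Critical N α β m ψ X₀) (H : Fin n → Fin n → ℝ) (hsym : ∀ i j, H i j = H j i)
    (a b : Fin n → ℝ) (htr : ∑ i, H i i = ip a a + v.P₁) :
    v.jet α β m H a b = fr (v.shift α β m H a b) - (∑ i, v.shift α β m H a b i i) ^ 2 / N +
      (v.Cq N α β m ψ * (ip a a - X₀) ^ 2 +
        v.Bq N α β m ψ * (ip a a - X₀) * (ip a b - ψ * ip a a) +
        v.A₂ N β * (ip a b - ψ * ip a a) ^ 2) +
      v.rXY β * (ip a a * (ip b b - 2 * ψ * ip a b + ψ ^ 2 * ip a a) -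
        (ip a b - ψ * ip a a) ^ 2) +
      v.rY β * (ip b b - 2 * ψ * ip a b + ψ ^ 2 * ip a a) := by
  obtain ⟨h1, h2, h3⟩ := h
  rw [fr_shift v α β m H hsym, trace_shift v α β m b htr]
  simp only [Val.jet, Val.g₁, Val.g₂, Val.rXX, Val.rXY, Val.rXZ, Val.rZZ, Val.rX, Val.rY, Val.rZ,
    Val.r0, Val.A₂, Val.Cq, Val.Bq] at h1 h2 h3 ⊢
  linear_combination ip a a * h1 + h2 + (ip a b - ψ * ip a a) * h3

/-- Lower bounds for the four numbers, upper bounds for the rest. -/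
structure Good (a₀ M : ℝ) : Prop where
  crit : v.Critical N α β m ψ X₀
  pos₁ : 0 ≤ v.P₁
  pos₂ : 0 ≤ v.P₂
  bdg₁ : |v.g₁ α m| ≤ M
  bdg₂ : |v.g₂ β| ≤ M
  bdψ : |ψ| ≤ M
  bdA : v.A₂ N β ≤ M
  bdC : v.Cq N α β m ψ ≤ M
  hk : a₀ ≤ v.k₁ α β m ψ
  hA : a₀ ≤ v.A₂ N β
  hC : 0 ≤ v.Cq N α β m ψ
  hκ : v.Bq N α β m ψ ^ 2 ≤ 4 * (v.A₂ N β - a₀) * v.Cq N α β m ψ
  hC₀ : a₀ * v.P₂ ^ 2 ≤ v.Cq N α β m ψ * X₀ ^ 2 + v.P₁ ^ 2
  hY : a₀ * (v.P₁ + v.P₂) ≤ v.rY β

theorem fr_le_shift {M : ℝ} (hg1 : |v.g₁ α m| ≤ M) (hg2 : |v.g₂ β| ≤ M)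
    (H : Fin n → Fin n → ℝ) (a b : Fin n → ℝ) :
    fr H ≤ 2 * fr (v.shift α β m H a b) +
      (M ^ 2 * ip a a ^ 2 + M ^ 2 * (ip a a * ip b b)) := by
  set c := v.g₁ α m
  set d := v.g₂ β
  set w : Fin n → ℝ := fun i => c * a i + d * b i with hw
  have h1 : ∀ i j, H i j ^ 2 ≤ 2 * v.shift α β m H a b i j ^ 2 +
      ((a i * a i) * (w j * w j) + (a j * a j) * (w i * w i)) / 4 := fun i j => by
    have e : v.shift α β m H a b i j = H i j + (a i * w j + a j * w i) / 4 := rfl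
    rw [e]
    linarith [sq_nonneg (H i j + (a i * w j + a j * w i) / 2),
      sq_nonneg (a i * w j - a j * w i)]
  have h2 : fr H ≤ 2 * fr (v.shift α β m H a b) + ip a a * ip w w / 2 := by
    refine (Finset.sum_le_sum fun i _ => Finset.sum_le_sum fun j _ => h1 i j).trans_eq ?_
    simp only [fr, Finset.sum_add_distrib, ← Finset.sum_div, ← Finset.mul_sum, ip,
      ← Finset.sum_mul]
    ring
  have hc : c ^ 2 ≤ M ^ 2 := by rw [← sq_abs]; exact pow_le_pow_left₀ (abs_nonneg _) hg1 2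
  have hd : d ^ 2 ≤ M ^ 2 := by rw [← sq_abs]; exact pow_le_pow_left₀ (abs_nonneg _) hg2 2
  have h3 : ip w w ≤ 2 * (M ^ 2 * ip a a) + 2 * (M ^ 2 * ip b b) := by
    simp only [hw, ip, Finset.mul_sum, ← Finset.sum_add_distrib]
    refine Finset.sum_le_sum fun i _ => ?_
    have := mul_le_mul_of_nonneg_right hc (sq_nonneg (a i))
    have := mul_le_mul_of_nonneg_right hd (sq_nonneg (b i))
    linarith [sq_nonneg (c * a i - d * b i)]
  have := mul_le_mul_of_nonneg_left h3 (ip_self_nonneg a)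
  linarith

theorem norm_le_diff {M : ℝ} (hψ : |ψ| ≤ M) (a b : Fin n → ℝ) :
    0 ≤ ip b b - 2 * ψ * ip a b + ψ ^ 2 * ip a a ∧
      ip b b ≤ 2 * (ip b b - 2 * ψ * ip a b + ψ ^ 2 * ip a a) + 2 * M ^ 2 * ip a a := by
  have e : ∀ t : ℝ, ip (fun i => b i - t * a i) (fun i => b i - t * a i) =
      ip b b - 2 * t * ip a b + t ^ 2 * ip a a := fun t => by
    simp only [ip, Finset.mul_sum, ← Finset.sum_sub_distrib, ← Finset.sum_add_distrib]
    exact Finset.sum_congr rfl fun i _ => by ring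
  have h1 := ip_self_nonneg fun i => b i - ψ * a i
  have h2 := ip_self_nonneg fun i => b i - 2 * ψ * a i
  rw [e] at h1 h2
  have hψ2 : ψ ^ 2 * ip a a ≤ M ^ 2 * ip a a := by
    refine mul_le_mul_of_nonneg_right ?_ (ip_self_nonneg a)
    rw [← sq_abs]; exact pow_le_pow_left₀ (abs_nonneg _) hψ 2
  exact ⟨h1, by linarith⟩

theorem form_bound {A B C a₀ M u D : ℝ} (ha : 0 < a₀) (hA : a₀ ≤ A) (hAM : A ≤ M) (hC : 0 ≤ C)
    (hκ : B ^ 2 ≤ 4 * (A - a₀) * C) :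
    a₀ * D ^ 2 ≤ C * u ^ 2 + B * u * D + A * D ^ 2 ∧
      a₀ * (C * u ^ 2) ≤ M * (C * u ^ 2 + B * u * D + A * D ^ 2) := by
  set F := C * u ^ 2 + B * u * D + A * D ^ 2 with hF
  have hF1 : a₀ * D ^ 2 ≤ F := by
    rcases eq_or_lt_of_le hC with h0 | hpos
    · have hB : B = 0 := by
        rw [← h0, mul_zero] at hκ
        exact pow_eq_zero_iff two_ne_zero |>.1 (le_antisymm hκ (sq_nonneg _))
      rw [hF, ← h0, hB]
      linarith [mul_le_mul_of_nonneg_right hA (sq_nonneg D)]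
    · have h1 : 0 ≤ C * (F - a₀ * D ^ 2) := by
        rw [hF]
        linarith [sq_nonneg (C * u + B * D / 2), mul_nonneg (sq_nonneg D) (sub_nonneg.2 hκ)]
      linarith [(mul_nonneg_iff_of_pos_left hpos).1 h1]
  refine ⟨hF1, ?_⟩
  have h1 : 0 ≤ A * F - a₀ * (C * u ^ 2) := by
    rw [hF]
    linarith [sq_nonneg (A * D + B * u / 2), mul_nonneg (sq_nonneg u) (sub_nonneg.2 hκ)]
  linarith [mul_le_mul_of_nonneg_right hAM ((mul_nonneg ha.le (sq_nonneg D)).trans hF1)]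

/-- The scalar part of the coercivity. -/
theorem scalar_bound {a₀ M θ nn fH G tG X Y Yd D R P₁ P₂ C X₀ k g : ℝ} (ha : 0 < a₀) (hθ : 0 < θ)
    (hnn : 0 ≤ nn) (hM : 0 ≤ M) (hX : 0 ≤ X) (hP₁ : 0 ≤ P₁) (hP₂ : 0 ≤ P₂) (hYd : 0 ≤ Yd)
    (hG : 0 ≤ G) (hC : 0 ≤ C) (hCM : C ≤ M) (hk : a₀ ≤ k) (hg : g ^ 2 ≤ M ^ 2)
    (hD : D ^ 2 ≤ X * Yd) (htG : tG = k * X + P₁ + g * D / 2) (htr : tG ^ 2 ≤ nn * G)
    (hY : Y ≤ 2 * Yd + 2 * M ^ 2 * X) (hH : fH ≤ 2 * G + (M ^ 2 * X ^ 2 + M ^ 2 * (X * Y)))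
    (hC₀ : a₀ * P₂ ^ 2 ≤ C * X₀ ^ 2 + P₁ ^ 2) (r1 : a₀ * (X * Yd) ≤ R)
    (r2 : a₀ * ((P₁ + P₂) * Yd) ≤ R) (r3 : a₀ * (C * (X - X₀) ^ 2) ≤ M * R) :
    let k0 := 1 / θ + 1 / a₀
    let k1 := (2 * nn + M ^ 2) * k0
    let kX := k1 / a₀ ^ 2
    let k2 := (2 * (M / a₀) + 2 * M * kX + k1) / a₀
    let kT := 2 * k1 + 2 * k2
    let kXY := 2 * k0 + 2 * M ^ 2 * kX
    let kTY := 2 * k0 + M ^ 2 * (kT + kX)
    fH + X ^ 2 + (P₁ + P₂) ^ 2 + (X + P₁ + P₂) * Y ≤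
      (2 * k0 + M ^ 2 * kX + M ^ 2 * kXY + kX + kT + kXY + kTY) * (θ * G + R) := by
  intro k0 k1 kX k2 kT kXY kTY
  set Φ := θ * G + R with hΦ
  have hR : 0 ≤ R := (mul_nonneg ha.le (mul_nonneg hX hYd)).trans r1
  have hΦ0 : 0 ≤ Φ := by positivity
  have hθG : 0 ≤ θ * G := mul_nonneg hθ.le hG
  have hk0 : ∀ z, θ * z ≤ Φ ∨ a₀ * z ≤ Φ → z ≤ k0 * Φ := by
    intro z hz
    have i1 : 0 ≤ 1 / θ * Φ := by positivity
    have i2 : 0 ≤ 1 / a₀ * Φ := by positivity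
    simp only [k0, add_mul]
    rcases hz with h | h
    · have : z ≤ 1 / θ * Φ := by rw [div_mul_eq_mul_div, one_mul, le_div_iff₀ hθ]; linarith
      linarith
    · have : z ≤ 1 / a₀ * Φ := by rw [div_mul_eq_mul_div, one_mul, le_div_iff₀ ha]; linarith
      linarith
  have uG : G ≤ k0 * Φ := hk0 _ (Or.inl (by rw [hΦ]; linarith))
  have uXY : X * Yd ≤ k0 * Φ := hk0 _ (Or.inr (by rw [hΦ]; linarith))
  have uTY : (P₁ + P₂) * Yd ≤ k0 * Φ := hk0 _ (Or.inr (by rw [hΦ]; linarith))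
  have u1 : (a₀ * X + P₁) ^ 2 ≤ k1 * Φ := by
    have h1 := pow_le_pow_left₀ (add_nonneg (mul_nonneg ha.le hX) hP₁)
      (add_le_add (mul_le_mul_of_nonneg_right hk hX) le_rfl : a₀ * X + P₁ ≤ k * X + P₁) 2
    have h2 : (g * D) ^ 2 ≤ M ^ 2 * (k0 * Φ) := by
      rw [mul_pow]
      exact mul_le_mul hg (hD.trans uXY) (sq_nonneg _) (sq_nonneg _)
    have h3 : tG ^ 2 ≤ nn * (k0 * Φ) := htr.trans (mul_le_mul_of_nonneg_left uG hnn)
    rw [htG] at h3
    simp only [k1]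
    linarith [sq_nonneg (k * X + P₁ + g * D), sq_nonneg (g * D)]
  have uX : X ^ 2 ≤ kX * Φ := by
    have h := (pow_le_pow_left₀ (mul_nonneg ha.le hX) (le_add_of_nonneg_right hP₁) 2).trans u1
    simp only [kX]
    rw [div_mul_eq_mul_div, le_div_iff₀ (by positivity)]
    linarith
  have uP₁ : P₁ ^ 2 ≤ k1 * Φ :=
    (pow_le_pow_left₀ hP₁ (le_add_of_nonneg_left (mul_nonneg ha.le hX)) 2).trans u1
  have uP₂ : P₂ ^ 2 ≤ k2 * Φ := by
    have h1 : C * (X - X₀) ^ 2 ≤ M / a₀ * Φ := by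
      rw [div_mul_eq_mul_div, le_div_iff₀ ha]
      have := mul_le_mul_of_nonneg_left (show R ≤ Φ by rw [hΦ]; linarith) hM
      linarith
    have h2 : C * X ^ 2 ≤ M * (kX * Φ) := mul_le_mul hCM uX (sq_nonneg X) hM
    simp only [k2]
    rw [div_mul_eq_mul_div, le_div_iff₀ ha]
    linarith [mul_nonneg hC (sq_nonneg (2 * X - X₀))]
  have uT : (P₁ + P₂) ^ 2 ≤ kT * Φ := by
    simp only [kT]
    linarith [sq_nonneg (P₁ - P₂)]
  have uXY' : X * Y ≤ kXY * Φ := by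
    have h1 := mul_le_mul_of_nonneg_left hY hX
    have h2 := mul_le_mul_of_nonneg_left uX (sq_nonneg M)
    simp only [kXY]
    linarith
  have uTY' : (P₁ + P₂) * Y ≤ kTY * Φ := by
    have h1 := mul_le_mul_of_nonneg_left hY (add_nonneg hP₁ hP₂)
    have h2 : M ^ 2 * (2 * ((P₁ + P₂) * X)) ≤ M ^ 2 * (kT * Φ + kX * Φ) := by
      refine mul_le_mul_of_nonneg_left ?_ (sq_nonneg M)
      linarith [sq_nonneg (P₁ + P₂ - X)]
    simp only [kTY]
    linarith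
  have h3 := mul_le_mul_of_nonneg_left uX (sq_nonneg M)
  have h4 := mul_le_mul_of_nonneg_left uXY' (sq_nonneg M)
  linarith

/-- Uniform coercivity. -/
theorem exists_coercive {a₀ M : ℝ} (ha : 0 < a₀) (hn : 0 < n) (hnN : (n : ℝ) < N) (hN : 2 ≤ N) :
    ∃ γ > 0, ∀ (v : Val) (ψ X₀ : ℝ), v.Good N α β m ψ X₀ a₀ M →
      ∀ (H : Fin n → Fin n → ℝ) (a b : Fin n → ℝ), (∀ i j, H i j = H j i) →
        ∑ i, H i i = ip a a + v.P₁ →
        γ * (fr H + ip a a ^ 2 + (v.P₁ + v.P₂) ^ 2 + (ip a a + v.P₁ + v.P₂) * ip b b) ≤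
          v.jet α β m H a b := by
  set θ : ℝ := 1 - n / N with hθdef
  have hN0 : 0 < N := by linarith
  have hn0 : (0 : ℝ) < n := by exact_mod_cast hn
  have hθ : 0 < θ := by rw [hθdef, sub_pos, div_lt_one hN0]; exact hnN
  set M' := max M 0 with hM'
  set k0 : ℝ := 1 / θ + 1 / a₀
  set k1 : ℝ := (2 * n + M' ^ 2) * k0
  set kX : ℝ := k1 / a₀ ^ 2
  set k2 : ℝ := (2 * (M' / a₀) + 2 * M' * kX + k1) / a₀
  set kT : ℝ := 2 * k1 + 2 * k2
  set kXY : ℝ := 2 * k0 + 2 * M' ^ 2 * kX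
  set kTY : ℝ := 2 * k0 + M' ^ 2 * (kT + kX)
  set K : ℝ := 2 * k0 + M' ^ 2 * kX + M' ^ 2 * kXY + kX + kT + kXY + kTY with hK
  refine ⟨1 / (|K| + 1), by positivity, ?_⟩
  intro v ψ X₀ hv H a b hsym htr
  obtain ⟨hcr, hp1, hp2, hg1, hg2, hψ, hAM, hCM, hk, hA, hC, hκ, hC₀, hrY⟩ := hv
  have hMM : M ≤ M' := le_max_left _ _
  have hM0 : 0 ≤ M' := le_max_right _ _
  obtain ⟨hYd0, hY⟩ := norm_le_diff ψ (hψ.trans hMM) a b
  obtain ⟨hF1, hF2⟩ := form_bound (u := ip a a - X₀) (D := ip a b - ψ * ip a a) ha hA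
    (hAM.trans hMM) hC hκ
  have hD2 : (ip a b - ψ * ip a a) ^ 2 ≤
      ip a a * (ip b b - 2 * ψ * ip a b + ψ ^ 2 * ip a a) := by linarith [ip_sq_le a b]
  have hXY : a₀ ≤ v.rXY β := by
    have h : v.rZZ N β ≤ 0 := by
      simp only [Val.rZZ, sub_nonpos]
      exact div_le_div_of_nonneg_left (sq_nonneg _) (by norm_num) (by linarith)
    rw [Val.A₂] at hA
    linarith
  set X := ip a a
  set Z := ip a b
  set Yd := ip b b - 2 * ψ * Z + ψ ^ 2 * X with hYd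
  set G := fr (v.shift α β m H a b) with hG
  have hG0 : 0 ≤ G := Finset.sum_nonneg fun i _ => Finset.sum_nonneg fun j _ => sq_nonneg _
  have hX0 : 0 ≤ X := ip_self_nonneg a
  have htr2 : (∑ i, v.shift α β m H a b i i) ^ 2 ≤ n * G := by
    refine (sq_sum_le_card_mul_sum_sq (s := (Finset.univ : Finset (Fin n)))).trans ?_
    simp only [Finset.card_univ, Fintype.card_fin]
    exact mul_le_mul_of_nonneg_left (Finset.sum_le_sum fun i _ =>
      Finset.single_le_sum (f := fun j => v.shift α β m H a b i j ^ 2) (fun j _ => sq_nonneg _)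
        (Finset.mem_univ i)) hn0.le
  set R := v.Cq N α β m ψ * (X - X₀) ^ 2 + v.Bq N α β m ψ * (X - X₀) * (Z - ψ * X) +
      v.A₂ N β * (Z - ψ * X) ^ 2 + v.rXY β * (X * Yd - (Z - ψ * X) ^ 2) + v.rY β * Yd with hR
  have a1 := mul_le_mul_of_nonneg_right hXY (sub_nonneg.2 hD2)
  have a2 := mul_le_mul_of_nonneg_right hrY hYd0
  have a3 : 0 ≤ a₀ * (v.P₁ + v.P₂) * Yd :=
    mul_nonneg (mul_nonneg ha.le (add_nonneg hp1 hp2)) hYd0
  have a4 : 0 ≤ a₀ * (Z - ψ * X) ^ 2 := by positivity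
  have a5 : 0 ≤ a₀ * (X * Yd - (Z - ψ * X) ^ 2) := mul_nonneg ha.le (sub_nonneg.2 hD2)
  have a6 := mul_nonneg hM0 (show 0 ≤ v.rXY β * (X * Yd - (Z - ψ * X) ^ 2) + v.rY β * Yd by
    linarith)
  have key := scalar_bound (θ := θ) (nn := (n : ℝ)) (G := G) (R := R) (Yd := Yd)
    (D := Z - ψ * X) (X₀ := X₀) (tG := ∑ i, v.shift α β m H a b i i) (g := v.g₂ β) ha hθ hn0.le hM0 hX0 hp1 hp2
    hYd0 hG0 hC (hCM.trans hMM) hk
    (by rw [← sq_abs]; exact pow_le_pow_left₀ (abs_nonneg _) (hg2.trans hMM) 2) hD2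
    (by rw [trace_shift v α β m b htr, Val.k₁]; ring) htr2 hY
    (fr_le_shift v α β m (hg1.trans hMM) (hg2.trans hMM) H a b) hC₀
    (by rw [hR]; linarith) (by rw [hR]; linarith) (by rw [hR]; linarith)
  simp only at key
  have hlo : θ * G + R ≤ v.jet α β m H a b := by
    have : (∑ i, v.shift α β m H a b i i) ^ 2 / N ≤ n / N * G := by
      rw [div_mul_eq_mul_div]; gcongr
    rw [jet_eq v N α β m ψ X₀ hcr H hsym a b htr, hR, hθdef]
    linarith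
  have hΦ : 0 ≤ θ * G + R := by
    have : 0 ≤ θ * G := by positivity
    rw [hR]; linarith
  have h1 : K * (θ * G + R) ≤ (|K| + 1) * (θ * G + R) :=
    mul_le_mul_of_nonneg_right (by linarith [le_abs_self K]) hΦ
  rw [div_mul_eq_mul_div, one_mul, div_le_iff₀ (by positivity)]
  have h2 := mul_le_mul_of_nonneg_left hlo (show 0 ≤ |K| + 1 by positivity)
  linarith

end Val

/-- Coercivity of a calibration from the values of its coefficients. -/
theorem coercive_of_good (hn : 0 < n) {N α β m S a₀ M : ℝ} (ha : 0 < a₀) (hnN : (n : ℝ) < N)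
    (hN : 2 ≤ N) {K : Coef} {ψ X₀ : ℝ → ℝ}
    (h : ∀ s ≤ S, (K.valAt α β s).Good N α β m (ψ s) (X₀ s) a₀ M) :
    Coercive n α β m S K := by
  obtain ⟨γ, hγ, hco⟩ := Val.exists_coercive N α β m (M := M) ha hn hnN hN
  refine ⟨γ, hγ, fun s hs H a b hsym htr => (hco _ _ _ (h s hs) H a b hsym htr).trans_eq ?_⟩
  simp only [Val.jet, jetX, Coef.valAt, one_mul]

end Vale.Agent.P100.Cal
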