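import Vale.Agent.P100.Cal.Orbit
import Vale.Agent.P100.Pos.Defs

/-!
P100, calibrated identity: the values of the calibration in the variables `y = α ψ`,
`z = α (a - G)`, `U = X/R` of the final gauge, and uniform positivity from pointwise positivity on
the region, which is compact.
-/

open Set

namespace Vale.Agent.P100.Cal

open Orbit (dimN)

variable (al be : ℝ)

/-- The state at a point of the region. -/
noncomputable def state (y z U R : ℝ) : Orbit where
  ψ := y / al
  a := Pos.ga al be y z
  X := U * R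
  R := R
  F := Pos.c5 al be y U
  F₁ := Pos.c5' al be y z U

variable {al be}
variable {y z U : ℝ}

theorem state_reg (R : ℝ) (hal : 0 < al) (hbe : 0 < be) (hy : be < y) :
    (state al be y z U R).Reg al be := by
  refine ⟨hal, hbe, ?_, ?_⟩ <;> simp only [Orbit.den, Orbit.dl, state] <;>
    rw [mul_div_cancel₀ _ hal.ne'] <;> intro h <;> linarith

theorem Ew_state (R : ℝ) (hal : 0 < al) (hbe : 0 < be) (hy : be < y) :
    (state al be y z U R).Ew al be (Pos.gm al be) / (state al be y z U R).dl al be =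
      Pos.gj0 al be y - 2 * z / Pos.dl be y := by
  have h1 : y + be ≠ 0 := by linarith
  have h2 : y - be ≠ 0 := by linarith
  have h3 := hal.ne'
  have h4 : al + be ≠ 0 := by linarith
  simp only [Orbit.Ew, Orbit.G, Orbit.den, Orbit.dl, dimN, state, Pos.ga, Pos.gG, Pos.gj0, Pos.gm,
    Pos.gd, Pos.den, Pos.dl, Pos.dv, Pos.dN, Pos.dD, mul_div_cancel₀ _ h3]
  rw [add_comm be y]
  field_simp
  ring

theorem A₂_state (R : ℝ) (hal : 0 < al) (hbe : 0 < be) (hy : be < y) :
    ((state al be y z U R).val al be (Pos.gm al be)).A₂ (dimN al be) be =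
      Pos.gP al be y z U -
        Pos.dM al be / (4 * Pos.dN al be) * Pos.gw al be y z U ^ 2 := by
  have h1 : y + be ≠ 0 := by linarith
  have h2 : y - be ≠ 0 := by linarith
  have h3 := hal.ne'
  have h4 : al + be + 2 ≠ 0 := by linarith
  have hd : (state al be y z U R).dl al be = y - be := by
    simp only [Orbit.dl, state, mul_div_cancel₀ _ h3]
  rw [Orbit.A₂_eq _ (state_reg R hal hbe hy), Ew_state R hal hbe hy, hd,
    show (state al be y z U R).F = Pos.c5 al be y U from rfl,
    show (state al be y z U R).F₁ = Pos.c5' al be y z U from rfl]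
  simp only [Pos.gP, Pos.gw, Pos.c5', Pos.dl, Pos.den, Pos.dM, Pos.dN, dimN]
  field_simp
  ring

theorem Cq_state (R : ℝ) (hal : 0 < al) (hbe : 0 < be) (hy : be < y) :
    ((state al be y z U R).val al be (Pos.gm al be)).Cq (dimN al be) al be (Pos.gm al be) (y / al) =
      Pos.aDe al be y z * Pos.gC al be y z U / (al ^ 2 * Pos.den be y ^ 2) := by
  have h1 : y + be ≠ 0 := by linarith
  have h3 := hal.ne'
  have h4 : al + be + 2 ≠ 0 := by linarith
  have h5 : al + be ≠ 0 := by linarith
  rw [show y / al = (state al be y z U R).ψ from rfl, Orbit.Cq_eq _ (state_reg R hal hbe hy)]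
  simp only [Orbit.De, Orbit.K, Orbit.den, dimN, state, Pos.ga, Pos.gG, Pos.gC, Pos.gE, Pos.aDe,
    Pos.c5, Pos.den, Pos.dv, Pos.dM, Pos.dN, Pos.dD, mul_div_cancel₀ _ h3]
  rw [add_comm be y]
  field_simp
  ring

theorem Bq_state (R : ℝ) (hal : 0 < al) (hbe : 0 < be) (hy : be < y) :
    ((state al be y z U R).val al be (Pos.gm al be)).Bq (dimN al be) al be (Pos.gm al be) (y / al) =
      -(Pos.dM al be * Pos.aDe al be y z * Pos.gw al be y z U / (Pos.dN al be * al * Pos.den be y) +
        Pos.gS al be y z U / Pos.den be y ^ 2) := by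
  have h1 : y + be ≠ 0 := by linarith
  have h2 : y - be ≠ 0 := by linarith
  have h3 := hal.ne'
  have h4 : al + be + 2 ≠ 0 := by linarith
  have h5 : al + be ≠ 0 := by linarith
  have hd : (state al be y z U R).dl al be = y - be := by
    simp only [Orbit.dl, state, mul_div_cancel₀ _ h3]
  refine mul_left_cancel₀ h2 ?_
  rw [← hd, show y / al = (state al be y z U R).ψ from rfl,
    Orbit.Bq_eq _ (state_reg R hal hbe hy)]
  have hE : (state al be y z U R).Ew al be (Pos.gm al be) =
      (Pos.gj0 al be y - 2 * z / Pos.dl be y) * (y - be) := by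
    rw [← Ew_state (U := U) R hal hbe hy, hd, div_mul_cancel₀ _ h2]
  rw [hE]
  simp only [Orbit.K, Orbit.De, Orbit.G, Orbit.den, Orbit.dl, dimN, state, Pos.ga, Pos.gG, Pos.gw,
    Pos.gS, Pos.c5', Pos.c5, Pos.gE, Pos.aDe, Pos.den, Pos.dl, Pos.dv, Pos.dM, Pos.dN, Pos.dD,
    mul_div_cancel₀ _ h3]
  rw [add_comm be y]
  field_simp
  ring

theorem kap_state (R : ℝ) (hal : 0 < al) (hbe : 0 < be) (hy : be < y) :
    Pos.kap al be y z U =
      al ^ 2 * Pos.den be y ^ 2 *
        (4 * ((state al be y z U R).val al be (Pos.gm al be)).A₂ (dimN al be) be *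
            ((state al be y z U R).val al be (Pos.gm al be)).Cq (dimN al be) al be (Pos.gm al be)
              (y / al) -
          ((state al be y z U R).val al be (Pos.gm al be)).Bq (dimN al be) al be (Pos.gm al be)
              (y / al) ^ 2) := by
  have h1 : y + be ≠ 0 := by linarith
  have h3 := hal.ne'
  have h4 : al + be + 2 ≠ 0 := by linarith
  rw [A₂_state R hal hbe hy, Cq_state R hal hbe hy, Bq_state R hal hbe hy]
  simp only [Pos.kap, Pos.gC, Pos.den, Pos.dM, Pos.dN]
  field_simp
  ring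

theorem rY_state (R : ℝ) (hal : 0 < al) (hbe : 0 < be) (hy : be < y) :
    Pos.dl be y * ((state al be y z U R).val al be (Pos.gm al be)).rY be =
      R * Pos.gB al be y z U := by
  have h1 : y + be ≠ 0 := by linarith
  have h3 := hal.ne'
  have hd : (state al be y z U R).dl al be = y - be := by
    simp only [Orbit.dl, state, mul_div_cancel₀ _ h3]
  rw [show Pos.dl be y = y - be from rfl, ← hd, Orbit.rY_eq _ (state_reg R hal hbe hy)]
  simp only [Orbit.K, Orbit.G, Orbit.den, dimN, state, Pos.gB, Pos.gG, Pos.den, Pos.dv, Pos.dM,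
    Pos.dN, mul_div_cancel₀ _ h3]
  rw [add_comm be y]
  field_simp
  ring

theorem P₂_state (R : ℝ) (hal : 0 < al) (hbe : 0 < be) (hy : be < y) :
    ((state al be y z U R).val al be (Pos.gm al be)).P₂ =
      y / al * ((state al be y z U R).val al be (Pos.gm al be)).P₁ +
        U * R * Pos.aDe al be y z / al ^ 2 := by
  have h1 : y + be ≠ 0 := by linarith
  have h3 := hal.ne'
  simp only [Orbit.val, dimN, state, Pos.ga, Pos.gG, Pos.aDe, Pos.den, Pos.dv, Pos.dN]
  field_simp
  ring

/-- On the region `C` is at least a fixed multiple of `α De`. -/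
theorem gC_ge (h : Pos.Region al be y z U) :
    2 * be * Pos.dM al be / (al * Pos.dN al be) * Pos.aDe al be y z ≤ Pos.gC al be y z U := by
  obtain ⟨hbe, hal, hD, -, hyal, hyh, hz, hz2, -, -, hU⟩ := h
  have hal0 : 0 < al := by linarith
  simp only [Pos.dD, Pos.dN] at hyh hz2 hU
  have hd : 0 < al + be := by linarith
  have hN : 0 < al + be + 2 := by linarith
  have hv : 0 ≤ al - y := sub_nonneg.2 hyal
  have hM : 0 < Pos.dM al be := by simp only [Pos.dM]; linarith
  have hde : Pos.aDe al be y z ≤ (al - y) * (be * (al + be + 2) / (al + be)) := by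
    simp only [Pos.aDe, Pos.dv]
    linarith
  have hL : 1 + 2 * be / al ≤ Pos.gL al be U := by
    simp only [Pos.gL, Pos.l1, Pos.dD]
    exact le_add_of_nonneg_right (mul_nonneg (div_nonneg (by linarith) hd.le)
      (sub_nonneg.2 ((div_le_one hd).2 hU)))
  have e : Pos.gE al be y U =
      Pos.dM al be / (al + be + 2) * Pos.gL al be U *
        ((al - y) * (be * (al + be + 2) / (al + be))) := by
    simp only [Pos.gE, Pos.dv, Pos.dD]
    field_simp
  have h1 := mul_le_mul_of_nonneg_left hde
    (show 0 ≤ Pos.dM al be / (al + be + 2) * (1 + 2 * be / al) by positivity)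
  have h2 := mul_le_mul_of_nonneg_right
    (mul_le_mul_of_nonneg_left hL (div_nonneg hM.le hN.le))
    (mul_nonneg hv (show 0 ≤ be * (al + be + 2) / (al + be) by positivity))
  simp only [Pos.gC, Pos.dN]
  rw [e]
  have e2 : Pos.dM al be / (al + be + 2) * (1 + 2 * be / al) * Pos.aDe al be y z =
      2 * be * Pos.dM al be / (al * (al + be + 2)) * Pos.aDe al be y z +
        Pos.dM al be * Pos.aDe al be y z / (al + be + 2) := by
    field_simp
    ring
  linarith

variable (al be)

/-- The region as a set. -/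
def regionSet : Set (ℝ × ℝ × ℝ) := {p | Pos.Region al be p.1 p.2.1 p.2.2}

theorem isCompact_regionSet : IsCompact (regionSet al be) := by
  by_cases hp : 1 ≤ be ∧ be < al ∧ 3 ≤ al + be
  · obtain ⟨h1, h2, h3⟩ := hp
    set Z := al * (be * (al + be + 2) / (al + be)) / be
    have hsub : regionSet al be ⊆ Icc be al ×ˢ Icc 0 Z ×ˢ Icc (-2) (al + be) := by
      rintro ⟨y, z, U⟩ h
      have hy : be < y := Pos.Region.hy h
      obtain ⟨hbe, hal, hD, -, hyal, hyh, hz, hz2, -, hU0, hU⟩ := h
      simp only [Pos.dD, Pos.dN, Pos.den] at hyal hyh hz2 hU hy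
      refine ⟨⟨hy.le, hyal⟩, ⟨hz, ?_⟩, hU0, hU⟩
      rw [le_div_iff₀ (by linarith)]
      have hb : 0 ≤ be * (al + be + 2) / (al + be) := by
        have : 0 < al + be := by linarith
        have : 0 ≤ be := by linarith
        positivity
      have h4 : (al - y) * (be * (al + be + 2) / (al + be) - y) ≤
          al * (be * (al + be + 2) / (al + be)) :=
        (mul_le_mul_of_nonneg_left (sub_le_self _ (by linarith)) (sub_nonneg.2 hyal)).trans
          (mul_le_mul_of_nonneg_right (sub_le_self _ (by linarith)) hb)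
      have h5 := mul_le_mul_of_nonneg_right (show be ≤ y + be by linarith) hz
      linarith
    refine (isCompact_Icc.prod (isCompact_Icc.prod isCompact_Icc)).of_isClosed_subset ?_ hsub
    have e : regionSet al be = {p |
        2 * be * (al - be) ≤
          (p.1 - be) * (Pos.dN al be ^ 2 + 2 * be + 6 * Pos.dN al be) ∧ p.1 ≤ al ∧
        p.1 * Pos.dD al be ≤ be * Pos.dN al be ∧ 0 ≤ p.2.1 ∧
        Pos.den be p.1 * p.2.1 ≤ (al - p.1) * (be * Pos.dN al be / Pos.dD al be - p.1) ∧
        -2 ≤ p.2.2 ∧ p.2.2 ≤ Pos.dD al be ∧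
        (be * (Pos.dN al be + 2) * (Pos.den be p.1 * p.2.1) ≤
            p.1 * (p.1 * (Pos.dN al be ^ 2 + 2 * be) - be * (Pos.dN al be ^ 2 + 2 * al)) ∨
          p.2.2 ≤ 0 ∧ be ≤ p.1 ∧ be * (Pos.dN al be + 2) * (Pos.den be p.1 * p.2.1) ≤
            p.1 * (p.1 * (Pos.dN al be ^ 2 + 2 * be) - be * (Pos.dN al be ^ 2 + 2 * al)) +
              Pos.dN al be * (Pos.dN al be + 2) * (al + 2) * Pos.dl be p.1 * Pos.den be p.1 /
                  (max be p.1 * (al - be) * (Pos.dN al be + 4)) *
                ((al - p.1) * (be * Pos.dN al be / Pos.dD al be - p.1)))} := by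
      ext p
      constructor
      · intro h
        have hy : be < p.1 := Pos.Region.hy h
        obtain ⟨-, -, -, a, b, c, d, e, f, g, k⟩ := h
        refine ⟨a, b, c, d, e, g, k, ?_⟩
        split_ifs at f with hU
        · exact Or.inr ⟨hU, hy.le, by rwa [max_eq_right hy.le]⟩
        · exact Or.inl (by rwa [add_zero] at f)
      · rintro ⟨a, b, c, d, e, g, k, hor⟩
        refine ⟨h1, h2, h3, a, b, c, d, e, ?_, g, k⟩
        rcases hor with f | ⟨hU, hy, f⟩
        · refine f.trans (le_add_of_nonneg_right ?_)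
          split_ifs with hU
          · have hy : be ≤ p.1 := sub_nonneg.1 (nonneg_of_mul_nonneg_left
              ((mul_nonneg (by linarith) (by linarith)).trans a)
              (by simp only [Pos.dN]; positivity))
            have hyD : p.1 ≤ be * Pos.dN al be / Pos.dD al be :=
              (le_div_iff₀ (show 0 < Pos.dD al be by simp only [Pos.dD]; linarith)).2 c
            have hN : 0 < Pos.dN al be := by simp only [Pos.dN]; linarith
            have : 0 ≤ Pos.dl be p.1 := sub_nonneg.2 hy
            have : 0 ≤ Pos.den be p.1 := by simp only [Pos.den]; linarith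
            have : 0 ≤ al - p.1 := sub_nonneg.2 b
            have : 0 ≤ be * Pos.dN al be / Pos.dD al be - p.1 := sub_nonneg.2 hyD
            have : 0 ≤ p.1 * (al - be) := mul_nonneg (by linarith) (by linarith)
            have : 0 ≤ al + 2 := by linarith
            positivity
          · exact le_rfl
        · rw [if_pos hU]
          rwa [max_eq_right hy] at f
    rw [e]
    simp only [Pos.den, Pos.dl, ofPred_and, ofPred_or]
    have hne : ∀ p : ℝ × ℝ × ℝ,
        max be p.1 * (al - be) * (Pos.dN al be + 4) ≠ 0 := fun p => by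
      have hmax : 0 < max be p.1 := lt_max_of_lt_left (by linarith)
      have hN : 0 < Pos.dN al be + 4 := by simp only [Pos.dN]; linarith
      exact (mul_pos (mul_pos hmax (sub_pos.2 h2)) hN).ne'
    refine (IsClosed.inter ?_ (IsClosed.inter ?_ (IsClosed.inter ?_ (IsClosed.inter ?_
      (IsClosed.inter ?_ (IsClosed.inter ?_ (IsClosed.inter ?_ (IsClosed.union ?_
        (IsClosed.inter ?_ (IsClosed.inter ?_ ?_))))))))))
    all_goals exact isClosed_le (by fun_prop (disch := assumption)) (by fun_prop (disch := assumption))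
  · have : regionSet al be = ∅ := eq_empty_iff_forall_notMem.2 fun p h =>
      hp ⟨h.hbe, h.hal, h.hD⟩
    rw [this]
    exact isCompact_empty

theorem continuousOn_region :
    ContinuousOn (fun p : ℝ × ℝ × ℝ => Pos.gP al be p.1 p.2.1 p.2.2) (regionSet al be) ∧
      ContinuousOn (fun p : ℝ × ℝ × ℝ => Pos.gB al be p.1 p.2.1 p.2.2) (regionSet al be) ∧
      ContinuousOn (fun p : ℝ × ℝ × ℝ => Pos.gw al be p.1 p.2.1 p.2.2) (regionSet al be) ∧
      ContinuousOn (fun p : ℝ × ℝ × ℝ => Pos.gC al be p.1 p.2.1 p.2.2) (regionSet al be) ∧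
      ContinuousOn (fun p : ℝ × ℝ × ℝ => Pos.c5 al be p.1 p.2.2) (regionSet al be) ∧
      ContinuousOn (fun p : ℝ × ℝ × ℝ => Pos.gG al be p.1) (regionSet al be) ∧
      ContinuousOn (fun p : ℝ × ℝ × ℝ => Pos.gj0 al be p.1 - 2 * p.2.1 / Pos.dl be p.1)
        (regionSet al be) := by
  have a1 : ∀ p ∈ regionSet al be, p.1 + be ≠ 0 := fun p h => by
    have := Pos.Region.hy h; have := h.hbe; linarith
  have a2 : ∀ p ∈ regionSet al be, p.1 - be ≠ 0 := fun p h => by
    have := Pos.Region.hy h; linarith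
  have a3 : ∀ p ∈ regionSet al be, (p.1 + be) ^ 2 ≠ 0 := fun p h => pow_ne_zero 2 (a1 p h)
  have a4 : ∀ p ∈ regionSet al be, (p.1 + be) ^ 2 * (p.1 - be) ≠ 0 :=
    fun p h => mul_ne_zero (a3 p h) (a2 p h)
  have a5 : ∀ p ∈ regionSet al be, al * (p.1 + be) ≠ 0 := fun p h => by
    have := h.hal; have := h.hbe; exact mul_ne_zero (by linarith) (a1 p h)
  simp only [Pos.gP, Pos.gB, Pos.gw, Pos.gC, Pos.c5', Pos.gE1, Pos.gE, Pos.gj0, Pos.aDe, Pos.dU,
    Pos.gL, Pos.ga, Pos.gG, Pos.c5, Pos.den, Pos.dl, Pos.dv]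
  refine ⟨?_, ?_, ?_, ?_, ?_, ?_, ?_⟩ <;> fun_prop (disch := assumption)

end Vale.Agent.P100.Cal
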